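import Mathlib

/-!
Row 95 (generator problem for II₁ factors): basic definitions.

Tracial states on unital C⋆-algebras, the trace 2-seminorm, finite "binary tree" averages,
reduced words in a unitary and freeness of a Haar unitary from a set.
-/

set_option autoImplicit false

open Filter Topology
open scoped ComplexOrder InnerProductSpace ComplexConjugate

namespace Crest.Agent.R095

/-- A tracial state on a unital C⋆-algebra (not necessarily faithful). -/
structure Tr (A : Type*) [CStarAlgebra A] where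
  /-- the functional -/
  toLin : A →ₗ[ℂ] ℂ
  map_one' : toLin 1 = 1
  tracial' : ∀ x y : A, toLin (x * y) = toLin (y * x)
  pos' : ∀ x : A, 0 ≤ toLin (star x * x)

namespace Tr

variable {A : Type*} [CStarAlgebra A]

noncomputable instance : CoeFun (Tr A) (fun _ => A → ℂ) := ⟨fun τ => τ.toLin⟩

variable (τ : Tr A)

@[simp] lemma map_one : τ 1 = 1 := τ.map_one'
@[simp] lemma map_zero : τ 0 = 0 := τ.toLin.map_zero
@[simp] lemma map_add (x y : A) : τ (x + y) = τ x + τ y := τ.toLin.map_add x y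
@[simp] lemma map_sub (x y : A) : τ (x - y) = τ x - τ y := τ.toLin.map_sub x y
@[simp] lemma map_neg (x : A) : τ (-x) = -τ x := τ.toLin.map_neg x
@[simp] lemma map_smul (c : ℂ) (x : A) : τ (c • x) = c * τ x := τ.toLin.map_smul c x
@[simp] lemma map_real_smul (c : ℝ) (x : A) : τ (c • x) = c * τ x := by
  rw [← Complex.coe_smul, map_smul]
lemma map_sum {ι : Type*} (s : Finset ι) (f : ι → A) : τ (∑ i ∈ s, f i) = ∑ i ∈ s, τ (f i) :=
  _root_.map_sum τ.toLin f s
@[simp] lemma map_algebraMap (c : ℂ) : τ (algebraMap ℂ A c) = c := by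
  rw [Algebra.algebraMap_eq_smul_one, map_smul, map_one, mul_one]
lemma comm (x y : A) : τ (x * y) = τ (y * x) := τ.tracial' x y
lemma cyc3 (x y z : A) : τ (x * y * z) = τ (z * x * y) := by
  rw [τ.comm, mul_assoc]
lemma pos (x : A) : 0 ≤ τ (star x * x) := τ.pos' x
lemma re_nonneg (x : A) : 0 ≤ (τ (star x * x)).re := (Complex.le_def.mp (τ.pos x)).1
lemma im_star_mul_self (x : A) : (τ (star x * x)).im = 0 :=
  ((Complex.le_def.mp (τ.pos x)).2).symm

lemma map_star (x : A) : τ (star x) = conj (τ x) := by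
  have h1 := τ.im_star_mul_self (1 + x)
  have h2 := τ.im_star_mul_self (1 + Complex.I • x)
  have h3 := τ.im_star_mul_self x
  have e1 : star (1 + x) * (1 + x) = 1 + x + star x + star x * x := by
    simp only [star_add, star_one]; noncomm_ring
  have e2 : star (1 + Complex.I • x) * (1 + Complex.I • x)
      = 1 + Complex.I • x - Complex.I • star x + star x * x := by
    have hII : Complex.I • Complex.I • (star x * x) = -(star x * x) := by
      rw [smul_smul, Complex.I_mul_I, neg_one_smul]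
    simp only [star_add, star_one, star_smul, Complex.star_def, Complex.conj_I, neg_smul,
      add_mul, mul_add, one_mul, mul_one, neg_mul, smul_mul_assoc, mul_smul_comm, smul_neg,
      smul_add, hII]
    abel
  rw [e1] at h1
  rw [e2] at h2
  simp only [map_add, map_sub, map_one, map_smul, Complex.add_im, Complex.sub_im, Complex.one_im,
    Complex.mul_im, Complex.I_re, Complex.I_im, h3] at h1 h2
  apply Complex.ext
  · simp only [Complex.conj_re]; linarith
  · simp only [Complex.conj_im]; linarith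

lemma im_of_isSelfAdjoint {x : A} (hx : IsSelfAdjoint x) : (τ x).im = 0 := by
  have := τ.map_star x
  rw [hx.star_eq] at this
  exact Complex.conj_eq_iff_im.mp this.symm

set_option linter.unusedVariables false in
/-- The algebra with the semi-inner product `⟪x, y⟫ = τ (x⋆ y)`: a type synonym. -/
@[nolint unusedArguments]
def L2 (τ : Tr A) : Type _ := A

noncomputable instance : AddCommGroup τ.L2 := inferInstanceAs (AddCommGroup A)
noncomputable instance : Module ℂ τ.L2 := inferInstanceAs (Module ℂ A)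

/-- The identity map into the synonym. -/
noncomputable def toL2 : A ≃ₗ[ℂ] τ.L2 := LinearEquiv.refl ℂ _

/-- The semi-inner product of the trace. -/
noncomputable abbrev core : PreInnerProductSpace.Core ℂ τ.L2 where
  inner a b := τ (star (τ.toL2.symm a) * τ.toL2.symm b)
  conj_inner_symm a b := by rw [← τ.map_star, star_mul, star_star]
  re_inner_nonneg a := τ.re_nonneg _
  add_left a b c := by rw [_root_.map_add, star_add, add_mul, map_add]
  smul_left a b r := by
    rw [_root_.map_smul, star_smul, smul_mul_assoc, map_smul]; rfl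

noncomputable instance : SeminormedAddCommGroup τ.L2 :=
  InnerProductSpace.Core.toSeminormedAddCommGroup (c := τ.core)
noncomputable instance : InnerProductSpace ℂ τ.L2 := InnerProductSpace.ofCore τ.core

lemma inner_toL2 (x y : A) : ⟪τ.toL2 x, τ.toL2 y⟫_ℂ = τ (star x * y) := rfl

/-- The trace 2-seminorm `‖x‖₂ = τ (x⋆ x) ^ (1/2)`. -/
noncomputable def n2 (x : A) : ℝ := ‖τ.toL2 x‖

lemma n2_def (x : A) : τ.n2 x = ‖τ.toL2 x‖ := rfl
lemma n2_eq_sqrt (x : A) : τ.n2 x = √(τ (star x * x)).re := rfl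
lemma n2_nonneg (x : A) : 0 ≤ τ.n2 x := norm_nonneg _
lemma n2_sq (x : A) : τ.n2 x ^ 2 = (τ (star x * x)).re := by
  rw [n2_eq_sqrt, Real.sq_sqrt (τ.re_nonneg x)]
lemma n2_sq_complex (x : A) : ((τ.n2 x : ℂ)) ^ 2 = τ (star x * x) := by
  rw [← Complex.ofReal_pow, n2_sq]
  exact Complex.ext (by simp) (by simp [τ.im_star_mul_self])
lemma dist_toL2 (x y : A) : dist (τ.toL2 x) (τ.toL2 y) = τ.n2 (x - y) := by
  rw [dist_eq_norm, n2_def, _root_.map_sub]
@[simp] lemma n2_zero : τ.n2 0 = 0 := by simp [n2_def]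
@[simp] lemma n2_one : τ.n2 1 = 1 := by simp [n2_eq_sqrt]
@[simp] lemma n2_neg (x : A) : τ.n2 (-x) = τ.n2 x := by simp [n2_def]
lemma n2_sub_comm (x y : A) : τ.n2 (x - y) = τ.n2 (y - x) := by rw [← n2_neg, neg_sub]
lemma n2_add_le (x y : A) : τ.n2 (x + y) ≤ τ.n2 x + τ.n2 y := by
  simp only [n2_def, _root_.map_add]; exact norm_add_le _ _
lemma n2_sub_le (x y : A) : τ.n2 (x - y) ≤ τ.n2 x + τ.n2 y := by
  simp only [n2_def, _root_.map_sub]; exact norm_sub_le _ _
lemma n2_triangle (x y z : A) : τ.n2 (x - z) ≤ τ.n2 (x - y) + τ.n2 (y - z) := by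
  have := τ.n2_add_le (x - y) (y - z)
  rwa [sub_add_sub_cancel] at this
lemma n2_smul (c : ℂ) (x : A) : τ.n2 (c • x) = ‖c‖ * τ.n2 x := by
  simp only [n2_def, _root_.map_smul, norm_smul]
lemma n2_real_smul (c : ℝ) (x : A) : τ.n2 (c • x) = |c| * τ.n2 x := by
  rw [← Complex.coe_smul, n2_smul, Complex.norm_real, Real.norm_eq_abs]
lemma n2_sum_le {ι : Type*} (s : Finset ι) (f : ι → A) :
    τ.n2 (∑ i ∈ s, f i) ≤ ∑ i ∈ s, τ.n2 (f i) := by
  simp only [n2_def, _root_.map_sum]; exact norm_sum_le _ _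
@[simp] lemma n2_star (x : A) : τ.n2 (star x) = τ.n2 x := by
  rw [n2_eq_sqrt, n2_eq_sqrt, star_star, τ.comm]

/-- Cauchy–Schwarz. -/
lemma norm_star_mul_le (x y : A) : ‖τ (star x * y)‖ ≤ τ.n2 x * τ.n2 y := by
  rw [← inner_toL2]; exact norm_inner_le_norm _ _
/-- Cauchy–Schwarz. -/
lemma norm_mul_le_n2 (x y : A) : ‖τ (x * y)‖ ≤ τ.n2 x * τ.n2 y := by
  have := τ.norm_star_mul_le (star x) y
  rwa [star_star, n2_star] at this
lemma norm_le_n2 (x : A) : ‖τ x‖ ≤ τ.n2 x := by
  simpa using τ.norm_mul_le_n2 1 x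

lemma n2_mul_le (x y : A) : τ.n2 (x * y) ≤ ‖x‖ * τ.n2 y := by
  let _ := CStarAlgebra.spectralOrder A
  let _ := CStarAlgebra.spectralOrderedRing A
  have h0 : 0 ≤ algebraMap ℝ A (‖x‖ ^ 2) - star x * x := by
    rw [sub_nonneg, sq, ← CStarRing.norm_star_mul_self]
    exact IsSelfAdjoint.le_algebraMap_norm_self (IsSelfAdjoint.star_mul_self x)
  obtain ⟨c, hc⟩ : ∃ c : A, algebraMap ℝ A (‖x‖ ^ 2) - star x * x = star c * c := by
    refine ⟨CFC.sqrt (algebraMap ℝ A (‖x‖ ^ 2) - star x * x), ?_⟩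
    rw [(IsSelfAdjoint.of_nonneg (CFC.sqrt_nonneg
      (algebraMap ℝ A (‖x‖ ^ 2) - star x * x))).star_eq, CFC.sqrt_mul_sqrt_self _ h0]
  have h1 := τ.re_nonneg (c * y)
  have e : star (c * y) * (c * y) = (‖x‖ ^ 2 : ℝ) • (star y * y) - star (x * y) * (x * y) := by
    calc star (c * y) * (c * y) = star y * (star c * c) * y := by
          simp only [star_mul, mul_assoc]
      _ = _ := by
          rw [← hc, Algebra.algebraMap_eq_smul_one]
          simp only [star_mul, mul_sub, sub_mul, mul_assoc, mul_smul_comm, smul_mul_assoc,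
            one_mul]
  rw [e, map_sub, map_real_smul, Complex.sub_re, Complex.re_ofReal_mul, ← n2_sq, ← n2_sq] at h1
  have h2 : 0 ≤ ‖x‖ * τ.n2 y := mul_nonneg (norm_nonneg _) (τ.n2_nonneg _)
  refine (pow_le_pow_iff_left₀ (τ.n2_nonneg _) h2 two_ne_zero).mp ?_
  rw [mul_pow]; linarith

lemma n2_mul_le' (x y : A) : τ.n2 (x * y) ≤ τ.n2 x * ‖y‖ := by
  rw [← n2_star, star_mul, mul_comm, ← norm_star y, ← τ.n2_star x]
  exact τ.n2_mul_le _ _

lemma n2_le_norm (x : A) : τ.n2 x ≤ ‖x‖ := by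
  simpa using τ.n2_mul_le x 1
lemma norm_le (x : A) : ‖τ x‖ ≤ ‖x‖ := (τ.norm_le_n2 x).trans (τ.n2_le_norm x)
lemma norm_mul_le_norm_n2 (x y : A) : ‖τ (x * y)‖ ≤ ‖x‖ * τ.n2 y :=
  (τ.norm_le_n2 _).trans (τ.n2_mul_le x y)
lemma norm_mul_le_n2_norm (x y : A) : ‖τ (x * y)‖ ≤ τ.n2 x * ‖y‖ :=
  (τ.norm_le_n2 _).trans (τ.n2_mul_le' x y)

lemma nontrivial (τ : Tr A) : Nontrivial A := by
  refine ⟨⟨1, 0, fun h => ?_⟩⟩
  have := τ.map_one
  rw [h, map_zero] at this
  exact zero_ne_one this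

/-- The trace as a continuous linear functional. -/
noncomputable def clm : A →L[ℂ] ℂ := τ.toLin.mkContinuous 1 (fun x => by simpa using τ.norm_le x)
@[simp] lemma clm_apply (x : A) : τ.clm x = τ x := rfl
lemma continuous : Continuous (fun x : A => τ x) := τ.clm.continuous
lemma continuous_n2 : Continuous τ.n2 := by
  have : τ.n2 = fun x => √(τ (star x * x)).re := funext τ.n2_eq_sqrt
  rw [this]
  exact (Complex.continuous_re.comp (τ.continuous.comp (continuous_star.mul continuous_id))).sqrt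

lemma n2_unitary_mul {u : A} (hu : u ∈ unitary A) (x : A) : τ.n2 (u * x) = τ.n2 x := by
  rw [n2_eq_sqrt, n2_eq_sqrt, star_mul, mul_assoc, ← mul_assoc (star u),
    Unitary.star_mul_self_of_mem hu, one_mul]
lemma n2_mul_unitary {u : A} (hu : u ∈ unitary A) (x : A) : τ.n2 (x * u) = τ.n2 x := by
  rw [← n2_star, star_mul, τ.n2_unitary_mul (Unitary.star_mem hu), n2_star]
lemma n2_of_unitary {u : A} (hu : u ∈ unitary A) : τ.n2 u = 1 := by
  simpa using τ.n2_unitary_mul hu 1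
lemma conj_unitary {u : A} (hu : u ∈ unitary A) (x : A) : τ (u * x * star u) = τ x := by
  rw [τ.cyc3, Unitary.star_mul_self_of_mem hu, one_mul]
lemma conj_unitary' {u : A} (hu : u ∈ unitary A) (x : A) : τ (star u * x * u) = τ x := by
  rw [τ.cyc3, Unitary.mul_star_self_of_mem hu, one_mul]

/-- `τ` is faithful. -/
def Faithful : Prop := ∀ x : A, τ.n2 x = 0 → x = 0

/-- Norm-bounded sequences that are Cauchy for the 2-seminorm have a 2-limit in the same ball. -/
def Complete : Prop :=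
  ∀ (x : ℕ → A) (R : ℝ), (∀ n, ‖x n‖ ≤ R) → CauchySeq (fun n => τ.toL2 (x n)) →
    ∃ y : A, ‖y‖ ≤ R ∧ Tendsto (fun n => τ.n2 (x n - y)) atTop (𝓝 0)

/-- `(A, τ)` is an abstract tracial von Neumann algebra with separable predual. -/
structure IsTW : Prop where
  faithful : τ.Faithful
  complete : τ.Complete
  sep : TopologicalSpace.SeparableSpace τ.L2

/-- A set closed under 2-limits of norm-bounded sequences. -/
def WClosed (B : Set A) : Prop :=
  ∀ (x : ℕ → A) (R : ℝ) (y : A), (∀ n, x n ∈ B) → (∀ n, ‖x n‖ ≤ R) →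
    Tendsto (fun n => τ.n2 (x n - y)) atTop (𝓝 0) → y ∈ B

lemma WClosed.isClosed {τ : Tr A} {B : Set A} (h : τ.WClosed B) : IsClosed B := by
  refine isSeqClosed_iff_isClosed.mp fun x y hx hxy => ?_
  obtain ⟨R, hR⟩ := (Metric.isBounded_range_of_tendsto x hxy).exists_norm_le
  refine h x R y hx (fun n => hR _ ⟨n, rfl⟩) ?_
  have h1 : Tendsto (fun n => x n - y) atTop (𝓝 0) := by
    simpa using hxy.sub_const y
  simpa [Function.comp_def] using (τ.continuous_n2.tendsto 0).comp h1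

end Tr

/-- `P` has trivial relative commutant. -/
def Irred {A : Type*} [CStarAlgebra A] (P : Set A) : Prop :=
  ∀ x : A, (∀ y ∈ P, x * y = y * x) → ∃ c : ℂ, x = c • (1 : A)

/-! ### Finite averages -/

/-- Finite dyadic probability averages, as binary trees. -/
inductive Mean (Ω : Type*) : Type _
  | pt : Ω → Mean Ω
  | mid : Mean Ω → Mean Ω → Mean Ω

namespace Mean

variable {Ω Ω' : Type*} {V W : Type*} [AddCommGroup V] [Module ℝ V] [AddCommGroup W] [Module ℝ W]

/-- The average of `f`. -/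
noncomputable def E : Mean Ω → (Ω → V) → V
  | pt ω, f => f ω
  | mid μ ν, f => (2⁻¹ : ℝ) • (E μ f + E ν f)

/-- Every point of the support satisfies `p`. -/
def All : Mean Ω → (Ω → Prop) → Prop
  | pt ω, p => p ω
  | mid μ ν, p => All μ p ∧ All ν p

/-- Two-stage average. -/
def bind : Mean Ω → (Ω → Mean Ω') → Mean Ω'
  | pt ω, g => g ω
  | mid μ ν, g => mid (bind μ g) (bind ν g)

/-- Push-forward. -/
def map (g : Ω → Ω') (μ : Mean Ω) : Mean Ω' := μ.bind fun ω => pt (g ω)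

@[simp] lemma E_pt (ω : Ω) (f : Ω → V) : (pt ω).E f = f ω := rfl
@[simp] lemma E_mid (μ ν : Mean Ω) (f : Ω → V) :
    (mid μ ν).E f = (2⁻¹ : ℝ) • (μ.E f + ν.E f) := rfl
@[simp] lemma all_pt (ω : Ω) (p : Ω → Prop) : (pt ω).All p ↔ p ω := Iff.rfl
@[simp] lemma all_mid (μ ν : Mean Ω) (p : Ω → Prop) :
    (mid μ ν).All p ↔ μ.All p ∧ ν.All p := Iff.rfl

lemma E_bind (μ : Mean Ω) (g : Ω → Mean Ω') (f : Ω' → V) :
    (μ.bind g).E f = μ.E fun ω => (g ω).E f := by
  induction μ with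
  | pt ω => rfl
  | mid μ ν h1 h2 => simp only [bind, E_mid, h1, h2]

lemma E_map (g : Ω → Ω') (μ : Mean Ω) (f : Ω' → V) : (μ.map g).E f = μ.E fun ω => f (g ω) := by
  simp only [map, E_bind, E_pt]

lemma all_bind (μ : Mean Ω) (g : Ω → Mean Ω') (p : Ω' → Prop) :
    (μ.bind g).All p ↔ μ.All fun ω => (g ω).All p := by
  induction μ with
  | pt ω => rfl
  | mid μ ν h1 h2 => simp only [bind, all_mid, h1, h2]

lemma all_map (g : Ω → Ω') (μ : Mean Ω) (p : Ω' → Prop) :
    (μ.map g).All p ↔ μ.All fun ω => p (g ω) := by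
  simp only [map, all_bind, all_pt]

lemma all_of_forall (μ : Mean Ω) {p : Ω → Prop} (h : ∀ ω, p ω) : μ.All p := by
  induction μ with
  | pt ω => exact h ω
  | mid μ ν h1 h2 => exact ⟨h1, h2⟩

lemma All.mono {μ : Mean Ω} {p q : Ω → Prop} (h : μ.All p) (hpq : ∀ ω, p ω → q ω) : μ.All q := by
  induction μ with
  | pt ω => exact hpq ω h
  | mid μ ν h1 h2 => exact ⟨h1 h.1, h2 h.2⟩

lemma All.and {μ : Mean Ω} {p q : Ω → Prop} (h : μ.All p) (h' : μ.All q) :
    μ.All fun ω => p ω ∧ q ω := by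
  induction μ with
  | pt ω => exact ⟨h, h'⟩
  | mid μ ν h1 h2 => exact ⟨h1 h.1 h'.1, h2 h.2 h'.2⟩

lemma E_congr {μ : Mean Ω} {f g : Ω → V} (h : μ.All fun ω => f ω = g ω) : μ.E f = μ.E g := by
  induction μ with
  | pt ω => exact h
  | mid μ ν h1 h2 => simp only [E_mid, h1 h.1, h2 h.2]

@[simp] lemma E_const (μ : Mean Ω) (v : V) : μ.E (fun _ => v) = v := by
  induction μ with
  | pt ω => rfl
  | mid μ ν h1 h2 => rw [E_mid, h1, h2, ← two_smul ℝ v, smul_smul]; norm_num

lemma E_add (μ : Mean Ω) (f g : Ω → V) : μ.E (fun ω => f ω + g ω) = μ.E f + μ.E g := by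
  induction μ with
  | pt ω => rfl
  | mid μ ν h1 h2 => simp only [E_mid, h1, h2, smul_add]; abel

/-- Averages commute with real-linear maps. -/
lemma map_E (μ : Mean Ω) (T : V →ₗ[ℝ] W) (f : Ω → V) : T (μ.E f) = μ.E fun ω => T (f ω) := by
  induction μ with
  | pt ω => rfl
  | mid μ ν h1 h2 => simp only [E_mid, _root_.map_smul, _root_.map_add, h1, h2]

/-- Averages commute with additive maps that are real-homogeneous. -/
lemma map_E' (μ : Mean Ω) (T : V → W) (hadd : ∀ x y, T (x + y) = T x + T y)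
    (hsmul : ∀ (c : ℝ) x, T (c • x) = c • T x) (f : Ω → V) :
    T (μ.E f) = μ.E fun ω => T (f ω) :=
  μ.map_E { toFun := T, map_add' := hadd, map_smul' := hsmul } f

lemma E_neg (μ : Mean Ω) (f : Ω → V) : μ.E (fun ω => -f ω) = -μ.E f :=
  (μ.map_E' (fun v : V => -v) (fun x y => neg_add x y) (fun c x => (smul_neg c x).symm) f).symm

lemma E_sub (μ : Mean Ω) (f g : Ω → V) : μ.E (fun ω => f ω - g ω) = μ.E f - μ.E g := by
  simp only [sub_eq_add_neg, E_add, E_neg]

lemma E_smul (μ : Mean Ω) (c : ℝ) (f : Ω → V) : μ.E (fun ω => c • f ω) = c • μ.E f :=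
  (μ.map_E' (fun v : V => c • v) (fun x y => smul_add c x y) (fun d x => smul_comm c d x) f).symm

lemma E_sum {ι : Type*} (μ : Mean Ω) (s : Finset ι) (f : ι → Ω → V) :
    μ.E (fun ω => ∑ i ∈ s, f i ω) = ∑ i ∈ s, μ.E (f i) := by
  classical
  induction s using Finset.induction_on with
  | empty => simp
  | insert i s hi ih => simp only [Finset.sum_insert hi, E_add, ih]

/-- Fubini. -/
lemma E_comm (μ : Mean Ω) (ν : Mean Ω') (f : Ω → Ω' → V) :
    μ.E (fun ω => ν.E (f ω)) = ν.E fun ω' => μ.E fun ω => f ω ω' := by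
  induction μ with
  | pt ω => rfl
  | mid μ μ' h1 h2 => simp only [E_mid, h1, h2, E_smul, E_add]

lemma E_mono {μ : Mean Ω} {f g : Ω → ℝ} (h : μ.All fun ω => f ω ≤ g ω) : μ.E f ≤ μ.E g := by
  induction μ with
  | pt ω => exact h
  | mid μ ν h1 h2 =>
    have := h1 h.1
    have := h2 h.2
    simp only [E_mid, smul_eq_mul]; linarith

lemma E_le {μ : Mean Ω} {f : Ω → ℝ} {c : ℝ} (h : μ.All fun ω => f ω ≤ c) : μ.E f ≤ c := by
  simpa using E_mono (μ := μ) (g := fun _ => c) h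

lemma le_E {μ : Mean Ω} {f : Ω → ℝ} {c : ℝ} (h : μ.All fun ω => c ≤ f ω) : c ≤ μ.E f := by
  simpa using E_mono (μ := μ) (f := fun _ => c) h

lemma E_mul_left (μ : Mean Ω) (c : ℝ) (f : Ω → ℝ) : μ.E (fun ω => c * f ω) = c * μ.E f :=
  μ.E_smul c f

/-- Averages stay in convex sets. -/
lemma E_mem {μ : Mean Ω} {f : Ω → V} {s : Set V} (hs : Convex ℝ s) (h : μ.All fun ω => f ω ∈ s) :
    μ.E f ∈ s := by
  induction μ with
  | pt ω => exact h
  | mid μ ν h1 h2 =>
    rw [E_mid, smul_add]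
    exact hs (h1 h.1) (h2 h.2) (by norm_num) (by norm_num) (by norm_num)

lemma norm_E_le {X : Type*} [SeminormedAddCommGroup X] [NormedSpace ℝ X] (μ : Mean Ω)
    (f : Ω → X) : ‖μ.E f‖ ≤ μ.E fun ω => ‖f ω‖ := by
  induction μ with
  | pt ω => exact le_rfl
  | mid μ ν h1 h2 =>
    have := norm_add_le (μ.E f) (ν.E f)
    simp only [E_mid, norm_smul, smul_eq_mul, norm_inv, Real.norm_ofNat]; linarith

lemma norm_E_le_of_all {X : Type*} [SeminormedAddCommGroup X] [NormedSpace ℝ X] {μ : Mean Ω}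
    {f : Ω → X} {c : ℝ} (h : μ.All fun ω => ‖f ω‖ ≤ c) : ‖μ.E f‖ ≤ c :=
  (μ.norm_E_le f).trans (E_le h)

section alg
variable {A : Type*} [CStarAlgebra A]

lemma tr_E (τ : Tr A) (μ : Mean Ω) (f : Ω → A) : τ (μ.E f) = μ.E fun ω => τ (f ω) :=
  μ.map_E' (fun x => τ x) τ.map_add (fun c x => by simp) f

lemma mul_E (μ : Mean Ω) (a : A) (f : Ω → A) : a * μ.E f = μ.E fun ω => a * f ω :=
  μ.map_E' (fun x => a * x) (mul_add a) (fun c x => mul_smul_comm c a x) f

lemma E_mul (μ : Mean Ω) (a : A) (f : Ω → A) : μ.E f * a = μ.E fun ω => f ω * a :=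
  μ.map_E' (fun x => x * a) (fun x y => add_mul x y a) (fun c x => smul_mul_assoc c x a) f

lemma star_E (μ : Mean Ω) (f : Ω → A) : star (μ.E f) = μ.E fun ω => star (f ω) :=
  μ.map_E' (fun x => star x) star_add (fun c x => by simp) f

lemma n2_E_le (τ : Tr A) (μ : Mean Ω) (f : Ω → A) :
    τ.n2 (μ.E f) ≤ μ.E fun ω => τ.n2 (f ω) := by
  induction μ with
  | pt ω => exact le_rfl
  | mid μ ν h1 h2 =>
    have := τ.n2_add_le (μ.E f) (ν.E f)
    rw [E_mid, τ.n2_real_smul, E_mid, smul_eq_mul, abs_of_pos (by norm_num)]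
    linarith

lemma n2_E_le_of_all (τ : Tr A) {μ : Mean Ω} {f : Ω → A} {c : ℝ}
    (h : μ.All fun ω => τ.n2 (f ω) ≤ c) : τ.n2 (μ.E f) ≤ c :=
  (n2_E_le τ μ f).trans (E_le h)

lemma E_mem_subalgebra {μ : Mean Ω} {f : Ω → A} (B : StarSubalgebra ℂ A)
    (h : μ.All fun ω => f ω ∈ B) : μ.E f ∈ B := by
  induction μ with
  | pt ω => exact h
  | mid μ ν h1 h2 =>
    rw [E_mid, ← Complex.coe_smul]
    exact B.smul_mem (add_mem (h1 h.1) (h2 h.2)) _

end alg

end Mean

/-! ### Averaging properties -/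

section avg
variable {A : Type*} [CStarAlgebra A]

/-- Dixmier-type averaging over the unitaries of `P`. -/
def AV (τ : Tr A) (P : Set A) : Prop :=
  ∀ (F : Finset A) (η : ℝ), 0 < η → ∃ μ : Mean A, μ.All (fun v => v ∈ P ∧ v ∈ unitary A) ∧
    ∀ x ∈ F, τ.n2 (μ.E (fun v => v * x * star v) - τ x • (1 : A)) ≤ η

/-- Bounded self-adjoint increments in `P` with covariance `x ↦ τ x` and small correlation with
any fixed element: one step of an approximate free Brownian motion. -/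
def BMstep (τ : Tr A) (P : Set A) : Prop :=
  ∀ ε : ℝ, 0 < ε → ∃ C : ℝ, ∀ (F : Finset A) (η : ℝ), 0 < η → ∃ μ : Mean A,
    μ.All (fun s => s ∈ P ∧ IsSelfAdjoint s ∧ ‖s‖ ≤ C) ∧
    (∀ x : A, μ.E (fun s => ‖τ (x * s)‖ ^ 2) ≤ ε * ‖x‖ ^ 2) ∧
    ∀ x ∈ F, τ.n2 (μ.E (fun s => s * x * s) - τ x • (1 : A)) ≤ η

end avg

/-! ### Reduced words and freeness -/

section free
variable {A : Type*} [CStarAlgebra A]

/-- The letter `b` (sign `true`) or `b⋆` (sign `false`). -/
def lt (b : A) : Bool → A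
  | true => b
  | false => star b

@[simp] lemma lt_true (b : A) : lt b true = b := rfl
@[simp] lemma lt_false (b : A) : lt b false = star b := rfl

/-- `Red τ S b e w`: `w = b^{e₁} x₁ b^{e₂} x₂ ⋯ b^{eₙ} xₙ` with `n ≥ 1`, `e₁ = e`, `xᵢ ∈ S` and
`τ xᵢ = 0` whenever `eᵢ ≠ eᵢ₊₁`. -/
inductive Red (τ : Tr A) (S : Set A) (b : A) : Bool → A → Prop
  | last (e : Bool) (x : A) (hx : x ∈ S) : Red τ S b e (lt b e * x)
  | cons (e e' : Bool) (x w : A) (hx : x ∈ S) (hc : e ≠ e' → τ x = 0) (hw : Red τ S b e' w) :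
      Red τ S b e (lt b e * x * w)

/-- `b` is a Haar unitary free from `S`. -/
def Free (τ : Tr A) (S : Set A) (b : A) : Prop :=
  b ∈ unitary A ∧ ∀ (e : Bool) (w : A), Red τ S b e w → τ w = 0

/-- The value `b^{e₁} x₁ ⋯ b^{eₙ} xₙ` of a list of (sign, coefficient) pairs. -/
def wl (b : A) : List (Bool × A) → A
  | [] => 1
  | p :: l => lt b p.1 * p.2 * wl b l

@[simp] lemma wl_nil (b : A) : wl b [] = 1 := rfl
@[simp] lemma wl_cons (b : A) (p : Bool × A) (l : List (Bool × A)) :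
    wl b (p :: l) = lt b p.1 * p.2 * wl b l := rfl

/-- The list is reduced: a coefficient between two opposite letters has trace zero. -/
def RedL (τ : Tr A) (l : List (Bool × A)) : Prop :=
  l.IsChain fun p q => p.1 ≠ q.1 → τ p.2 = 0

/-- Asymptotically free Haar unitaries exist in `P` (Popa). -/
def PopaFree (τ : Tr A) (P : Set A) : Prop :=
  ∀ (X : Finset A) (L : ℕ) (ε : ℝ), 0 < ε → ∃ a ∈ P, a ∈ unitary A ∧
    ∀ l : List (Bool × A), l ≠ [] → l.length ≤ L → (∀ p ∈ l, p.2 ∈ X) → RedL τ l →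
      ‖τ (wl a l)‖ ≤ ε

/-- The correlation constant of the main estimate. -/
noncomputable def cK (K : ℝ) : ℝ := 1 / (200 * K ^ 2)

end free

end Crest.Agent.R095
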