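import Crest.Agent.R095.PopaJet

/-! Row 95: asymptotically free Haar unitaries from Brownian increments (potential argument). -/

set_option autoImplicit false

open Filter Topology
open scoped ComplexOrder InnerProductSpace ComplexConjugate

namespace Crest.Agent.R095

open Complex (I)

variable {A : Type*} [CStarAlgebra A]

lemma Mean.E_cmul {Ω : Type*} (μ : Mean Ω) (k : ℂ) (f : Ω → ℂ) :
    μ.E (fun ω => k * f ω) = k * μ.E f :=
  (μ.map_E' (fun z : ℂ => k * z) (mul_add k) (fun c x => mul_smul_comm c k x) f).symm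

lemma Mean.re_E {Ω : Type*} (μ : Mean Ω) (f : Ω → ℂ) : (μ.E f).re = μ.E fun ω => (f ω).re :=
  μ.map_E' Complex.re Complex.add_re (fun c x => by simp) f

section limit
variable {ι : Type*} {𝓕 : Filter ι} {τ : Tr A} {μ : ι → Mean A}
  (hlim : ∀ B : A, Tendsto (fun i => τ.n2 ((μ i).E (fun s => s * B * s) - τ B • (1 : A))) 𝓕 (𝓝 0))
include hlim

lemma pair_tendsto (c B d : A) :
    Tendsto (fun i => (μ i).E fun s => τ (c * (s * B * s) * d)) 𝓕 (𝓝 (τ B * τ (c * d))) := by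
  rw [tendsto_iff_norm_sub_tendsto_zero]
  have h0 : Tendsto (fun i => ‖c‖ * τ.n2 ((μ i).E (fun s => s * B * s) - τ B • (1 : A)) * ‖d‖) 𝓕
      (𝓝 0) := by simpa using ((hlim B).const_mul ‖c‖).mul_const ‖d‖
  refine squeeze_zero (fun i => norm_nonneg _) (fun i => ?_) h0
  have e : ((μ i).E fun s => τ (c * (s * B * s) * d)) - τ B * τ (c * d)
      = τ (c * ((μ i).E (fun s => s * B * s) - τ B • (1 : A)) * d) := by
    rw [mul_sub, sub_mul, τ.map_sub, Mean.mul_E, Mean.E_mul, Mean.tr_E]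
    simp
  rw [e]
  exact (τ.norm_mul_le_n2_norm _ _).trans
    (mul_le_mul_of_nonneg_right (τ.n2_mul_le _ _) (norm_nonneg _))

variable {a : A} (ha : a ∈ unitary A) {X : Set A} (h1X : (1 : A) ∈ X) (hX : ∀ x ∈ X, ‖x‖ ≤ 1)
  {σ : ℝ} (hσ0 : 0 ≤ σ) {k : ℕ}
  (hσ : ∀ x₀ ∈ X, ∀ l : List (Bool × A), l ≠ [] → (∀ p ∈ l, p.2 ∈ X) → RedL τ l → l.length < k →
    ‖τ (x₀ * wl a l)‖ ≤ σ)
include ha h1X hX hσ0 hσ

lemma cross_tendsto (c : A) (hc : ‖c‖ ≤ 1) (e₀ : Bool) (x₀ : A) (hx₀ : x₀ ∈ X)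
    (l m : List (Bool × A)) (hm : ∀ p ∈ m, p.2 ∈ X) (hl : ∀ p ∈ l, p.2 ∈ X)
    (hred : RedL τ ((e₀, x₀) :: (m ++ l))) (hlen : m.length + l.length + 1 ≤ k) :
    ∃ Λ : ℂ, Tendsto (fun i => (μ i).E fun s =>
      τ (c * s * ((if e₀ then 1 else star a) * x₀ * wl a m) * J1 a s l)) 𝓕 (𝓝 Λ) ∧
      ‖Λ‖ ≤ l.length * σ := by
  induction l generalizing m with
  | nil => exact ⟨0, by simp [J1, tendsto_const_nhds], by simp⟩
  | cons p l ih =>
    obtain ⟨e, x⟩ := p
    have hx : x ∈ X := hl (e, x) (by simp)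
    have hl' : ∀ q ∈ l, q.2 ∈ X := fun q hq => hl q (by simp [hq])
    set B := (if e₀ then 1 else star a) * x₀ * wl a m with hB
    obtain ⟨Λ, hΛ, hΛb⟩ := ih (m ++ [(e, x)])
      (by simpa [or_imp, forall_and, hx] using hm) hl' (by simpa using hred)
      (by simp only [List.length_append, List.length_cons, List.length_nil] at hlen ⊢; omega)
    have hred1 : RedL τ ((e₀, x₀) :: m) :=
      List.IsChain.left_of_append (l₂ := (e, x) :: l) hred
    have hlen1 : m.length + 1 < k := by simp only [List.length_cons] at hlen; omega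
    have hb1 : ‖τ (lt a e₀ * x₀ * wl a m)‖ ≤ σ := by
      have := hσ 1 h1X ((e₀, x₀) :: m) (by simp) (by simpa [hx₀] using hm) hred1
        (by simpa using hlen1)
      simpa using this
    have hb2 : e₀ ≠ e → ‖τ (x₀ * wl a m)‖ ≤ σ := by
      intro hee
      rcases eq_or_ne m [] with rfl | hm0
      · have : τ x₀ = 0 := (List.isChain_cons_cons.1 hred).1 hee
        simp [this, hσ0]
      · exact hσ x₀ hx₀ m hm0 hm hred1.tail (by omega)
    have hw := norm_wl_le ha fun q hq => hX _ (hl' q hq)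
    obtain ⟨Λ', hΛ', hΛb'⟩ : ∃ Λ' : ℂ, Tendsto (fun i => (μ i).E fun s =>
        τ (c * s * B * (lt1 a s e * x * wl a l))) 𝓕 (𝓝 Λ') ∧ ‖Λ'‖ ≤ σ := by
      cases e
      · have hd : ‖τ (c * (star a * x * wl a l))‖ ≤ 1 := (τ.norm_le _).trans (norm_mul_le_one hc
          (norm_mul_le_one (norm_mul_le_one (norm_unitary_le (Unitary.star_mem ha)) (hX x hx)) hw))
        refine ⟨_, ((pair_tendsto hlim c B (star a * x * wl a l)).const_mul (-I)).congr
          fun i => ?_, ?_⟩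
        · rw [← Mean.E_cmul]
          congr 1
          ext s
          simp only [lt1, smul_mul_assoc, mul_smul_comm, τ.map_smul, mul_assoc]
        · have hB' : ‖τ B‖ ≤ σ := by
            cases e₀
            · simpa [hB] using hb1
            · simpa [hB] using hb2 (by simp)
          rw [norm_mul, norm_mul, norm_neg, Complex.norm_I, one_mul]
          exact (mul_le_of_le_one_right (norm_nonneg _) hd).trans hB'
      · have hd : ‖τ (c * (x * wl a l))‖ ≤ 1 := (τ.norm_le _).trans (norm_mul_le_one hc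
          (norm_mul_le_one (hX x hx) hw))
        refine ⟨_, ((pair_tendsto hlim c (B * a) (x * wl a l)).const_mul I).congr
          fun i => ?_, ?_⟩
        · rw [← Mean.E_cmul]
          congr 1
          ext s
          simp only [lt1, smul_mul_assoc, mul_smul_comm, τ.map_smul, mul_assoc]
        · have hB' : ‖τ (B * a)‖ ≤ σ := by
            cases e₀
            · have : τ (B * a) = τ (x₀ * wl a m) := by
                rw [← τ.conj_unitary' ha (x₀ * wl a m)]; simp [hB, mul_assoc]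
              rw [this]; exact hb2 (by simp)
            · rw [τ.comm]; simpa [hB, mul_assoc] using hb1
          rw [norm_mul, norm_mul, Complex.norm_I, one_mul]
          exact (mul_le_of_le_one_right (norm_nonneg _) hd).trans hB'
    refine ⟨Λ' + Λ, (hΛ'.add hΛ).congr fun i => ?_, (norm_add_le _ _).trans ?_⟩
    · rw [← Mean.E_add]
      congr 1
      ext s
      simp only [J1, mul_add, τ.map_add, hB, wl_append, wl_cons, wl_nil, mul_one, mul_assoc]
    · simp only [List.length_cons]; push_cast; linarith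

lemma J2_tendsto (l : List (Bool × A)) (c : A) (hc : ‖c‖ ≤ 1) (hl : ∀ p ∈ l, p.2 ∈ X)
    (hred : RedL τ l) (hlen : l.length ≤ k) :
    ∃ Λ : ℂ, Tendsto (fun i => (μ i).E fun s => τ (c * J2 a s l)) 𝓕 (𝓝 Λ) ∧
      ‖Λ + (l.length / 2 : ℝ) * τ (c * wl a l)‖ ≤ l.length ^ 2 * σ := by
  induction l generalizing c with
  | nil => exact ⟨0, by simp [J2, tendsto_const_nhds], by simp⟩
  | cons p l ih =>
    obtain ⟨e, x⟩ := p
    have hx : x ∈ X := hl (e, x) (by simp)
    have hl' : ∀ q ∈ l, q.2 ∈ X := fun q hq => hl q (by simp [hq])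
    simp only [List.length_cons] at hlen
    obtain ⟨Λ₃, hΛ₃, hb₃⟩ := ih (c * lt a e * x)
      (norm_mul_le_one (norm_mul_le_one hc (norm_unitary_le (lt_unitary ha _))) (hX x hx)) hl'
      hred.tail (by omega)
    have hΛ₁ : Tendsto (fun i => (μ i).E fun s => τ (c * (lt2 a s e * x * wl a l))) 𝓕
        (𝓝 (-(1 / 2) * τ (c * (lt a e * x * wl a l)))) := by
      cases e
      · have := (pair_tendsto hlim c 1 (star a * x * wl a l)).const_mul (-(1 / 2))
        rw [τ.map_one, one_mul] at this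
        refine this.congr fun i => ?_
        rw [← Mean.E_cmul]
        congr 1
        ext s
        simp only [lt2, smul_mul_assoc, mul_smul_comm, τ.map_smul, mul_assoc, one_mul]
      · have := (pair_tendsto hlim (c * a) 1 (x * wl a l)).const_mul (-(1 / 2))
        rw [τ.map_one, one_mul, mul_assoc, ← mul_assoc a] at this
        refine this.congr fun i => ?_
        rw [← Mean.E_cmul]
        congr 1
        ext s
        simp only [lt2, smul_mul_assoc, mul_smul_comm, τ.map_smul, mul_assoc, one_mul]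
    obtain ⟨Λ₂, hΛ₂, hb₂⟩ : ∃ Λ₂ : ℂ, Tendsto (fun i => (μ i).E fun s =>
        τ (c * (lt1 a s e * x * J1 a s l))) 𝓕 (𝓝 Λ₂) ∧ ‖Λ₂‖ ≤ l.length * σ := by
      cases e
      · obtain ⟨Λ, hΛ, hb⟩ := cross_tendsto hlim ha h1X hX hσ0 hσ c hc false x hx l []
          (by simp) hl' (by simpa using hred) (by simpa using hlen)
        refine ⟨_, (hΛ.const_mul (-I)).congr fun i => ?_, by simpa using hb⟩
        rw [← Mean.E_cmul]
        congr 1
        ext s
        simp [lt1, mul_assoc]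
      · obtain ⟨Λ, hΛ, hb⟩ := cross_tendsto hlim ha h1X hX hσ0 hσ (c * a)
          (norm_mul_le_one hc (norm_unitary_le ha)) true x hx l []
          (by simp) hl' (by simpa using hred) (by simpa using hlen)
        refine ⟨_, (hΛ.const_mul I).congr fun i => ?_, by simpa using hb⟩
        rw [← Mean.E_cmul]
        congr 1
        ext s
        simp [lt1, mul_assoc]
    refine ⟨_, ((hΛ₁.add hΛ₂).add hΛ₃).congr fun i => ?_, ?_⟩
    · rw [← Mean.E_add, ← Mean.E_add]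
      congr 1
      ext s
      simp only [J2, mul_add, τ.map_add, mul_assoc]
    · have e1 : -(1 / 2) * τ (c * (lt a e * x * wl a l)) + Λ₂ + Λ₃
          + ((((e, x) :: l).length : ℝ) / 2 : ℝ) * τ (c * wl a ((e, x) :: l))
          = Λ₂ + (Λ₃ + (l.length / 2 : ℝ) * τ (c * lt a e * x * wl a l)) := by
        simp only [List.length_cons, wl_cons, mul_assoc]
        push_cast; ring
      rw [e1]
      refine (norm_add_le _ _).trans ((add_le_add hb₂ hb₃).trans ?_)
      have : (0 : ℝ) ≤ l.length * σ := by positivity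
      simp only [List.length_cons]; push_cast; nlinarith

end limit

lemma sq_avg_le (f₀ f₁ f₂ F G : ℂ) (θ ρ β : ℝ) (hθ : 0 < θ) (hθ1 : θ ≤ 1) (hF : ‖F‖ ≤ 1)
    (hG : ‖G‖ ≤ 1) (hβ : ‖f₂‖ ≤ β) (h1 : ‖F - (f₀ + θ * f₁ + θ ^ 2 * f₂)‖ ≤ ρ * θ ^ 3)
    (h2 : ‖G - (f₀ - θ * f₁ + θ ^ 2 * f₂)‖ ≤ ρ * θ ^ 3) :
    (‖F‖ ^ 2 + ‖G‖ ^ 2) / 2 ≤ ‖f₀‖ ^ 2 + θ ^ 2 * (‖f₁‖ ^ 2 + 2 * (conj f₀ * f₂).re)
      + (β ^ 2 + 2 * ρ) * θ ^ 3 := by
  have key : ∀ (F g : ℂ) (r : ℝ), ‖F‖ ≤ 1 → ‖F - g‖ ≤ r → ‖F‖ ^ 2 ≤ ‖g‖ ^ 2 + 2 * r := by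
    intro F g r hF h
    have h3 : ‖F‖ - ‖g‖ ≤ r := (norm_sub_norm_le F g).trans h
    have h4 : 0 ≤ r := (norm_nonneg _).trans h
    nlinarith [norm_nonneg F, norm_nonneg g, sq_nonneg (‖F‖ - ‖g‖)]
  have k1 := key _ _ _ hF h1
  have k2 := key _ _ _ hG h2
  have k3 : ‖f₀ + θ * f₁ + θ ^ 2 * f₂‖ ^ 2 + ‖f₀ - θ * f₁ + θ ^ 2 * f₂‖ ^ 2
      = 2 * (‖f₀‖ ^ 2 + θ ^ 2 * (‖f₁‖ ^ 2 + 2 * (conj f₀ * f₂).re) + θ ^ 4 * ‖f₂‖ ^ 2) := by
    simp only [Complex.sq_norm, Complex.normSq_apply, ← Complex.ofReal_pow, Complex.add_re,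
      Complex.add_im, Complex.sub_re, Complex.sub_im, Complex.im_ofReal_mul,
      Complex.mul_re, Complex.conj_re, Complex.conj_im, Complex.ofReal_re, Complex.ofReal_im]
    ring
  have k4 : θ ^ 4 * ‖f₂‖ ^ 2 ≤ β ^ 2 * θ ^ 3 := by
    have h5 : ‖f₂‖ ^ 2 ≤ β ^ 2 := by gcongr
    have h6 : θ ^ 4 ≤ θ ^ 3 := pow_le_pow_of_le_one hθ.le hθ1 (by norm_num)
    calc _ ≤ θ ^ 3 * β ^ 2 := by gcongr
      _ = _ := by ring
  nlinarith

omit [CStarAlgebra A] in
lemma finite_words (X : Finset A) (L : ℕ) :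
    {l : List (Bool × A) | l.length ≤ L ∧ ∀ p ∈ l, p.2 ∈ X}.Finite := by
  refine ((List.finite_length_le (Bool × X) L).image
    (List.map fun q : Bool × X => (q.1, (q.2 : A)))).subset ?_
  rintro l ⟨hl, hX⟩
  refine ⟨l.pmap (fun p hp => (p.1, (⟨p.2, hp⟩ : X))) hX, by simpa using hl, ?_⟩
  simp [List.map_pmap]

theorem popa_core (τ : Tr A) (P : StarSubalgebra ℂ A) (hP : IsClosed (P : Set A))
    (h : BMstep τ (P : Set A)) (X : Finset A) (h1X : (1 : A) ∈ X) (hX : ∀ x ∈ X, ‖x‖ ≤ 1)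
    (L : ℕ) (ε₀ : ℝ) (hε₀ : 0 < ε₀) :
    ∃ a ∈ P, a ∈ unitary A ∧ ∀ l : List (Bool × A), l ≠ [] → l.length ≤ L → (∀ p ∈ l, p.2 ∈ X) →
      RedL τ l → ‖τ (wl a l)‖ ≤ ε₀ := by
  classical
  set 𝒲 : Finset (A × List (Bool × A)) :=
    (X ×ˢ (finite_words X L).toFinset).filter fun w => w.2 ≠ [] ∧ RedL τ w.2 with h𝒲
  have hmem : ∀ w : A × List (Bool × A), w ∈ 𝒲 ↔
      w.1 ∈ X ∧ w.2.length ≤ L ∧ (∀ p ∈ w.2, p.2 ∈ X) ∧ w.2 ≠ [] ∧ RedL τ w.2 := by
    intro w
    simp only [h𝒲, Finset.mem_filter, Finset.mem_product, Set.Finite.mem_toFinset,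
      Set.mem_ofPred_eq, and_assoc]
  set N : ℝ := (𝒲.card : ℝ) with hN
  have hN0 : 0 ≤ N := by positivity
  set lam : ℝ := 1 / (8 * L ^ 4 * N + 1) with hlam
  have hlam0 : 0 < lam := by positivity
  have hlam1 : lam ≤ 1 := by
    rw [hlam, div_le_one (by positivity)]
    have : (0 : ℝ) ≤ 8 * L ^ 4 * N := by positivity
    linarith
  have hlam2 : 2 * L ^ 4 * N * lam ≤ 1 / 4 := by
    rw [hlam, mul_one_div, div_le_div_iff₀ (by positivity) (by positivity)]; linarith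
  set f : A → A × List (Bool × A) → ℂ := fun a w => τ (w.1 * wl a w.2) with hf
  set Φ : A → ℝ := fun a => ∑ w ∈ 𝒲, lam ^ w.2.length * ‖f a w‖ ^ 2 with hΦ
  have hΦ0 : ∀ a, 0 ≤ Φ a := fun a => Finset.sum_nonneg fun w _ => by positivity
  set κ : ℝ := lam ^ L * ε₀ ^ 2 with hκ
  have hκ0 : 0 < κ := by positivity
  suffices H : ∃ a ∈ P, a ∈ unitary A ∧ Φ a ≤ κ by
    obtain ⟨a, haP, hau, hΦa⟩ := H
    refine ⟨a, haP, hau, fun l hl0 hlL hlX hlr => ?_⟩
    have hw : ((1 : A), l) ∈ 𝒲 := (hmem _).2 ⟨h1X, hlL, hlX, hl0, hlr⟩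
    have h1 : lam ^ l.length * ‖f a (1, l)‖ ^ 2 ≤ Φ a :=
      Finset.single_le_sum (f := fun w => lam ^ w.2.length * ‖f a w‖ ^ 2)
        (fun w _ => by positivity) hw
    have h2 : lam ^ L ≤ lam ^ l.length := pow_le_pow_of_le_one hlam0.le hlam1 hlL
    have h3 : lam ^ L * ‖f a (1, l)‖ ^ 2 ≤ lam ^ L * ε₀ ^ 2 :=
      (mul_le_mul_of_nonneg_right h2 (by positivity)).trans (h1.trans hΦa)
    have h4 := le_of_mul_le_mul_left h3 (by positivity)
    have h5 := (pow_le_pow_iff_left₀ (norm_nonneg _) hε₀.le two_ne_zero).mp h4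
    simpa [hf] using h5
  by_contra hcon
  push Not at hcon
  set ε : ℝ := κ / (16 * (N * L ^ 2 + 1)) with hε
  have hε0 : 0 < ε := by positivity
  obtain ⟨C₀, hC⟩ := h ε hε0
  set C : ℝ := |C₀| with hCdef
  have hC0 : 0 ≤ C := abs_nonneg _
  choose μ hμ1 hμ2 hμ3 using fun i : Finset A × ℕ =>
    hC i.1 (1 / ((i.2 : ℝ) + 1)) (by positivity)
  have hlim : ∀ B : A, Tendsto (fun i => τ.n2 ((μ i).E (fun s => s * B * s) - τ B • (1 : A)))
      atTop (𝓝 0) := by
    intro B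
    have h0 : Tendsto (fun i : Finset A × ℕ => 1 / ((i.2 : ℝ) + 1)) atTop (𝓝 0) :=
      tendsto_one_div_add_atTop_nhds_zero_nat.comp (by rw [← prod_atTop_atTop_eq]; exact tendsto_snd)
    refine squeeze_zero' (Eventually.of_forall fun i => τ.n2_nonneg _) ?_ h0
    filter_upwards [eventually_ge_atTop (({B} : Finset A), 0)] with i hi
    exact hμ3 i B (hi.1 (Finset.mem_singleton_self B))
  set D : ℝ := (L ^ 2 * C ^ 2) ^ 2 + 2 * (L ^ 3 * C ^ 3) with hD
  have hD0 : 0 ≤ D := by positivity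
  set θ : ℝ := min 1 (κ / (16 * (N * D + 1))) with hθ
  have hθ0 : 0 < θ := lt_min one_pos (by positivity)
  have hθ1 : θ ≤ 1 := min_le_left _ _
  have hθ2 : N * (D * θ) ≤ κ / 16 := by
    have h1 : θ ≤ κ / (16 * (N * D + 1)) := min_le_right _ _
    rw [le_div_iff₀ (by positivity)] at h1
    nlinarith
  have hε2 : N * (ε * L ^ 2) ≤ κ / 16 := by
    have h1 : ε * (16 * (N * L ^ 2 + 1)) = κ := by rw [hε]; field_simp
    nlinarith
  set S : Set ℝ := Φ '' {a | a ∈ P ∧ a ∈ unitary A} with hS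
  have hSne : S.Nonempty := ⟨_, 1, ⟨one_mem P, one_mem _⟩, rfl⟩
  have hSb : BddBelow S := ⟨0, by rintro _ ⟨a, -, rfl⟩; exact hΦ0 a⟩
  have hκS : κ ≤ sInf S := le_csInf hSne (by rintro _ ⟨a, ha, rfl⟩; exact (hcon a ha.1 ha.2).le)
  have step : ∀ a ∈ P, a ∈ unitary A → sInf S ≤ Φ a * (1 - θ ^ 2 / 4) + θ ^ 2 * (κ / 8) := by
    intro a haP hau
    set σ : ℕ → ℝ := fun k => √(∑ w ∈ 𝒲 with w.2.length < k, ‖f a w‖ ^ 2) with hσdef
    have hσ : ∀ k ≤ L, ∀ x₀ ∈ (X : Set A), ∀ l : List (Bool × A), l ≠ [] →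
        (∀ p ∈ l, p.2 ∈ (X : Set A)) → RedL τ l → l.length < k → ‖τ (x₀ * wl a l)‖ ≤ σ k := by
      intro k hk x₀ hx₀ l hl0 hlX hlr hlk
      refine Real.le_sqrt_of_sq_le ?_
      exact Finset.single_le_sum (f := fun w => ‖f a w‖ ^ 2) (a := (x₀, l))
        (fun w _ => by positivity)
        (Finset.mem_filter.2 ⟨(hmem _).2 ⟨hx₀, hlk.le.trans hk, hlX, hl0, hlr⟩, hlk⟩)
    have hσΦ : ∀ k, lam ^ k * σ k ^ 2 ≤ lam * Φ a := by
      intro k
      rw [hσdef, Real.sq_sqrt (Finset.sum_nonneg fun w _ => by positivity), Finset.mul_sum,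
        hΦ, Finset.mul_sum]
      refine le_trans (Finset.sum_le_sum fun w hw => ?_)
        (Finset.sum_le_sum_of_subset_of_nonneg (Finset.filter_subset _ _)
          fun w _ _ => by positivity)
      rw [← mul_assoc, ← pow_succ']
      exact mul_le_mul_of_nonneg_right
        (pow_le_pow_of_le_one hlam0.le hlam1 (Finset.mem_filter.1 hw).2) (by positivity)
    have hΛ : ∀ w ∈ 𝒲, ∃ Λ : ℂ,
        Tendsto (fun i => (μ i).E fun s => τ (w.1 * J2 a s w.2)) atTop (𝓝 Λ) ∧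
        ‖Λ + (w.2.length / 2 : ℝ) * f a w‖ ≤ w.2.length ^ 2 * σ w.2.length := by
      intro w hw
      obtain ⟨h1, h2, h3, -, h5⟩ := (hmem w).1 hw
      exact J2_tendsto hlim hau (X := X) h1X hX (Real.sqrt_nonneg _) (hσ _ h2) w.2 w.1 (hX _ h1) h3
        h5 le_rfl
    choose! Λ hΛ1 hΛ2 using hΛ
    have hi : ∀ i, sInf S ≤ ∑ w ∈ 𝒲, lam ^ w.2.length * (‖f a w‖ ^ 2 + θ ^ 2 * (ε * L ^ 2
        + 2 * (conj (f a w) * (μ i).E fun s => τ (w.1 * J2 a s w.2)).re) + D * θ ^ 3) := by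
      intro i
      have h1 : (μ i).All fun s => sInf S ≤ ∑ w ∈ 𝒲, lam ^ w.2.length * (‖f a w‖ ^ 2 + θ ^ 2 *
          (‖τ (w.1 * J1 a s w.2)‖ ^ 2 + 2 * (conj (f a w) * τ (w.1 * J2 a s w.2)).re)
            + D * θ ^ 3) := by
        refine (hμ1 i).mono fun s ⟨hsP, hss, hsC⟩ => ?_
        have hsC' : ‖s‖ ≤ C := hsC.trans (le_abs_self _)
        have key : ∀ t : ℝ, |t| = θ → sInf S ≤ Φ (a * cay (t • s)) ∧ ∀ w ∈ 𝒲,
            ‖f (a * cay (t • s)) w‖ ≤ 1 ∧ ‖f (a * cay (t • s)) w - (f a w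
              + t * τ (w.1 * J1 a s w.2) + t ^ 2 * τ (w.1 * J2 a s w.2))‖
                ≤ L ^ 3 * C ^ 3 * θ ^ 3 := by
          intro t ht
          have hts : IsSelfAdjoint (t • s) := (IsSelfAdjoint.all t).smul hss
          have htP : t • s ∈ P := by rw [← Complex.coe_smul]; exact P.smul_mem hsP _
          have hu' : a * cay (t • s) ∈ unitary A := mul_mem hau (cay_mem_unitary hts)
          refine ⟨csInf_le hSb ⟨_, ⟨mul_mem haP (cay_mem hP htP), hu'⟩, rfl⟩, fun w hw => ?_⟩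
          obtain ⟨h1, h2, h3, -, -⟩ := (hmem w).1 hw
          have h3' : ∀ p ∈ w.2, ‖p.2‖ ≤ 1 := fun p hp => hX _ (h3 p hp)
          refine ⟨(τ.norm_le _).trans (norm_mul_le_one (hX _ h1) (norm_wl_le hu' h3')), ?_⟩
          have e : f (a * cay (t • s)) w - (f a w + t * τ (w.1 * J1 a s w.2)
              + t ^ 2 * τ (w.1 * J2 a s w.2)) = τ (w.1 * (wl (a * cay (t • s)) w.2
                - (wl a w.2 + J1 a (t • s) w.2 + J2 a (t • s) w.2))) := by
            simp [hf, J1_smul, J2_smul, mul_sub, mul_add]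
          rw [e]
          refine (τ.norm_le _).trans ((norm_mul_le _ _).trans
            ((mul_le_of_le_one_left (norm_nonneg _) (hX _ h1)).trans
              ((norm_wl_cay_sub hau hts h3').trans ?_)))
          have h4 : (w.2.length : ℝ) ≤ L := by exact_mod_cast h2
          rw [norm_smul, Real.norm_eq_abs, ht]
          calc _ ≤ (L : ℝ) ^ 3 * (θ * C) ^ 3 := by gcongr
            _ = _ := by ring
        obtain ⟨k1, k2⟩ := key θ (abs_of_pos hθ0)
        obtain ⟨k3, k4⟩ := key (-θ) (by rw [abs_neg, abs_of_pos hθ0])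
        have k5 : sInf S ≤ ∑ w ∈ 𝒲, lam ^ w.2.length *
            ((‖f (a * cay (θ • s)) w‖ ^ 2 + ‖f (a * cay ((-θ) • s)) w‖ ^ 2) / 2) := by
          have : ∑ w ∈ 𝒲, lam ^ w.2.length *
              ((‖f (a * cay (θ • s)) w‖ ^ 2 + ‖f (a * cay ((-θ) • s)) w‖ ^ 2) / 2)
              = (Φ (a * cay (θ • s)) + Φ (a * cay ((-θ) • s))) / 2 := by
            simp only [hΦ, ← Finset.sum_add_distrib, Finset.sum_div]
            exact Finset.sum_congr rfl fun w _ => by ring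
          rw [this]; linarith
        refine k5.trans (Finset.sum_le_sum fun w hw => mul_le_mul_of_nonneg_left ?_ (by positivity))
        obtain ⟨h1, h2, h3, -, -⟩ := (hmem w).1 hw
        have h3' : ∀ p ∈ w.2, ‖p.2‖ ≤ 1 := fun p hp => hX _ (h3 p hp)
        refine sq_avg_le _ _ _ _ _ θ _ _ hθ0 hθ1 (k2 w hw).1 (k4 w hw).1 ?_ (k2 w hw).2 ?_
        · refine (τ.norm_le _).trans ((norm_mul_le _ _).trans
            ((mul_le_of_le_one_left (norm_nonneg _) (hX _ h1)).trans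
              ((norm_J2_le hau h3').trans ?_)))
          have h4 : (w.2.length : ℝ) ≤ L := by exact_mod_cast h2
          gcongr
        · convert (k4 w hw).2 using 2
          push_cast; ring
      refine (Mean.le_E h1).trans ?_
      rw [Mean.E_sum]
      refine Finset.sum_le_sum fun w hw => ?_
      obtain ⟨h1, h2, h3, -, -⟩ := (hmem w).1 hw
      obtain ⟨y, hy, hys⟩ := exists_J1_pairing hau τ (fun p hp => hX _ (h3 p hp)) w.1 (hX _ h1)
      have h4 : (μ i).E (fun s => ‖τ (w.1 * J1 a s w.2)‖ ^ 2) ≤ ε * L ^ 2 := by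
        simp only [hys]
        refine (hμ2 i y).trans ?_
        have h4 : (w.2.length : ℝ) ≤ L := by exact_mod_cast h2
        have h5 := hy.trans h4
        gcongr
      rw [Mean.E_mul_left, Mean.E_add, Mean.E_add, Mean.E_const, Mean.E_const, Mean.E_mul_left,
        Mean.E_add, Mean.E_mul_left, ← Mean.re_E, Mean.E_cmul]
      gcongr
    have hlimit : sInf S ≤ ∑ w ∈ 𝒲, lam ^ w.2.length * (‖f a w‖ ^ 2 + θ ^ 2 * (ε * L ^ 2
        + 2 * (conj (f a w) * Λ w).re) + D * θ ^ 3) := by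
      refine ge_of_tendsto' (x := atTop) (tendsto_finsetSum _ fun w hw => ?_) hi
      have h1 := (Complex.continuous_re.tendsto _).comp ((hΛ1 w hw).const_mul (conj (f a w)))
      exact ((((h1.const_mul 2).const_add _).const_mul _).const_add _ |>.add_const _).const_mul _
    refine hlimit.trans ?_
    have hterm : ∀ w ∈ 𝒲, lam ^ w.2.length * (‖f a w‖ ^ 2 + θ ^ 2 * (ε * L ^ 2
        + 2 * (conj (f a w) * Λ w).re) + D * θ ^ 3)
        ≤ (1 - θ ^ 2 / 2) * (lam ^ w.2.length * ‖f a w‖ ^ 2)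
          + θ ^ 2 * (2 * L ^ 4 * (lam * Φ a) + ε * L ^ 2 + D * θ) := by
      intro w hw
      obtain ⟨-, h2, -, h4, -⟩ := (hmem w).1 hw
      have hn1 : (1 : ℝ) ≤ w.2.length := by
        exact_mod_cast List.length_pos_iff.2 h4
      have hnL : (w.2.length : ℝ) ≤ L := by exact_mod_cast h2
      have hs0 : 0 ≤ σ w.2.length := Real.sqrt_nonneg _
      have e1 : (conj (f a w) * Λ w).re = (conj (f a w) * (Λ w + (w.2.length / 2 : ℝ) * f a w)).re
          - w.2.length / 2 * ‖f a w‖ ^ 2 := by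
        rw [mul_add, mul_left_comm, Complex.conj_mul', Complex.add_re, ← Complex.ofReal_pow,
          ← Complex.ofReal_mul, Complex.ofReal_re]; ring
      have e2 : (conj (f a w) * (Λ w + (w.2.length / 2 : ℝ) * f a w)).re
          ≤ ‖f a w‖ * (L ^ 2 * σ w.2.length) := by
        refine (Complex.re_le_norm _).trans ?_
        rw [norm_mul, Complex.norm_conj]
        refine mul_le_mul_of_nonneg_left ((hΛ2 w hw).trans ?_) (norm_nonneg _)
        gcongr
      have e3 : 2 * (conj (f a w) * Λ w).re ≤ -(‖f a w‖ ^ 2 / 2) + 2 * L ^ 4 * σ w.2.length ^ 2 := by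
        rw [e1]
        nlinarith [sq_nonneg (‖f a w‖ - 2 * (L ^ 2 * σ w.2.length)), sq_nonneg ‖f a w‖]
      have hl1 : lam ^ w.2.length ≤ 1 := pow_le_one₀ hlam0.le hlam1
      have hl0 : 0 ≤ lam ^ w.2.length := by positivity
      have e4 := hσΦ w.2.length
      have e5 : lam ^ w.2.length * (ε * L ^ 2 + D * θ) ≤ ε * L ^ 2 + D * θ :=
        mul_le_of_le_one_left (by positivity) hl1
      have e6 : lam ^ w.2.length * (2 * (conj (f a w) * Λ w).re)
          ≤ -(lam ^ w.2.length * ‖f a w‖ ^ 2 / 2) + 2 * L ^ 4 * (lam * Φ a) := by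
        have := mul_le_mul_of_nonneg_left e3 hl0
        have h7 : (0 : ℝ) ≤ 2 * L ^ 4 := by positivity
        nlinarith [mul_le_mul_of_nonneg_left e4 h7]
      have hθ2' : 0 ≤ θ ^ 2 := by positivity
      nlinarith [mul_le_mul_of_nonneg_left (add_le_add e5 e6) hθ2']
    refine (Finset.sum_le_sum hterm).trans ?_
    rw [Finset.sum_add_distrib, ← Finset.mul_sum, Finset.sum_const, nsmul_eq_mul]
    have h7 : N * (2 * L ^ 4 * (lam * Φ a)) ≤ Φ a / 4 := by
      nlinarith [mul_le_mul_of_nonneg_right hlam2 (hΦ0 a)]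
    have hθ2' : 0 ≤ θ ^ 2 := by positivity
    have h8 : N * (2 * L ^ 4 * (lam * Φ a) + ε * L ^ 2 + D * θ) ≤ Φ a / 4 + κ / 8 := by
      rw [mul_add, mul_add]; linarith
    change (1 - θ ^ 2 / 2) * Φ a + N * _ ≤ _
    nlinarith [mul_le_mul_of_nonneg_left h8 hθ2']
  have hθ3 : 0 < 1 - θ ^ 2 / 4 := by nlinarith
  have hfin : (sInf S - θ ^ 2 * (κ / 8)) / (1 - θ ^ 2 / 4) ≤ sInf S := by
    refine le_csInf hSne ?_
    rintro _ ⟨a, ha, rfl⟩
    rw [div_le_iff₀ hθ3]
    linarith [step a ha.1 ha.2]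
  rw [div_le_iff₀ hθ3] at hfin
  have hθ4 : 0 < θ ^ 2 := by positivity
  nlinarith

lemma wl_map_smul (b : A) (c : ℝ) (l : List (Bool × A)) :
    wl b (l.map fun p => (p.1, c • p.2)) = c ^ l.length • wl b l := by
  induction l with
  | nil => simp
  | cons p l ih => simp [ih, smul_smul, pow_succ]

theorem popaFree_of_bmstep (τ : Tr A) (P : StarSubalgebra ℂ A) (hP : IsClosed (P : Set A))
    (h : BMstep τ (P : Set A)) : PopaFree τ (P : Set A) := by
  classical
  intro X L ε hε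
  set R : ℝ := 1 + ∑ x ∈ X, ‖x‖ with hR
  have hR1 : 1 ≤ R := le_add_of_nonneg_right (Finset.sum_nonneg fun x _ => norm_nonneg x)
  have hR0 : 0 < R := by linarith
  obtain ⟨a, haP, hau, ha⟩ := popa_core τ P hP h (insert 1 (X.image fun x => R⁻¹ • x))
    (Finset.mem_insert_self _ _) (by
      intro x hx
      rcases Finset.mem_insert.1 hx with rfl | hx
      · exact norm_one_le'
      · obtain ⟨y, hy, rfl⟩ := Finset.mem_image.1 hx
        have : ‖y‖ ≤ ∑ x ∈ X, ‖x‖ := Finset.single_le_sum (fun x _ => norm_nonneg x) hy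
        rw [norm_smul, norm_inv, Real.norm_of_nonneg hR0.le, inv_mul_le_iff₀ hR0]
        linarith) L (ε / R ^ L) (by positivity)
  refine ⟨a, haP, hau, fun l hl0 hlL hlX hlr => ?_⟩
  have h1 := ha (l.map fun p => (p.1, R⁻¹ • p.2)) (by simpa using hl0) (by simpa using hlL)
    (by
      intro p hp
      obtain ⟨q, hq, rfl⟩ := List.mem_map.1 hp
      exact Finset.mem_insert_of_mem (Finset.mem_image_of_mem _ (hlX q hq)))
    (List.isChain_map_of_isChain _ (fun p q hpq hne => by simp [hpq hne]) hlr)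
  rw [wl_map_smul, τ.map_real_smul, norm_mul, Complex.norm_real, Real.norm_of_nonneg (by positivity),
    inv_pow, inv_mul_le_iff₀ (by positivity), mul_div_assoc'] at h1
  refine h1.trans ?_
  rw [div_le_iff₀ (by positivity), mul_comm]
  exact mul_le_mul_of_nonneg_left (pow_le_pow_right₀ hR1 hlL) hε.le

end Crest.Agent.R095
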