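import Crest.Agent.R095.Basic

/-! Row 95: orthogonal projection onto a subalgebra (truncation argument) and continuity of
⋆-polynomials in the 2-norm. -/

set_option autoImplicit false

open Filter Topology
open scoped ComplexOrder InnerProductSpace ComplexConjugate

namespace Crest.Agent.R095

variable {A : Type*} [CStarAlgebra A]

lemma proj_re_mul_nonneg [PartialOrder A] [StarOrderedRing A] (τ : Tr A) {a b : A}
    (ha : 0 ≤ a) (hb : 0 ≤ b) : 0 ≤ (τ (a * b)).re := by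
  have h1 : a = star (CFC.sqrt a) * CFC.sqrt a := by
    rw [(IsSelfAdjoint.of_nonneg (CFC.sqrt_nonneg a)).star_eq, CFC.sqrt_mul_sqrt_self _ ha]
  have h2 : b = star (CFC.sqrt b) * CFC.sqrt b := by
    rw [(IsSelfAdjoint.of_nonneg (CFC.sqrt_nonneg b)).star_eq, CFC.sqrt_mul_sqrt_self _ hb]
  set c := CFC.sqrt a
  set d := CFC.sqrt b
  have h3 := τ.re_nonneg (c * star d)
  have e : τ (star (c * star d) * (c * star d)) = τ (a * b) := by
    rw [h1, h2, star_mul, star_star]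
    have := τ.comm d (star c * c * star d)
    simp only [mul_assoc] at this ⊢
    exact this
  rwa [e] at h3

lemma proj_trunc (τ : Tr A) (B : StarSubalgebra ℂ A) (hBc : IsClosed (B : Set A)) (y : A)
    (hy : IsSelfAdjoint y) (hy1 : ‖y‖ ≤ 1) (q : A) (hqB : q ∈ B) (hq : IsSelfAdjoint q) :
    ∃ f ∈ B, ‖f‖ ≤ 1 ∧ τ.n2 (y - f) ≤ τ.n2 (y - q) := by
  letI := CStarAlgebra.spectralOrder A
  letI := CStarAlgebra.spectralOrderedRing A
  haveI : IsClosed (B : Set A) := hBc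
  set gp : A := cfc (fun x : ℝ => max (x - 1) 0) q with hgp
  set gm : A := cfc (fun x : ℝ => max (-1 - x) 0) q with hgm
  set f : A := cfc (fun x : ℝ => x - max (x - 1) 0 + max (-1 - x) 0) q with hf
  have hfeq : f = q - gp + gm := by
    rw [hf, cfc_add (a := q) _ _ (by fun_prop) (by fun_prop),
      cfc_sub _ _ q (by fun_prop) (by fun_prop), cfc_id' ℝ q]
  have hfsa : IsSelfAdjoint f := cfc_predicate _ _
  refine ⟨f, cfc_mem (𝕜' := ℂ) _ hqB, ?_, ?_⟩
  · refine norm_cfc_le zero_le_one fun x _ => ?_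
    rw [Real.norm_eq_abs, abs_le]
    constructor
    · rcases le_total (x - 1) 0 with h | h <;> rcases le_total (-1 - x) 0 with h' | h' <;>
        simp only [max_eq_left, max_eq_right, h, h'] <;> linarith
    · rcases le_total (x - 1) 0 with h | h <;> rcases le_total (-1 - x) 0 with h' | h' <;>
        simp only [max_eq_left, max_eq_right, h, h'] <;> linarith
  · have hgp0 : 0 ≤ gp := cfc_nonneg fun x _ => le_max_right _ _
    have hgm0 : 0 ≤ gm := cfc_nonneg fun x _ => le_max_right _ _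
    have h1y : 0 ≤ 1 - y := by
      rw [sub_nonneg]
      calc y ≤ algebraMap ℝ A ‖y‖ := IsSelfAdjoint.le_algebraMap_norm_self hy
        _ ≤ algebraMap ℝ A 1 := by
          rw [Algebra.algebraMap_eq_smul_one, Algebra.algebraMap_eq_smul_one]
          exact smul_le_smul_of_nonneg_right hy1 zero_le_one
        _ = 1 := map_one _
    have h1y' : 0 ≤ 1 + y := by
      have : -y ≤ 1 := by
        calc -y ≤ algebraMap ℝ A ‖-y‖ := IsSelfAdjoint.le_algebraMap_norm_self hy.neg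
          _ ≤ algebraMap ℝ A 1 := by
            rw [Algebra.algebraMap_eq_smul_one, Algebra.algebraMap_eq_smul_one, norm_neg]
            exact smul_le_smul_of_nonneg_right hy1 zero_le_one
          _ = 1 := map_one _
      have h := sub_nonneg.mpr this
      rwa [sub_neg_eq_add] at h
    have hA : 0 ≤ gp * (q + f - 2) := by
      have : gp * (q + f - 2) = cfc (fun x : ℝ => max (x - 1) 0 *
          (x + (x - max (x - 1) 0 + max (-1 - x) 0) - 2)) q := by
        rw [cfc_mul _ _ q (by fun_prop) (by fun_prop), cfc_sub _ _ q (by fun_prop) (by fun_prop),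
          cfc_add (a := q) _ _ (by fun_prop) (by fun_prop), cfc_id' ℝ q, cfc_const 2 q]
        simp only [map_ofNat]; rfl
      rw [this]
      refine cfc_nonneg fun x _ => ?_
      rcases le_total (x - 1) 0 with h | h <;> rcases le_total (-1 - x) 0 with h' | h' <;>
        simp only [max_eq_left, max_eq_right, h, h'] <;> nlinarith
    have hB : 0 ≤ gm * (-2 - q - f) := by
      have : gm * (-2 - q - f) = cfc (fun x : ℝ => max (-1 - x) 0 *
          (-2 - x - (x - max (x - 1) 0 + max (-1 - x) 0))) q := by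
        rw [cfc_mul _ _ q (by fun_prop) (by fun_prop), cfc_sub _ _ q (by fun_prop) (by fun_prop),
          cfc_sub _ _ q (by fun_prop) (by fun_prop), cfc_id' ℝ q, cfc_const (-2) q]
        simp only [map_neg, map_ofNat]; rfl
      rw [this]
      refine cfc_nonneg fun x _ => ?_
      rcases le_total (x - 1) 0 with h | h <;> rcases le_total (-1 - x) 0 with h' | h' <;>
        simp only [max_eq_left, max_eq_right, h, h'] <;> nlinarith
    have k1 := proj_re_mul_nonneg τ hA zero_le_one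
    have k2 := proj_re_mul_nonneg τ hB zero_le_one
    have k3 := proj_re_mul_nonneg τ hgp0 h1y
    have k4 := proj_re_mul_nonneg τ hgm0 h1y'
    rw [mul_one] at k1 k2
    have key : τ (star (y - q) * (y - q)) = τ (star (y - f) * (y - f)) + (τ (gp * (q + f - 2)) +
        τ (gm * (-2 - q - f)) + 2 * τ (gp * (1 - y)) + 2 * τ (gm * (1 + y))) := by
      rw [(hy.sub hq).star_eq, (hy.sub hfsa).star_eq]
      have e1 : (y - q) * (y - q) = (y - f) * (y - f) + (gp * (q + f - 2) + gm * (-2 - q - f) +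
          (2 : ℂ) • (gp * (1 - y)) + (2 : ℂ) • (gm * (1 + y))) +
          ((y - q) * (gm - gp) - (gm - gp) * (y - q)) := by
        rw [hfeq, two_smul, two_smul]
        have h2 : (2 : A) = 1 + 1 := by norm_num
        rw [h2]
        noncomm_ring
      rw [e1]
      simp only [Tr.map_add, Tr.map_sub, Tr.map_smul]
      rw [τ.comm (y - q) (gm - gp)]
      ring
    refine (pow_le_pow_iff_left₀ (τ.n2_nonneg _) (τ.n2_nonneg _) two_ne_zero).mp ?_
    rw [τ.n2_sq, τ.n2_sq, key]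
    simp only [Complex.add_re, Complex.mul_re, Complex.re_ofNat, Complex.im_ofNat, zero_mul,
      sub_zero]
    linarith

lemma proj_trunc' (τ : Tr A) (B : StarSubalgebra ℂ A) (hBc : IsClosed (B : Set A)) (y : A)
    (hy : IsSelfAdjoint y) (hy1 : ‖y‖ ≤ 1) (q : A) (hqB : q ∈ B) :
    ∃ f ∈ B, ‖f‖ ≤ 1 ∧ τ.n2 (y - f) ≤ τ.n2 (y - q) := by
  have hr : IsSelfAdjoint ((2⁻¹ : ℂ) • (q + star q)) := by
    rw [IsSelfAdjoint, star_smul, star_add, star_star, add_comm]
    simp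
  obtain ⟨f, hf, hf1, hf2⟩ := proj_trunc τ B hBc y hy hy1 ((2⁻¹ : ℂ) • (q + star q))
    (B.smul_mem (add_mem hqB (star_mem hqB)) _) hr
  refine ⟨f, hf, hf1, hf2.trans ?_⟩
  have e : y - (2⁻¹ : ℂ) • (q + star q) = (2⁻¹ : ℂ) • ((y - q) + star (y - q)) := by
    rw [star_sub, hy.star_eq]
    module
  rw [e, τ.n2_smul]
  have := τ.n2_add_le (y - q) (star (y - q))
  rw [τ.n2_star] at this
  simp only [norm_inv, Complex.norm_ofNat]
  linarith

lemma proj_orth_sa (τ : Tr A) (hf : τ.Faithful) (hc : τ.Complete)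
    (B : StarSubalgebra ℂ A) (hB : τ.WClosed (B : Set A)) (y : A)
    (hy : IsSelfAdjoint y) (hy1 : ‖y‖ ≤ 1) :
    ∃ q ∈ B, ∀ b ∈ B, τ (star (y - q) * b) = 0 := by
  let K : Set τ.L2 := {x | τ.toL2.symm x ∈ B ∧ ‖τ.toL2.symm x‖ ≤ 1}
  have hKne : K.Nonempty := ⟨0, by simp [K]⟩
  have hKc : IsComplete K := by
    rw [← completeSpace_coe_iff_isComplete]
    refine Metric.complete_of_cauchySeq_tendsto fun u hu => ?_
    have hu' : CauchySeq fun n => τ.toL2 (τ.toL2.symm (u n : τ.L2)) := by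
      simpa [Function.comp_def] using uniformContinuous_subtype_val.comp_cauchySeq hu
    obtain ⟨z, hz1, hz⟩ := hc (fun n => τ.toL2.symm (u n : τ.L2)) 1 (fun n => (u n).2.2) hu'
    have hzB : z ∈ B := hB _ 1 z (fun n => (u n).2.1) (fun n => (u n).2.2) hz
    refine ⟨⟨τ.toL2 z, by simpa [K] using ⟨hzB, hz1⟩⟩, ?_⟩
    rw [tendsto_subtype_rng, tendsto_iff_dist_tendsto_zero]
    refine hz.congr fun n => ?_
    rw [← τ.dist_toL2]; simp
  have hKconv : Convex ℝ K := by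
    intro a ha b hb s t hs ht hst
    refine ⟨?_, ?_⟩
    · change τ.toL2.symm ((s : ℂ) • a + (t : ℂ) • b) ∈ B
      rw [map_add, map_smul, map_smul]
      exact add_mem (B.smul_mem ha.1 _) (B.smul_mem hb.1 _)
    · change ‖τ.toL2.symm ((s : ℂ) • a + (t : ℂ) • b)‖ ≤ 1
      rw [map_add, map_smul, map_smul]
      refine (norm_add_le _ _).trans ?_
      rw [norm_smul, norm_smul, Complex.norm_real, Complex.norm_real, Real.norm_of_nonneg hs,
        Real.norm_of_nonneg ht]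
      nlinarith [ha.2, hb.2]
  have hmin : ∃ v ∈ K, ∀ w ∈ K, ‖τ.toL2 y - v‖ ≤ ‖τ.toL2 y - w‖ := by
    let _ : NormedAddCommGroup τ.L2 := NormedAddCommGroup.ofSeparation (fun x hx => hf x hx)
    let _ : InnerProductSpace ℝ τ.L2 := InnerProductSpace.complexToReal
    obtain ⟨v, hv, hv'⟩ := exists_norm_eq_iInf_of_complete_convex hKne hKc hKconv (τ.toL2 y)
    refine ⟨v, hv, fun w hw => ?_⟩
    rw [hv']
    exact ciInf_le (f := fun w : K => ‖τ.toL2 y - w‖) ⟨0, Set.forall_mem_range.2 fun _ =>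
      norm_nonneg _⟩ ⟨w, hw⟩
  obtain ⟨v, hv, hmin⟩ := hmin
  set q := τ.toL2.symm v with hq
  have hmin' : ∀ w ∈ B, τ.n2 (y - q) ≤ τ.n2 (y - w) := by
    intro w hw
    obtain ⟨f, hfB, hf1, hf2⟩ := proj_trunc' τ B hB.isClosed y hy hy1 w hw
    refine le_trans ?_ hf2
    have := hmin (τ.toL2 f) (by simpa [K] using ⟨hfB, hf1⟩)
    simpa [Tr.n2_def, hq] using this
  refine ⟨q, hv.1, fun b hb => ?_⟩
  set z := y - q with hz
  set c := τ (star z * b) with hcdef
  -- perturbation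
  have hpert : ∀ t : ℝ, 0 ≤ -2 * t * ‖c‖ ^ 2 + t ^ 2 * ‖c‖ ^ 2 * τ.n2 b ^ 2 := by
    intro t
    have h1 := hmin' (q + ((t : ℂ) * conj c) • b) (add_mem hv.1 (B.smul_mem hb _))
    have e : y - (q + ((t : ℂ) * conj c) • b) = z - ((t : ℂ) * conj c) • b := by
      rw [hz]; abel
    rw [e] at h1
    have h2 := pow_le_pow_left₀ (τ.n2_nonneg _) h1 2
    have h3 := @norm_sub_sq ℂ τ.L2 _ _ _ (τ.toL2 z) (τ.toL2 (((t : ℂ) * conj c) • b))
    rw [← map_sub, ← Tr.n2_def, ← Tr.n2_def, ← Tr.n2_def, τ.n2_smul, map_smul, inner_smul_right,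
      τ.inner_toL2, ← hcdef, mul_assoc, Complex.conj_mul', norm_mul, Complex.norm_real,
      Complex.norm_conj, mul_pow, mul_pow, Real.norm_eq_abs, sq_abs] at h3
    have h4 : RCLike.re ((t : ℂ) * ((‖c‖ : ℂ)) ^ 2) = t * ‖c‖ ^ 2 := by
      rw [← Complex.ofReal_pow, ← Complex.ofReal_mul]; exact Complex.ofReal_re _
    rw [h4] at h3
    nlinarith
  by_contra hne
  have hcpos : 0 < ‖c‖ ^ 2 := by positivity
  have h5 := hpert (1 / (τ.n2 b ^ 2 + 1))
  have hb1 : 0 < τ.n2 b ^ 2 + 1 := by positivity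
  have h6 : -2 * (1 / (τ.n2 b ^ 2 + 1)) * ‖c‖ ^ 2 +
      (1 / (τ.n2 b ^ 2 + 1)) ^ 2 * ‖c‖ ^ 2 * τ.n2 b ^ 2 =
      -(‖c‖ ^ 2 * (τ.n2 b ^ 2 + 2) / (τ.n2 b ^ 2 + 1) ^ 2) := by
    field_simp; ring
  rw [h6] at h5
  have : 0 < ‖c‖ ^ 2 * (τ.n2 b ^ 2 + 2) / (τ.n2 b ^ 2 + 1) ^ 2 := by positivity
  linarith

lemma proj_orth_sa' (τ : Tr A) (hf : τ.Faithful) (hc : τ.Complete)
    (B : StarSubalgebra ℂ A) (hB : τ.WClosed (B : Set A)) (y : A) (hy : IsSelfAdjoint y) :
    ∃ q ∈ B, ∀ b ∈ B, τ (star (y - q) * b) = 0 := by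
  set r : ℝ := ‖y‖ + 1 with hr
  have hr0 : 0 < r := by positivity
  have hsa : IsSelfAdjoint (((r⁻¹ : ℝ) : ℂ) • y) := by
    rw [IsSelfAdjoint, star_smul, hy.star_eq]; simp
  have hn : ‖((r⁻¹ : ℝ) : ℂ) • y‖ ≤ 1 := by
    rw [norm_smul, Complex.norm_real, Real.norm_of_nonneg (by positivity), inv_mul_le_iff₀ hr0]
    linarith
  obtain ⟨q, hq, h⟩ := proj_orth_sa τ hf hc B hB _ hsa hn
  refine ⟨(r : ℂ) • q, B.smul_mem hq _, fun b hb => ?_⟩
  have e : y - (r : ℂ) • q = (r : ℂ) • (((r⁻¹ : ℝ) : ℂ) • y - q) := by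
    rw [smul_sub, smul_smul, ← Complex.ofReal_mul, mul_inv_cancel₀ hr0.ne']; simp
  rw [e, star_smul, smul_mul_assoc, τ.map_smul, h b hb, mul_zero]

/-- For a W-closed ⋆-subalgebra `B` every element splits as `q + z`, `q ∈ B`, `z ⊥ B`. -/
theorem exists_orth_decomp (τ : Tr A) (hf : τ.Faithful) (hc : τ.Complete)
    (B : StarSubalgebra ℂ A) (hB : τ.WClosed (B : Set A)) (y : A) :
    ∃ q ∈ B, ∀ b ∈ B, τ (b * star (y - q)) = 0 := by
  obtain ⟨q₁, hq₁, h₁⟩ := proj_orth_sa' τ hf hc B hB _ (realPart y).2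
  obtain ⟨q₂, hq₂, h₂⟩ := proj_orth_sa' τ hf hc B hB _ (imaginaryPart y).2
  refine ⟨q₁ + Complex.I • q₂, add_mem hq₁ (B.smul_mem hq₂ _), fun b hb => ?_⟩
  have e : y - (q₁ + Complex.I • q₂) = ((realPart y : A) - q₁) +
      Complex.I • ((imaginaryPart y : A) - q₂) := by
    conv_lhs => rw [← realPart_add_I_smul_imaginaryPart y]
    rw [smul_sub]; abel
  rw [τ.comm, e, star_add, star_smul, add_mul, smul_mul_assoc, τ.map_add, τ.map_smul, h₁ b hb,
    h₂ b hb]
  simp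

/-- A W-closed, 2-norm dense ⋆-subalgebra is everything. -/
theorem eq_top_of_dense (τ : Tr A) (hf : τ.Faithful) (hc : τ.Complete)
    (B : StarSubalgebra ℂ A) (hB : τ.WClosed (B : Set A))
    (hd : ∀ y : A, ∀ ε : ℝ, 0 < ε → ∃ b ∈ B, τ.n2 (y - b) < ε) : B = ⊤ := by
  rw [eq_top_iff]
  intro y _
  obtain ⟨q, hq, h⟩ := exists_orth_decomp τ hf hc B hB y
  set z := y - q with hz
  have hz0 : τ.n2 z = 0 := by
    by_contra hne
    have hpos : 0 < τ.n2 z := lt_of_le_of_ne (τ.n2_nonneg _) (Ne.symm hne)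
    obtain ⟨b, hb, hlt⟩ := hd z _ hpos
    have h1 : τ (star z * (z - b)) = τ (star z * z) := by
      rw [mul_sub, τ.map_sub, τ.comm (star z) b, h b hb, sub_zero]
    have h2 := τ.norm_star_mul_le z (z - b)
    rw [h1, ← τ.n2_sq_complex, norm_pow, Complex.norm_real, Real.norm_of_nonneg hpos.le] at h2
    nlinarith
  have : y = q := sub_eq_zero.mp (hf z hz0)
  rw [this]; exact hq

/-- ⋆-polynomials in `S` and a unitary are Lipschitz in the unitary for the 2-norm. -/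
theorem adjoin_lipschitz (τ : Tr A) (S : Set A) (u : A) (hu : u ∈ unitary A) (q : A)
    (hq : q ∈ StarAlgebra.adjoin ℂ (S ∪ {u})) :
    ∃ C : ℝ, 0 ≤ C ∧ ∀ u' ∈ unitary A, ∃ q' ∈ StarAlgebra.adjoin ℂ (S ∪ {u'}),
      ‖q'‖ ≤ C ∧ τ.n2 (q - q') ≤ C * τ.n2 (u - u') := by
  have := τ.nontrivial
  induction hq using StarAlgebra.adjoin_induction with
  | mem x hx =>
    rcases hx with hx | hx
    · refine ⟨‖x‖, norm_nonneg _, fun u' _ => ⟨x, StarAlgebra.subset_adjoin ℂ _ (Or.inl hx),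
        le_rfl, ?_⟩⟩
      rw [sub_self, τ.n2_zero]
      exact mul_nonneg (norm_nonneg _) (τ.n2_nonneg _)
    · rw [Set.mem_singleton_iff] at hx
      subst hx
      refine ⟨1, zero_le_one, fun u' hu' => ⟨u', StarAlgebra.subset_adjoin ℂ _ (Or.inr rfl),
        (CStarRing.norm_of_mem_unitary hu').le, by rw [one_mul]⟩⟩
  | algebraMap r =>
    refine ⟨‖algebraMap ℂ A r‖, norm_nonneg _, fun u' _ => ⟨algebraMap ℂ A r,
      StarSubalgebra.algebraMap_mem _ r, le_rfl, ?_⟩⟩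
    rw [sub_self, τ.n2_zero]
    exact mul_nonneg (norm_nonneg _) (τ.n2_nonneg _)
  | add x y _ _ hx hy =>
    obtain ⟨C, hC, hx⟩ := hx
    obtain ⟨D, hD, hy⟩ := hy
    refine ⟨C + D, by positivity, fun u' hu' => ?_⟩
    obtain ⟨x', hx', hx1, hx2⟩ := hx u' hu'
    obtain ⟨y', hy', hy1, hy2⟩ := hy u' hu'
    refine ⟨x' + y', add_mem hx' hy', (norm_add_le _ _).trans (add_le_add hx1 hy1), ?_⟩
    have e : x + y - (x' + y') = (x - x') + (y - y') := by abel
    rw [e, add_mul]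
    exact (τ.n2_add_le _ _).trans (add_le_add hx2 hy2)
  | mul x y _ _ hx hy =>
    obtain ⟨C, hC, hx⟩ := hx
    obtain ⟨D, hD, hy⟩ := hy
    refine ⟨C * D + C * ‖y‖, by positivity, fun u' hu' => ?_⟩
    obtain ⟨x', hx', hx1, hx2⟩ := hx u' hu'
    obtain ⟨y', hy', hy1, hy2⟩ := hy u' hu'
    refine ⟨x' * y', mul_mem hx' hy', ?_, ?_⟩
    · refine (norm_mul_le _ _).trans ?_
      have h1 : ‖x'‖ * ‖y'‖ ≤ C * D := mul_le_mul hx1 hy1 (norm_nonneg _) hC
      have h2 : 0 ≤ C * ‖y‖ := by positivity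
      linarith
    · have e : x * y - x' * y' = (x - x') * y + x' * (y - y') := by noncomm_ring
      rw [e]
      refine (τ.n2_add_le _ _).trans ?_
      have h1 := τ.n2_mul_le' (x - x') y
      have h2 := τ.n2_mul_le x' (y - y')
      have h3 : τ.n2 (x - x') * ‖y‖ ≤ C * τ.n2 (u - u') * ‖y‖ :=
        mul_le_mul_of_nonneg_right hx2 (norm_nonneg _)
      have h4 : ‖x'‖ * τ.n2 (y - y') ≤ C * (D * τ.n2 (u - u')) :=
        mul_le_mul hx1 hy2 (τ.n2_nonneg _) hC
      nlinarith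
  | star x _ hx =>
    obtain ⟨C, hC, hx⟩ := hx
    refine ⟨C, hC, fun u' hu' => ?_⟩
    obtain ⟨x', hx', hx1, hx2⟩ := hx u' hu'
    refine ⟨star x', star_mem hx', by rwa [norm_star], ?_⟩
    rwa [← star_sub, τ.n2_star]

set_option linter.unusedVariables false in
/-- The unitary group with the trace 2-norm distance. -/
@[nolint unusedArguments]
def ProjUni (τ : Tr A) : Type _ := {u : A // u ∈ unitary A}

noncomputable instance (τ : Tr A) : PseudoMetricSpace (ProjUni τ) :=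
  PseudoMetricSpace.induced (fun u => τ.toL2 u.1) inferInstance

lemma ProjUni.dist_eq (τ : Tr A) (u v : ProjUni τ) : dist u v = τ.n2 (u.1 - v.1) :=
  τ.dist_toL2 u.1 v.1

lemma ProjUni.complete (τ : Tr A) (hf : τ.Faithful) (hc : τ.Complete) :
    CompleteSpace (ProjUni τ) := by
  have := τ.nontrivial
  refine Metric.complete_of_cauchySeq_tendsto fun u hu => ?_
  have hu' : CauchySeq fun n => τ.toL2 (u n).1 := by
    rw [Metric.cauchySeq_iff] at hu ⊢
    exact hu
  obtain ⟨y, hy1, hy⟩ := hc (fun n => (u n).1) 1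
    (fun n => (CStarRing.norm_of_mem_unitary (u n).2).le) hu'
  have hbound : ∀ n, τ.n2 (star y * y - 1) ≤ 2 * τ.n2 ((u n).1 - y) ∧
      τ.n2 (y * star y - 1) ≤ 2 * τ.n2 ((u n).1 - y) := by
    intro n
    set w := (u n).1
    have hw : w ∈ unitary A := (u n).2
    have hw1 : ‖w‖ ≤ 1 := (CStarRing.norm_of_mem_unitary hw).le
    have h0 := τ.n2_nonneg (w - y)
    constructor
    · have e : star y * y - 1 = -(star y * (w - y)) - star (w - y) * w := by
        rw [← Unitary.star_mul_self_of_mem hw, star_sub]; noncomm_ring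
      rw [e]
      refine (τ.n2_sub_le _ _).trans ?_
      have h1 := τ.n2_mul_le (star y) (w - y)
      have h2 := τ.n2_mul_le' (star (w - y)) w
      rw [norm_star] at h1
      rw [τ.n2_star] at h2
      rw [τ.n2_neg]
      nlinarith
    · have e : y * star y - 1 = -(y * star (w - y)) - (w - y) * star w := by
        rw [← Unitary.mul_star_self_of_mem hw, star_sub]; noncomm_ring
      rw [e]
      refine (τ.n2_sub_le _ _).trans ?_
      have h1 := τ.n2_mul_le y (star (w - y))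
      have h2 := τ.n2_mul_le' (w - y) (star w)
      rw [norm_star] at h2
      rw [τ.n2_star] at h1
      rw [τ.n2_neg]
      nlinarith
  have hlim : Tendsto (fun n => 2 * τ.n2 ((u n).1 - y)) atTop (𝓝 0) := by
    simpa using hy.const_mul 2
  have h1 : star y * y = 1 := sub_eq_zero.mp (hf _ (le_antisymm
    (ge_of_tendsto' hlim fun n => (hbound n).1) (τ.n2_nonneg _)))
  have h2 : y * star y = 1 := sub_eq_zero.mp (hf _ (le_antisymm
    (ge_of_tendsto' hlim fun n => (hbound n).2) (τ.n2_nonneg _)))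
  refine ⟨⟨y, Unitary.mem_iff.mpr ⟨h1, h2⟩⟩, ?_⟩
  rw [tendsto_iff_dist_tendsto_zero]
  exact hy.congr fun n => (ProjUni.dist_eq τ (u n) ⟨y, _⟩).symm

/-- Baire's theorem on the unitary group with the 2-norm. -/
theorem unitary_baire (τ : Tr A) (hf : τ.Faithful) (hc : τ.Complete) {ι : Type*} [Countable ι]
    (O : ι → Set A)
    (hopen : ∀ i, ∀ u ∈ unitary A, u ∈ O i → ∃ δ : ℝ, 0 < δ ∧
      ∀ v ∈ unitary A, τ.n2 (v - u) < δ → v ∈ O i)
    (hdense : ∀ i, ∀ u ∈ unitary A, ∀ δ : ℝ, 0 < δ → ∃ v ∈ unitary A, τ.n2 (v - u) < δ ∧ v ∈ O i)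
    (u₀ : A) (hu₀ : u₀ ∈ unitary A) (δ : ℝ) (hδ : 0 < δ) :
    ∃ u ∈ unitary A, τ.n2 (u - u₀) < δ ∧ ∀ i, u ∈ O i := by
  have := ProjUni.complete τ hf hc
  let O' : ι → Set (ProjUni τ) := fun i => {u | u.1 ∈ O i}
  have ho : ∀ i, IsOpen (O' i) := by
    intro i
    rw [Metric.isOpen_iff]
    intro u hu
    obtain ⟨ε, hε, h⟩ := hopen i u.1 u.2 hu
    exact ⟨ε, hε, fun v hv => h v.1 v.2 (by rwa [Metric.mem_ball, ProjUni.dist_eq] at hv)⟩
  have hd : ∀ i, Dense (O' i) := by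
    intro i
    rw [Metric.dense_iff]
    intro u ε hε
    obtain ⟨v, hv, h1, h2⟩ := hdense i u.1 u.2 ε hε
    exact ⟨⟨v, hv⟩, by rwa [Metric.mem_ball, ProjUni.dist_eq], h2⟩
  have hD := dense_iInter_of_isOpen ho hd
  rw [Metric.dense_iff] at hD
  obtain ⟨u, h1, h2⟩ := hD ⟨u₀, hu₀⟩ δ hδ
  refine ⟨u.1, u.2, by rwa [Metric.mem_ball, ProjUni.dist_eq] at h1, fun i => ?_⟩
  exact Set.mem_iInter.mp h2 i

end Crest.Agent.R095
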