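import Crest.Agent.R095.Cayley

/-! Row 95: second-order expansion of words under `a ↦ a * cay h`. -/

set_option autoImplicit false

open Filter Topology
open scoped ComplexOrder InnerProductSpace ComplexConjugate

namespace Crest.Agent.R095

open Complex (I)

variable {A : Type*} [CStarAlgebra A]

lemma wl_append (b : A) (l l' : List (Bool × A)) : wl b (l ++ l') = wl b l * wl b l' := by
  induction l with
  | nil => simp
  | cons p l ih => simp [ih, mul_assoc]

lemma lt_unitary {b : A} (hb : b ∈ unitary A) (e : Bool) : lt b e ∈ unitary A := by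
  cases e
  · exact Unitary.star_mem hb
  · exact hb

lemma norm_one_le' : ‖(1 : A)‖ ≤ 1 := by
  rcases subsingleton_or_nontrivial A with h | h
  · simp [Subsingleton.elim (1 : A) 0]
  · simp

lemma norm_unitary_le {b : A} (hb : b ∈ unitary A) : ‖b‖ ≤ 1 := by
  have := CStarRing.norm_mem_unitary_mul (1 : A) hb
  rw [mul_one] at this
  rw [this]
  exact norm_one_le'

lemma norm_mul_le_one {x y : A} (hx : ‖x‖ ≤ 1) (hy : ‖y‖ ≤ 1) : ‖x * y‖ ≤ 1 :=
  (norm_mul_le _ _).trans (mul_le_one₀ hx (norm_nonneg _) hy)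

lemma norm_mul₃_le' {x y z : A} {a c : ℝ} (hx : ‖x‖ ≤ a) (hy : ‖y‖ ≤ 1) (hz : ‖z‖ ≤ c) :
    ‖x * y * z‖ ≤ a * c := by
  have ha : 0 ≤ a := (norm_nonneg _).trans hx
  calc _ ≤ ‖x‖ * ‖y‖ * ‖z‖ := norm_mul₃_le
    _ ≤ a * 1 * c := by gcongr
    _ = _ := by ring

lemma norm_wl_le {b : A} (hb : b ∈ unitary A) {l : List (Bool × A)} (hl : ∀ p ∈ l, ‖p.2‖ ≤ 1) :
    ‖wl b l‖ ≤ 1 := by
  induction l with
  | nil => exact norm_one_le'
  | cons p l ih =>
    exact norm_mul_le_one (norm_mul_le_one (norm_unitary_le (lt_unitary hb _)) (hl p (by simp)))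
      (ih fun q hq => hl q (by simp [hq]))

/-- First-order jet of a letter. -/
noncomputable def lt1 (a h : A) : Bool → A
  | true => I • (a * h)
  | false => (-I) • (h * star a)

/-- Second-order jet of a letter. -/
noncomputable def lt2 (a h : A) : Bool → A
  | true => (-(1 / 2) : ℂ) • (a * (h * h))
  | false => (-(1 / 2) : ℂ) • (h * h * star a)

/-- First-order jet of a word. -/
noncomputable def J1 (a h : A) : List (Bool × A) → A
  | [] => 0
  | p :: l => lt1 a h p.1 * p.2 * wl a l + lt a p.1 * p.2 * J1 a h l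

/-- Second-order jet of a word. -/
noncomputable def J2 (a h : A) : List (Bool × A) → A
  | [] => 0
  | p :: l => lt2 a h p.1 * p.2 * wl a l + lt1 a h p.1 * p.2 * J1 a h l
      + lt a p.1 * p.2 * J2 a h l

lemma lt1_smul (a h : A) (c : ℝ) (e : Bool) : lt1 a (c • h) e = c • lt1 a h e := by
  cases e <;> simp [lt1, smul_comm c]

lemma lt2_smul (a h : A) (c : ℝ) (e : Bool) : lt2 a (c • h) e = c ^ 2 • lt2 a h e := by
  cases e <;> simp [lt2, smul_comm (c * c), smul_smul, sq]

lemma J1_smul (a h : A) (c : ℝ) (l : List (Bool × A)) : J1 a (c • h) l = c • J1 a h l := by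
  induction l with
  | nil => simp [J1]
  | cons p l ih => simp [J1, ih, lt1_smul]

lemma J2_smul (a h : A) (c : ℝ) (l : List (Bool × A)) : J2 a (c • h) l = c ^ 2 • J2 a h l := by
  induction l with
  | nil => simp [J2]
  | cons p l ih => simp [J2, ih, lt1_smul, lt2_smul, J1_smul, smul_smul, sq]

section
variable {a h : A} (ha : a ∈ unitary A)
include ha

lemma norm_lt1_le (e : Bool) : ‖lt1 a h e‖ ≤ ‖h‖ := by
  cases e
  · simp [lt1, norm_smul, CStarRing.norm_mul_mem_unitary _ (Unitary.star_mem ha)]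
  · simp [lt1, norm_smul, CStarRing.norm_mem_unitary_mul _ ha]

lemma norm_lt2_le (e : Bool) : ‖lt2 a h e‖ ≤ ‖h‖ ^ 2 / 2 := by
  have := norm_mul_le h h
  cases e
  · simp only [lt2, norm_smul, CStarRing.norm_mul_mem_unitary _ (Unitary.star_mem ha)]
    simp; nlinarith
  · simp only [lt2, norm_smul, CStarRing.norm_mem_unitary_mul _ ha]
    simp; nlinarith

lemma norm_J1_le {l : List (Bool × A)} (hl : ∀ p ∈ l, ‖p.2‖ ≤ 1) :
    ‖J1 a h l‖ ≤ l.length * ‖h‖ := by
  induction l with
  | nil => simp [J1]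
  | cons p l ih =>
    have hl' : ∀ q ∈ l, ‖q.2‖ ≤ 1 := fun q hq => hl q (by simp [hq])
    have h1 := norm_mul₃_le' (norm_lt1_le (h := h) ha p.1) (hl p (by simp)) (norm_wl_le ha hl')
    have h2 := norm_mul₃_le' (norm_unitary_le (lt_unitary ha p.1)) (hl p (by simp)) (ih hl')
    refine (norm_add_le _ _).trans ?_
    simp only [List.length_cons]; push_cast; linarith

lemma norm_J2_le {l : List (Bool × A)} (hl : ∀ p ∈ l, ‖p.2‖ ≤ 1) :
    ‖J2 a h l‖ ≤ l.length ^ 2 * ‖h‖ ^ 2 := by
  induction l with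
  | nil => simp [J2]
  | cons p l ih =>
    have hl' : ∀ q ∈ l, ‖q.2‖ ≤ 1 := fun q hq => hl q (by simp [hq])
    have h1 := norm_mul₃_le' (norm_lt2_le (h := h) ha p.1) (hl p (by simp)) (norm_wl_le ha hl')
    have h2 := norm_mul₃_le' (norm_lt1_le (h := h) ha p.1) (hl p (by simp))
      (norm_J1_le (h := h) ha hl')
    have h3 := norm_mul₃_le' (norm_unitary_le (lt_unitary ha p.1)) (hl p (by simp)) (ih hl')
    refine norm_add₃_le.trans ?_
    have h4 : (0 : ℝ) ≤ l.length * ‖h‖ ^ 2 := by positivity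
    simp only [List.length_cons]; push_cast; nlinarith [sq_nonneg ‖h‖]

variable (hh : IsSelfAdjoint h)
include hh

lemma lt_cay_sub (e : Bool) :
    ‖lt (a * cay h) e - lt a e‖ ≤ ‖h‖ ∧ ‖lt (a * cay h) e - lt a e - lt1 a h e‖ ≤ ‖h‖ ^ 2 / 2 ∧
      ‖lt (a * cay h) e - lt a e - lt1 a h e - lt2 a h e‖ ≤ ‖h‖ ^ 3 / 4 := by
  have hr : ‖h * cayR h‖ ≤ ‖h‖ :=
    (norm_mul_le _ _).trans (mul_le_of_le_one_right (norm_nonneg _) (norm_cayR_le hh))
  have h1 : ‖cay h - 1‖ ≤ ‖h‖ := by
    rw [cay, add_sub_cancel_left, norm_smul, Complex.norm_I, one_mul]; exact hr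
  have h2 : ‖cay h - 1 - I • h‖ ≤ ‖h‖ ^ 2 / 2 := by
    have e : cay h - 1 - I • h = -((1 / 2 : ℂ) • (h * cayR h * h)) := by
      rw [cay_eq_second hh]; abel
    have h5 : ‖(1 / 2 : ℂ)‖ = 1 / 2 := by simp
    have h6 : ‖h * cayR h * h‖ ≤ ‖h‖ * ‖h‖ :=
      (norm_mul_le _ _).trans (mul_le_mul_of_nonneg_right hr (norm_nonneg _))
    rw [e, norm_neg, norm_smul, h5]; nlinarith
  have h3 : ‖cay h - 1 - I • h - (-(1 / 2) : ℂ) • (h * h)‖ ≤ ‖h‖ ^ 3 / 4 := by
    convert norm_cay_sub_le hh using 2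
    rw [neg_smul]; abel
  have t1 : lt (a * cay h) true - lt a true = a * (cay h - 1) := by simp [mul_sub]
  have t2 : lt (a * cay h) true - lt a true - lt1 a h true = a * (cay h - 1 - I • h) := by
    simp [mul_sub, lt1]
  have t3 : lt (a * cay h) true - lt a true - lt1 a h true - lt2 a h true
      = a * (cay h - 1 - I • h - (-(1 / 2) : ℂ) • (h * h)) := by
    simp only [mul_sub, lt1, lt2, lt_true, mul_one, mul_smul_comm]
  cases e
  · have f1 : lt (a * cay h) false - lt a false = star (lt (a * cay h) true - lt a true) := by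
      simp
    have f2 : lt1 a h false = star (lt1 a h true) := by simp [lt1, hh.star_eq]
    have f3 : lt2 a h false = star (lt2 a h true) := by simp [lt2, hh.star_eq]
    rw [f1, f2, f3, ← star_sub, ← star_sub, norm_star, norm_star, norm_star, t3, t2, t1]
    simp only [CStarRing.norm_mem_unitary_mul _ ha]
    exact ⟨h1, h2, h3⟩
  · rw [t3, t2, t1]
    simp only [CStarRing.norm_mem_unitary_mul _ ha]
    exact ⟨h1, h2, h3⟩

lemma norm_wl_cay_sub {l : List (Bool × A)} (hl : ∀ p ∈ l, ‖p.2‖ ≤ 1) :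
    ‖wl (a * cay h) l - (wl a l + J1 a h l + J2 a h l)‖ ≤ l.length ^ 3 * ‖h‖ ^ 3 := by
  induction l with
  | nil => simp [J1, J2]
  | cons p l ih =>
    have hl' : ∀ q ∈ l, ‖q.2‖ ≤ 1 := fun q hq => hl q (by simp [hq])
    have hp := hl p (by simp)
    obtain ⟨k1, k2, k3⟩ := lt_cay_sub ha hh p.1
    have ha' : a * cay h ∈ unitary A := mul_mem ha (cay_mem_unitary hh)
    have e : wl (a * cay h) (p :: l) - (wl a (p :: l) + J1 a h (p :: l) + J2 a h (p :: l))
        = lt (a * cay h) p.1 * p.2 * (wl (a * cay h) l - (wl a l + J1 a h l + J2 a h l))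
          + (lt (a * cay h) p.1 - lt a p.1 - lt1 a h p.1 - lt2 a h p.1) * p.2 * wl a l
          + (lt (a * cay h) p.1 - lt a p.1 - lt1 a h p.1) * p.2 * J1 a h l
          + (lt (a * cay h) p.1 - lt a p.1) * p.2 * J2 a h l := by
      simp only [wl_cons, J1, J2]; noncomm_ring
    have h0 := norm_mul₃_le' (norm_unitary_le (lt_unitary ha' p.1)) hp (ih hl')
    have h1 := norm_mul₃_le' k3 hp (norm_wl_le ha hl')
    have h2 := norm_mul₃_le' k2 hp (norm_J1_le (h := h) ha hl')
    have h3 := norm_mul₃_le' k1 hp (norm_J2_le (h := h) ha hl')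
    rw [e]
    refine (norm_add_le _ _).trans ((add_le_add_left norm_add₃_le _).trans ?_)
    have h4 : (0 : ℝ) ≤ ‖h‖ ^ 3 := by positivity
    have h5 : (0 : ℝ) ≤ l.length * ‖h‖ ^ 3 := by positivity
    have h6 : (0 : ℝ) ≤ l.length ^ 2 * ‖h‖ ^ 3 := by positivity
    simp only [List.length_cons]; push_cast; nlinarith

omit hh in
/-- The first-order jet, traced against a context, is one pairing with `h`. -/
lemma exists_J1_pairing (τ : Tr A) {l : List (Bool × A)} (hl : ∀ p ∈ l, ‖p.2‖ ≤ 1) (c : A)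
    (hc : ‖c‖ ≤ 1) : ∃ y : A, ‖y‖ ≤ l.length ∧ ∀ s : A, τ (c * J1 a s l) = τ (y * s) := by
  induction l generalizing c with
  | nil => exact ⟨0, by simp, fun s => by simp [J1]⟩
  | cons p l ih =>
    have hl' : ∀ q ∈ l, ‖q.2‖ ≤ 1 := fun q hq => hl q (by simp [hq])
    have hp := hl p (by simp)
    have hw := norm_wl_le ha hl'
    obtain ⟨y, hy, hys⟩ := ih hl' (c * lt a p.1 * p.2)
      (norm_mul_le_one (norm_mul_le_one hc (norm_unitary_le (lt_unitary ha _))) hp)
    obtain ⟨y', hy', hys'⟩ : ∃ y' : A, ‖y'‖ ≤ 1 ∧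
        ∀ s : A, τ (c * (lt1 a s p.1 * p.2 * wl a l)) = τ (y' * s) := by
      cases p.1
      · refine ⟨(-I) • (star a * p.2 * wl a l * c), ?_, fun s => ?_⟩
        · rw [norm_smul, norm_neg, Complex.norm_I, one_mul]
          exact norm_mul_le_one (norm_mul_le_one (norm_mul_le_one
            (norm_unitary_le (Unitary.star_mem ha)) hp) hw) hc
        · simp only [lt1, smul_mul_assoc, mul_smul_comm, τ.map_smul]
          congr 1
          rw [mul_assoc s, mul_assoc s, ← mul_assoc c, τ.comm, mul_assoc _ c s]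
      · refine ⟨I • (p.2 * wl a l * c * a), ?_, fun s => ?_⟩
        · rw [norm_smul, Complex.norm_I, one_mul]
          exact norm_mul_le_one (norm_mul_le_one (norm_mul_le_one hp hw) hc) (norm_unitary_le ha)
        · simp only [lt1, smul_mul_assoc, mul_smul_comm, τ.map_smul]
          congr 1
          rw [mul_assoc (a * s), ← mul_assoc c, τ.comm]
          simp only [mul_assoc]
    refine ⟨y' + y, (norm_add_le _ _).trans ?_, fun s => ?_⟩
    · simp only [List.length_cons]; push_cast; linarith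
    · rw [J1, mul_add, τ.map_add, add_mul, τ.map_add, hys', ← hys]
      simp only [mul_assoc]

end

end Crest.Agent.R095
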