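import Crest.Agent.R095.Main
import Crest.Agent.R095.PopaJet

/-! Row 95: passing through `ℓ^∞(ℕ, A)` with an ultralimit trace. -/

set_option autoImplicit false

open Filter Topology
open scoped ComplexOrder InnerProductSpace ComplexConjugate BoundedContinuousFunction

namespace Crest.Agent.R095

variable {A : Type*} [CStarAlgebra A]

lemma exists_ulim (τ : Tr A) (x : ℕ →ᵇ A) :
    ∃ c : ℂ, Tendsto (fun n => τ (x n)) (hyperfilter ℕ) (𝓝 c) := by
  obtain ⟨c, -, hc⟩ := (isCompact_closedBall (0 : ℂ) ‖x‖).ultrafilter_le_nhds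
    ((hyperfilter ℕ).map fun n => τ (x n)) (by
      rw [Ultrafilter.coe_map, le_principal_iff, mem_map]
      exact Eventually.of_forall fun n => by
        simpa using (τ.norm_le _).trans (x.norm_coe_le_norm n))
  exact ⟨c, hc⟩

/-- The ultralimit trace on bounded sequences. -/
theorem exists_utr (τ : Tr A) : ∃ T : Tr (ℕ →ᵇ A),
    ∀ x : ℕ →ᵇ A, Tendsto (fun n => τ (x n)) (hyperfilter ℕ) (𝓝 (T x)) := by
  choose t ht using exists_ulim τ
  refine ⟨⟨⟨⟨t, fun x y => ?_⟩, fun c x => ?_⟩, ?_, fun x y => ?_, fun x => ?_⟩, ht⟩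
  · exact tendsto_nhds_unique (ht _) (by simpa using (ht x).add (ht y))
  · exact tendsto_nhds_unique (ht _) (by simpa using (ht x).const_mul c)
  · exact tendsto_nhds_unique (ht _) (by simp)
  · refine tendsto_nhds_unique (ht _) ((ht (y * x)).congr fun n => ?_)
    simp [τ.comm (y n)]
  · exact ge_of_tendsto' (ht _) fun n => by simpa using τ.pos (x n)

lemma utr_n2 {τ : Tr A} {T : Tr (ℕ →ᵇ A)}
    (hT : ∀ x : ℕ →ᵇ A, Tendsto (fun n => τ (x n)) (hyperfilter ℕ) (𝓝 (T x))) (x : ℕ →ᵇ A) :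
    Tendsto (fun n => τ.n2 (x n)) (hyperfilter ℕ) (𝓝 (T.n2 x)) := by
  simp only [Tr.n2_eq_sqrt]
  exact ((Complex.continuous_re.tendsto _).comp (hT (star x * x))).sqrt

lemma unitary_apply {u : ℕ →ᵇ A} (hu : u ∈ unitary (ℕ →ᵇ A)) (n : ℕ) : u n ∈ unitary A :=
  Unitary.mem_iff.2 ⟨congrArg (fun f : ℕ →ᵇ A => f n) (Unitary.mem_iff.1 hu).1,
    congrArg (fun f : ℕ →ᵇ A => f n) (Unitary.mem_iff.1 hu).2⟩

lemma wl_apply (a : ℕ →ᵇ A) (l : List (Bool × (ℕ →ᵇ A))) (n : ℕ) :
    wl a l n = wl (a n) (l.map fun p => (p.1, p.2 n)) := by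
  induction l with
  | nil => rfl
  | cons p l ih =>
    obtain ⟨e, x⟩ := p
    cases e <;> simp [ih]

lemma countable_closure {M : Type*} [Monoid M] {S : Set M} (hS : S.Countable) :
    (Submonoid.closure S : Set M).Countable := by
  have := hS.to_subtype
  refine (Set.countable_range fun l : List S => (l.map Subtype.val).prod).mono fun x hx => ?_
  induction hx using Submonoid.closure_induction with
  | mem x hx => exact ⟨[⟨x, hx⟩], by simp⟩
  | one => exact ⟨[], by simp⟩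
  | mul x y _ _ hx hy =>
    obtain ⟨l, rfl⟩ := hx
    obtain ⟨l', rfl⟩ := hy
    exact ⟨l ++ l', by simp⟩

/-- Pointwise centring of a bounded sequence. -/
noncomputable def pc (τ : Tr A) : (ℕ →ᵇ A) →L[ℂ] (ℕ →ᵇ A) :=
  (ContinuousLinearMap.id ℂ A - τ.clm.smulRight (1 : A)).compLeftContinuousBounded ℕ

lemma pc_apply (τ : Tr A) (x : ℕ →ᵇ A) (n : ℕ) : pc τ x n = x n - τ (x n) • (1 : A) := rfl

theorem ext_free (τ : Tr A) (P : Set A) (h : PopaFree τ P) {T : Tr (ℕ →ᵇ A)}
    (hT : ∀ x : ℕ →ᵇ A, Tendsto (fun n => τ (x n)) (hyperfilter ℕ) (𝓝 (T x)))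
    (S : Set (ℕ →ᵇ A)) (hS : S.Finite) :
    ∃ a ∈ {a : ℕ →ᵇ A | ∀ n, a n ∈ P}, Free T (StarAlgebra.adjoin ℂ S : Set (ℕ →ᵇ A)) a := by
  classical
  set G : Set (ℕ →ᵇ A) := (Submonoid.closure (S ∪ star S) : Set (ℕ →ᵇ A)) with hG
  have hGc : G.Countable := countable_closure (hS.union hS.star).countable
  have hG'c : (G ∪ pc τ '' G).Countable := hGc.union (hGc.image _)
  obtain ⟨g, hg⟩ := hG'c.exists_eq_range ⟨1, Or.inl (one_mem _)⟩
  choose a₀ haP hau ha using fun n : ℕ =>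
    h ((Finset.range n).image fun i => g i n) n (1 / ((n : ℝ) + 1)) (by positivity)
  let a : ℕ →ᵇ A := BoundedContinuousFunction.ofNormedAddCommGroupDiscrete a₀ 1
    fun n => norm_unitary_le (hau n)
  have han : ∀ n, a n = a₀ n := fun n => rfl
  have hA : ∀ l : List (Bool × (ℕ →ᵇ A)), l ≠ [] → (∀ p ∈ l, p.2 ∈ G ∪ pc τ '' G) →
      (l.IsChain fun p q => p.1 ≠ q.1 → ∀ n, τ (p.2 n) = 0) → T (wl a l) = 0 := by
    intro l hl0 hl hred
    refine tendsto_nhds_unique (hT _) (Tendsto.mono_left ?_ Nat.hyperfilter_le_atTop)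
    rw [tendsto_zero_iff_norm_tendsto_zero]
    refine squeeze_zero' (Eventually.of_forall fun n => norm_nonneg _) ?_
      tendsto_one_div_add_atTop_nhds_zero_nat
    have h1 : ∀ᶠ n in atTop, ∀ p ∈ l, p.2 n ∈ (Finset.range n).image fun i => g i n := by
      refine (l.finite_toSet.eventually_all (p := fun p n =>
        p.2 n ∈ (Finset.range n).image fun i => g i n)).2 fun p hp => ?_
      obtain ⟨i, hi⟩ : p.2 ∈ Set.range g := hg ▸ hl p hp
      filter_upwards [eventually_gt_atTop i] with n hn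
      exact Finset.mem_image.2 ⟨i, Finset.mem_range.2 hn, by rw [hi]⟩
    filter_upwards [h1, eventually_ge_atTop l.length] with n hn1 hn2
    rw [wl_apply, han]
    refine ha n _ (by simpa using hl0) (by simpa using hn2) ?_
      (List.isChain_map_of_isChain _ (fun p q hpq hne => hpq hne n) hred)
    intro p hp
    obtain ⟨q, hq, rfl⟩ := List.mem_map.1 hp
    exact hn1 q hq
  have hau' : a ∈ unitary (ℕ →ᵇ A) := Unitary.mem_iff.2
    ⟨BoundedContinuousFunction.ext fun n => (Unitary.mem_iff.1 (hau n)).1,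
      BoundedContinuousFunction.ext fun n => (Unitary.mem_iff.1 (hau n)).2⟩
  let NF : Bool → Set (ℕ →ᵇ A) := fun e =>
    {w | ∃ x l, (∀ p ∈ (e, x) :: l, p.2 ∈ G ∪ pc τ '' G) ∧
      (((e, x) :: l).IsChain fun p q => p.1 ≠ q.1 → ∀ n, τ (p.2 n) = 0) ∧
        w = wl a ((e, x) :: l)} ∪ {z | T.n2 z = 0}
  have hNF : ∀ e, ∀ z ∈ NF e, T z = 0 := by
    rintro e z (⟨x, l, h1, h2, rfl⟩ | hz)
    · exact hA _ (by simp) h1 h2
    · exact norm_le_zero_iff.1 ((T.norm_le_n2 z).trans_eq hz)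
  have hnull : ∀ e (c z d : ℕ →ᵇ A), T.n2 z = 0 → c * z * d ∈ Submodule.span ℂ (NF e) := by
    intro e c z d hz
    refine Submodule.subset_span (Or.inr (le_antisymm ?_ (T.n2_nonneg _)))
    refine (T.n2_mul_le' _ _).trans (le_of_eq ?_)
    rw [le_antisymm ((T.n2_mul_le c z).trans_eq (by rw [hz, mul_zero])) (T.n2_nonneg _), zero_mul]
  have hspan : ∀ x ∈ StarAlgebra.adjoin ℂ S, x ∈ Submodule.span ℂ G := by
    intro x hx
    rw [hG, ← StarAlgebra.adjoin_eq_span]
    exact hx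
  have hcons : ∀ e e' x, x ∈ G ∪ pc τ '' G → (e ≠ e' → ∀ n, τ (x n) = 0) →
      ∀ w ∈ Submodule.span ℂ (NF e'), lt a e * x * w ∈ Submodule.span ℂ (NF e) := by
    intro e e' x hx hx0
    refine span_mul_mem ?_
    rintro z (⟨x', l, h1, h2, rfl⟩ | hz)
    · refine Submodule.subset_span (Or.inl ⟨x, (e', x') :: l, ?_, ?_, rfl⟩)
      · intro p hp
        rcases List.mem_cons.1 hp with rfl | hp
        exacts [hx, h1 p hp]
      · exact List.isChain_cons_cons.2 ⟨hx0, h2⟩
    · simpa using hnull e (lt a e * x) z 1 hz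
  have hlin : ∀ e (G' : Set (ℕ →ᵇ A)) (w : ℕ →ᵇ A),
      (∀ x ∈ G', lt a e * x * w ∈ Submodule.span ℂ (NF e)) →
      ∀ x ∈ Submodule.span ℂ G', lt a e * x * w ∈ Submodule.span ℂ (NF e) := by
    intro e G' w hw x hx
    induction hx using Submodule.span_induction with
    | mem x hx => exact hw x hx
    | zero => simp
    | add x y _ _ hx hy => rw [mul_add, add_mul]; exact add_mem hx hy
    | smul c x _ hx => rw [mul_smul_comm, smul_mul_assoc]; exact Submodule.smul_mem _ c hx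
  refine ⟨a, haP, hau', fun e w hw => tr_span_eq_zero T (hNF e) w ?_⟩
  induction hw with
  | last e x hx =>
    have := hlin e G 1 (fun x hx => Submodule.subset_span
      (Or.inl ⟨x, [], by simpa using Or.inl hx, by simp, rfl⟩)) x (hspan x hx)
    simpa using this
  | cons e e' x w hx hxc _ ih =>
    by_cases hee : e = e'
    · exact hlin e G w (fun x hx => hcons e e' x (Or.inl hx) (fun h => absurd hee h) w ih) x
        (hspan x hx)
    · have e1 : lt a e * x * w = lt a e * pc τ x * w + lt a e * (x - pc τ x) * w := by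
        rw [mul_sub, sub_mul]; abel
      rw [e1]
      refine add_mem (hlin e (pc τ '' G) w (fun y hy => hcons e e' y (Or.inr hy) ?_ w ih) _ ?_)
        (hnull e _ _ _ ?_)
      · obtain ⟨y, -, rfl⟩ := hy
        intro _ n
        rw [pc_apply, tr_center]
      · exact Submodule.apply_mem_span_image_of_mem_span (pc τ : (ℕ →ᵇ A) →ₗ[ℂ] (ℕ →ᵇ A))
          (hspan x hx)
      · refine tendsto_nhds_unique (utr_n2 hT _) ?_
        have h1 := (hT x).norm
        rw [hxc hee, norm_zero] at h1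
        refine h1.congr fun n => ?_
        simp [pc_apply, τ.n2_smul]

theorem density_of_popaFree (τ : Tr A) (P : StarSubalgebra ℂ A) (h : PopaFree τ (P : Set A))
    (u₀ : A) (hu₀ : u₀ ∈ unitary A) (z : A) (K : ℝ) (hK : 1 ≤ K) (hz : ‖z‖ ≤ K)
    (hz2 : τ.n2 z = 1) (δ : ℝ) (hδ : 0 < δ) :
    ∃ u ∈ unitary A, τ.n2 (u - u₀) < δ ∧
      ∃ w ∈ StarAlgebra.adjoin ℂ ((P : Set A) ∪ {u}), w ∈ unitary A ∧
        cK K / 2 < (τ (w * star z)).re := by
  obtain ⟨T, hT⟩ := exists_utr τ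
  obtain ⟨u, hu, huδ, w, hw, hwz⟩ := main_estimate T _ (ext_free τ P h hT)
    (BoundedContinuousFunction.const ℕ u₀)
    (Unitary.mem_iff.2 ⟨BoundedContinuousFunction.ext fun _ => (Unitary.mem_iff.1 hu₀).1,
      BoundedContinuousFunction.ext fun _ => (Unitary.mem_iff.1 hu₀).2⟩)
    (BoundedContinuousFunction.const ℕ z) K hK
    ((BoundedContinuousFunction.norm_const_le z).trans hz)
    (tendsto_nhds_unique (utr_n2 hT _) (by simp [hz2]))
    (δ / 2) (half_pos hδ)
  have hc : 0 < cK K := by rw [cK]; positivity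
  have h1 := (utr_n2 hT (u - BoundedContinuousFunction.const ℕ u₀)).eventually
    (gt_mem_nhds (huδ.trans_lt (half_lt_self hδ)))
  have h2 := ((Complex.continuous_re.tendsto _).comp
    (hT (w * star (BoundedContinuousFunction.const ℕ z)))).eventually
      (lt_mem_nhds ((half_lt_self hc).trans_le hwz))
  obtain ⟨n, hn1, hn2⟩ := (h1.and h2).exists
  have h3 : w n ∈ StarAlgebra.adjoin ℂ ((P : Set A) ∪ {u n}) ∧ w n ∈ unitary A := by
    clear hwz h2 hn2
    induction hw using Submonoid.closure_induction with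
    | mem x hx =>
      rcases hx with hx | rfl
      · exact ⟨StarAlgebra.subset_adjoin ℂ _ (Or.inl (hx.1 n)), unitary_apply hx.2 n⟩
      · exact ⟨StarAlgebra.subset_adjoin ℂ _ (Or.inr rfl), unitary_apply hu n⟩
    | one => exact ⟨one_mem _, one_mem _⟩
    | mul x y _ _ hx hy => exact ⟨mul_mem hx.1 hy.1, mul_mem hx.2 hy.2⟩
  exact ⟨u n, unitary_apply hu n, hn1, w n, h3.1, h3.2, hn2⟩

end Crest.Agent.R095
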