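import Crest.Agent.R095.Avg
import Crest.Agent.R095.Popa
import Crest.Agent.R095.Ultra
import Crest.Agent.R095.Proj

/-! Row 95: the abstract main theorem. -/

set_option autoImplicit false

open Filter Topology
open scoped ComplexOrder InnerProductSpace ComplexConjugate

namespace Crest.Agent.R095

variable {A : Type*} [CStarAlgebra A]

theorem amt (τ : Tr A) (hτ : τ.IsTW) (P : StarSubalgebra ℂ A) (hP : IsClosed (P : Set A))
    (hirr : Irred (P : Set A)) (hinf : ¬ FiniteDimensional ℂ P)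
    (u₀ : A) (hu₀ : u₀ ∈ unitary A) (δ : ℝ) (hδ : 0 < δ) :
    ∃ u ∈ unitary A, τ.n2 (u - u₀) < δ ∧
      ∀ B : StarSubalgebra ℂ A, τ.WClosed (B : Set A) → P ≤ B → u ∈ B → B = ⊤ := by
  have hpopa : PopaFree τ (P : Set A) := popaFree_of_bmstep τ P hP
    (bmstep_of_av τ hτ.faithful P (av_of_irred τ hτ.faithful hτ.complete P hP hirr) hinf)
  have := hτ.sep
  have hD : ∀ K : ℕ, ∃ D : Set τ.L2, D ⊆ τ.toL2 '' {z : A | ‖z‖ ≤ (K : ℝ) + 1 ∧ τ.n2 z = 1} ∧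
      D.Countable ∧ τ.toL2 '' {z : A | ‖z‖ ≤ (K : ℝ) + 1 ∧ τ.n2 z = 1} ⊆ closure D := fun K =>
    (TopologicalSpace.IsSeparable.of_separableSpace _).exists_countable_dense_subset
  choose D hD1 hD2 hD3 using hD
  have : ∀ K, Countable (D K) := fun K => (hD2 K).to_subtype
  have hc : ∀ K : ℕ, 0 < cK ((K : ℝ) + 1) := fun K => by rw [cK]; positivity
  obtain ⟨u, hu, huδ, hO⟩ := unitary_baire τ hτ.faithful hτ.complete (ι := Σ K : ℕ, D K)
    (fun i => {u | ∃ q ∈ StarAlgebra.adjoin ℂ ((P : Set A) ∪ {u}), τ.n2 q < 2 ∧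
      cK ((i.1 : ℝ) + 1) / 2 < (τ (q * star (τ.toL2.symm i.2))).re}) (by
      rintro ⟨K, d, hd⟩ u hu ⟨q, hq, hq2, hqc⟩
      obtain ⟨z, ⟨hz1, hz2⟩, rfl⟩ := hD1 K hd
      simp only [LinearEquiv.symm_apply_apply] at hqc ⊢
      obtain ⟨C, hC0, hC⟩ := adjoin_lipschitz τ _ u hu q hq
      set g := min (2 - τ.n2 q) ((τ (q * star z)).re - cK ((K : ℝ) + 1) / 2) with hg
      have hg0 : 0 < g := lt_min (sub_pos.2 hq2) (sub_pos.2 hqc)
      refine ⟨g / (C + 1), by positivity, fun v hv hvu => ?_⟩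
      obtain ⟨q', hq', -, hqq⟩ := hC v hv
      rw [τ.n2_sub_comm] at hvu
      have h3 : C * τ.n2 (u - v) ≤ C * (g / (C + 1)) := mul_le_mul_of_nonneg_left hvu.le hC0
      have h4 : C * (g / (C + 1)) < g := by
        rw [mul_div_assoc', div_lt_iff₀ (by positivity)]; nlinarith
      have h5 : τ.n2 (q - q') < g := by linarith
      refine ⟨q', hq', ?_, ?_⟩
      · have h6 := τ.n2_sub_le q (q - q')
        rw [sub_sub_cancel] at h6
        linarith [min_le_left (2 - τ.n2 q) ((τ (q * star z)).re - cK ((K : ℝ) + 1) / 2)]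
      · have h6 := (Complex.re_le_norm _).trans (τ.norm_mul_le_n2 (q - q') (star z))
        rw [τ.n2_star, hz2, mul_one, sub_mul, τ.map_sub, Complex.sub_re] at h6
        linarith [min_le_right (2 - τ.n2 q) ((τ (q * star z)).re - cK ((K : ℝ) + 1) / 2)])
    (by
      rintro ⟨K, d, hd⟩ u hu δ hδ
      obtain ⟨z, ⟨hz1, hz2⟩, rfl⟩ := hD1 K hd
      obtain ⟨v, hv, hvu, w, hw, hwu, hwz⟩ := density_of_popaFree τ P hpopa u hu z ((K : ℝ) + 1)
        (by linarith [Nat.cast_nonneg (α := ℝ) K]) hz1 hz2 δ hδ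
      exact ⟨v, hv, hvu, w, hw, by rw [τ.n2_of_unitary hwu]; norm_num, hwz⟩)
    u₀ hu₀ δ hδ
  refine ⟨u, hu, huδ, fun B hB hPB huB => ?_⟩
  rw [eq_top_iff]
  intro y _
  obtain ⟨q₀, hq₀, horth⟩ := exists_orth_decomp τ hτ.faithful hτ.complete B hB y
  by_cases hz : y - q₀ = 0
  · rw [sub_eq_zero.1 hz]; exact hq₀
  exfalso
  have hn : 0 < τ.n2 (y - q₀) :=
    lt_of_le_of_ne (τ.n2_nonneg _) fun h => hz (hτ.faithful _ h.symm)
  set z : A := (τ.n2 (y - q₀))⁻¹ • (y - q₀) with hzdef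
  have hz2 : τ.n2 z = 1 := by
    rw [hzdef, τ.n2_real_smul, abs_of_pos (inv_pos.2 hn), inv_mul_cancel₀ hn.ne']
  obtain ⟨K, hK⟩ := exists_nat_ge ‖z‖
  have hzD : τ.toL2 z ∈ closure (D K) := hD3 K ⟨z, ⟨by linarith, hz2⟩, rfl⟩
  obtain ⟨d, hd, hdz⟩ := Metric.mem_closure_iff.1 hzD (cK ((K : ℝ) + 1) / 4) (by linarith [hc K])
  obtain ⟨q, hq, hq2, hqc⟩ := hO ⟨K, d, hd⟩
  have hqB : q ∈ B := StarAlgebra.adjoin_le (S := B) (by
    rintro x (hx | rfl)
    exacts [hPB hx, huB]) hq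
  have h1 : τ (q * star z) = 0 := by
    rw [hzdef, star_smul, mul_smul_comm, τ.map_real_smul, horth q hqB, mul_zero]
  have h2 : τ.n2 (τ.toL2.symm d - z) < cK ((K : ℝ) + 1) / 4 := by
    rw [τ.n2_sub_comm, ← τ.dist_toL2]; simpa using hdz
  have h3 := (Complex.re_le_norm _).trans (τ.norm_mul_le_n2 q (star (τ.toL2.symm d - z)))
  rw [τ.n2_star, star_sub, mul_sub, τ.map_sub, h1, sub_zero] at h3
  have h4 : τ.n2 q * τ.n2 (τ.toL2.symm d - z) ≤ 2 * (cK ((K : ℝ) + 1) / 4) :=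
    mul_le_mul hq2.le h2.le (τ.n2_nonneg _) (by norm_num)
  simp only at hqc
  linarith

end Crest.Agent.R095
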