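import Crest.Agent.R095.Basic

/-! Row 95: Dixmier-type averaging from irreducibility, and the Brownian increment. -/

set_option autoImplicit false

open Filter Topology
open scoped ComplexOrder InnerProductSpace ComplexConjugate

namespace Crest.Agent.R095

variable {A : Type*} [CStarAlgebra A]

lemma avg_n2_conj (τ : Tr A) {v : A} (hv : v ∈ unitary A) (x : A) :
    τ.n2 (v * x * star v) = τ.n2 x := by
  rw [τ.n2_mul_unitary (Unitary.star_mem hv), τ.n2_unitary_mul hv]

lemma avg_norm_conj {v : A} (hv : v ∈ unitary A) (x : A) : ‖v * x * star v‖ = ‖x‖ := by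
  rw [CStarRing.norm_mul_mem_unitary _ (Unitary.star_mem hv), CStarRing.norm_mem_unitary_mul _ hv]

lemma avg_conj_sub {v : A} (hv : v ∈ unitary A) (x : A) (c : ℂ) :
    v * (x - c • (1 : A)) * star v = v * x * star v - c • (1 : A) := by
  rw [mul_sub, sub_mul, mul_smul_comm, smul_mul_assoc, mul_one, Unitary.mul_star_self_of_mem hv]

/-- Averaging over unitaries does not increase the 2-distance to a scalar. -/
lemma avg_contract (τ : Tr A) {μ : Mean A} (hμ : μ.All (fun v => v ∈ unitary A)) (x : A) (c : ℂ) :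
    τ.n2 (μ.E (fun v => v * x * star v) - c • (1 : A)) ≤ τ.n2 (x - c • (1 : A)) := by
  have e : μ.E (fun v => v * x * star v) - c • (1 : A)
      = μ.E (fun v => v * (x - c • (1 : A)) * star v) := by
    rw [← μ.E_const (c • (1 : A)), ← Mean.E_sub, μ.E_const]
    exact Mean.E_congr (hμ.mono fun v hv => (avg_conj_sub hv x c).symm)
  rw [e]
  exact Mean.n2_E_le_of_all τ (hμ.mono fun v hv => (avg_n2_conj τ hv _).le)

lemma avg_tr (τ : Tr A) {μ : Mean A} (hμ : μ.All (fun v => v ∈ unitary A)) (x : A) :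
    τ (μ.E (fun v => v * x * star v)) = τ x := by
  rw [Mean.tr_E, ← μ.E_const (τ x)]
  exact Mean.E_congr (hμ.mono fun v hv => τ.conj_unitary hv x)

lemma avg_E_bind (μ ν : Mean A) (x : A) :
    (μ.bind fun v => ν.map fun w => v * w).E (fun v => v * x * star v)
      = μ.E (fun v => v * (ν.E fun w => w * x * star w) * star v) := by
  rw [Mean.E_bind]
  congr 1
  funext v
  rw [Mean.E_map, Mean.mul_E, Mean.E_mul]
  congr 1
  funext w
  simp only [star_mul, mul_assoc]

lemma avg_commute_of_unitary (P : StarSubalgebra ℂ A) (hP : IsClosed (P : Set A)) (y : A)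
    (h : ∀ v ∈ P, v ∈ unitary A → y * v = v * y) : ∀ p ∈ P, y * p = p * y := by
  intro p hp
  haveI := hP
  obtain ⟨u, c, hu, -⟩ := CStarAlgebra.exists_sum_four_unitary (A := P) ⟨p, hp⟩
  have e : p = ∑ i, c i • ((u i : P) : A) := by
    have := congrArg (fun z : P => (z : A)) hu
    simpa using this
  have hcomm : ∀ i, y * ((u i : P) : A) = ((u i : P) : A) * y := by
    intro i
    apply h _ (u i : P).2
    have h1 : star ((u i : P) : A) * ((u i : P) : A) = 1 :=
      congrArg (fun z : P => (z : A)) (Unitary.star_mul_self_of_mem (u i).2)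
    have h2 : ((u i : P) : A) * star ((u i : P) : A) = 1 :=
      congrArg (fun z : P => (z : A)) (Unitary.mul_star_self_of_mem (u i).2)
    exact Unitary.mem_iff.mpr ⟨h1, h2⟩
  rw [e, Finset.mul_sum, Finset.sum_mul]
  refine Finset.sum_congr rfl fun i _ => ?_
  rw [mul_smul_comm, smul_mul_assoc, hcomm]

lemma avg_single_zero (τ : Tr A) (hf : τ.Faithful) (hc : τ.Complete) (P : StarSubalgebra ℂ A)
    (hP : IsClosed (P : Set A)) (hirr : Irred (P : Set A)) (x : A) (hx : τ x = 0) (η : ℝ)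
    (hη : 0 < η) : ∃ μ : Mean A, μ.All (fun v => v ∈ P ∧ v ∈ unitary A) ∧
      τ.n2 (μ.E (fun v => v * x * star v)) ≤ η := by
  let S : Set A := {y | ∃ μ : Mean A, μ.All (fun v => v ∈ P ∧ v ∈ unitary A) ∧
    μ.E (fun v => v * x * star v) = y}
  have hSne : (τ.n2 '' S).Nonempty :=
    ⟨_, _, ⟨Mean.pt 1, ⟨one_mem P, one_mem _⟩, rfl⟩, rfl⟩
  have hSbdd : BddBelow (τ.n2 '' S) := ⟨0, by rintro _ ⟨y, -, rfl⟩; exact τ.n2_nonneg y⟩
  set d := sInf (τ.n2 '' S) with hd
  have hd0 : 0 ≤ d := le_csInf hSne (by rintro _ ⟨y, -, rfl⟩; exact τ.n2_nonneg y)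
  have hdle : ∀ y ∈ S, d ≤ τ.n2 y := fun y hy => csInf_le hSbdd ⟨y, hy, rfl⟩
  have hmid : ∀ a ∈ S, ∀ b ∈ S, (2⁻¹ : ℝ) • (a + b) ∈ S := by
    rintro _ ⟨μ, hμ, rfl⟩ _ ⟨ν, hν, rfl⟩
    exact ⟨Mean.mid μ ν, ⟨hμ, hν⟩, rfl⟩
  have hconj : ∀ a ∈ S, ∀ v ∈ P, v ∈ unitary A → v * a * star v ∈ S := by
    rintro _ ⟨μ, hμ, rfl⟩ v hv hvu
    refine ⟨(Mean.pt v).bind fun v => μ.map fun w => v * w, ?_, ?_⟩
    · rw [Mean.all_bind, Mean.all_pt, Mean.all_map]
      exact hμ.mono fun w hw => ⟨mul_mem hv hw.1, mul_mem hvu hw.2⟩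
    · rw [avg_E_bind, Mean.E_pt]
  have hnorm : ∀ a ∈ S, ‖a‖ ≤ ‖x‖ := by
    rintro _ ⟨μ, hμ, rfl⟩
    exact Mean.norm_E_le_of_all (hμ.mono fun v hv => (avg_norm_conj hv.2 x).le)
  have htr : ∀ a ∈ S, τ a = 0 := by
    rintro _ ⟨μ, hμ, rfl⟩
    rw [avg_tr τ (hμ.mono fun v hv => hv.2), hx]
  let g : ℝ → ℝ := fun δ => √(8 * d * δ + 4 * δ ^ 2)
  have hpar : ∀ δ : ℝ, 0 ≤ δ → ∀ a ∈ S, ∀ b ∈ S, τ.n2 a ≤ d + δ → τ.n2 b ≤ d + δ →
      τ.n2 (a - b) ≤ g δ := by
    intro δ hδ a ha b hb h1 h2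
    have h3 := hdle _ (hmid a ha b hb)
    rw [τ.n2_real_smul, abs_of_pos (by norm_num)] at h3
    have h4 := parallelogram_law_with_norm ℂ (τ.toL2 a) (τ.toL2 b)
    rw [← map_add, ← map_sub, ← τ.n2_def, ← τ.n2_def, ← τ.n2_def, ← τ.n2_def] at h4
    apply Real.le_sqrt_of_sq_le
    have h5 := pow_le_pow_left₀ (τ.n2_nonneg a) h1 2
    have h6 := pow_le_pow_left₀ (τ.n2_nonneg b) h2 2
    have h7 : (2 * d) ^ 2 ≤ τ.n2 (a + b) ^ 2 := pow_le_pow_left₀ (by positivity) (by linarith) 2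
    nlinarith
  have hex : ∀ n : ℕ, ∃ y ∈ S, τ.n2 y ≤ d + 1 / ((n : ℝ) + 1) := by
    intro n
    obtain ⟨_, ⟨y, hy, rfl⟩, h⟩ := exists_lt_of_csInf_lt hSne
      (show d < d + 1 / ((n : ℝ) + 1) from lt_add_of_pos_right _ (by positivity))
    exact ⟨y, hy, h.le⟩
  choose y hyS hy using hex
  have hg : Tendsto (fun n : ℕ => g (1 / ((n : ℝ) + 1))) atTop (𝓝 0) := by
    have hgc : Continuous g := by fun_prop
    have := (hgc.tendsto 0).comp tendsto_one_div_add_atTop_nhds_zero_nat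
    simpa [g, Function.comp_def] using this
  have hcau : CauchySeq (fun n => τ.toL2 (y n)) := by
    refine cauchySeq_of_le_tendsto_0 _ (fun n m N hn hm => ?_) hg
    rw [τ.dist_toL2]
    have hmono : ∀ k, N ≤ k → 1 / ((k : ℝ) + 1) ≤ 1 / ((N : ℝ) + 1) := fun k hk =>
      Nat.one_div_le_one_div hk
    exact hpar _ (by positivity) _ (hyS n) _ (hyS m) ((hy n).trans (by linarith [hmono n hn]))
      ((hy m).trans (by linarith [hmono m hm]))
  obtain ⟨z, -, hz⟩ := hc y ‖x‖ (fun n => hnorm _ (hyS n)) hcau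
  have hcomm : ∀ v ∈ P, v ∈ unitary A → z * v = v * z := by
    intro v hv hvu
    have h0 : τ.n2 (v * z * star v - z) = 0 := by
      refine le_antisymm ?_ (τ.n2_nonneg _)
      have hlim : Tendsto (fun n : ℕ => τ.n2 (y n - z) + g (1 / ((n : ℝ) + 1)) + τ.n2 (y n - z))
          atTop (𝓝 (0 + 0 + 0)) := (hz.add hg).add hz
      rw [add_zero, add_zero] at hlim
      refine ge_of_tendsto' hlim fun n => ?_
      have a1 := τ.n2_triangle (v * z * star v) (v * y n * star v) z
      have a2 := τ.n2_triangle (v * y n * star v) (y n) z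
      have a3 : τ.n2 (v * z * star v - v * y n * star v) = τ.n2 (y n - z) := by
        rw [← sub_mul, ← mul_sub, avg_n2_conj τ hvu, τ.n2_sub_comm]
      have a4 := hpar (1 / ((n : ℝ) + 1)) (by positivity) _ (hconj _ (hyS n) v hv hvu) _ (hyS n)
        (by rw [avg_n2_conj τ hvu]; exact hy n) (hy n)
      linarith
    have h1 : v * z * star v = z := sub_eq_zero.mp (hf _ h0)
    calc z * v = v * z * star v * v := by rw [h1]
      _ = v * z := by rw [mul_assoc, Unitary.star_mul_self_of_mem hvu, mul_one]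
  obtain ⟨c, hcz⟩ := hirr z (avg_commute_of_unitary P hP z hcomm)
  have hτz : τ z = 0 := by
    have h1 : ‖τ z‖ ≤ 0 := by
      refine ge_of_tendsto' hz fun n => ?_
      have := τ.norm_le_n2 (y n - z)
      rwa [τ.map_sub, htr _ (hyS n), zero_sub, norm_neg] at this
    exact norm_le_zero_iff.mp h1
  have hz0 : z = 0 := by
    rw [hcz, τ.map_smul, τ.map_one, mul_one] at hτz
    rw [hcz, hτz, zero_smul]
  rw [hz0] at hz
  simp only [sub_zero] at hz
  obtain ⟨n, hn⟩ := (hz.eventually (ge_mem_nhds hη)).exists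
  obtain ⟨μ, hμ, e⟩ := hyS n
  exact ⟨μ, hμ, by rw [e]; exact hn⟩

lemma avg_single (τ : Tr A) (hf : τ.Faithful) (hc : τ.Complete) (P : StarSubalgebra ℂ A)
    (hP : IsClosed (P : Set A)) (hirr : Irred (P : Set A)) (x : A) (η : ℝ)
    (hη : 0 < η) : ∃ μ : Mean A, μ.All (fun v => v ∈ P ∧ v ∈ unitary A) ∧
      τ.n2 (μ.E (fun v => v * x * star v) - τ x • (1 : A)) ≤ η := by
  obtain ⟨μ, hμ, h⟩ := avg_single_zero τ hf hc P hP hirr (x - τ x • (1 : A)) (by simp) η hη
  refine ⟨μ, hμ, ?_⟩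
  have e : μ.E (fun v => v * x * star v) - τ x • (1 : A)
      = μ.E (fun v => v * (x - τ x • (1 : A)) * star v) := by
    rw [← μ.E_const (τ x • (1 : A)), ← Mean.E_sub, μ.E_const]
    exact Mean.E_congr (hμ.mono fun v hv => (avg_conj_sub hv.2 x _).symm)
  rw [e]
  exact h

/-- Averaging over the unitaries of a closed irreducible ⋆-subalgebra. -/
theorem av_of_irred (τ : Tr A) (hf : τ.Faithful) (hc : τ.Complete) (P : StarSubalgebra ℂ A)
    (hP : IsClosed (P : Set A)) (hirr : Irred (P : Set A)) : AV τ (P : Set A) := by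
  classical
  intro F η hη
  induction F using Finset.induction_on with
  | empty => exact ⟨Mean.pt 1, ⟨one_mem P, one_mem _⟩, by simp⟩
  | insert x F _ ih =>
    obtain ⟨ν, hν, h1⟩ := ih
    obtain ⟨μ, hμ, h2⟩ := avg_single τ hf hc P hP hirr (ν.E fun w => w * x * star w) η hη
    rw [avg_tr τ (hν.mono fun v hv => hv.2)] at h2
    refine ⟨μ.bind fun v => ν.map fun w => v * w, ?_, ?_⟩
    · rw [Mean.all_bind]
      refine hμ.mono fun v hv => ?_
      rw [Mean.all_map]
      exact hν.mono fun w hw => ⟨mul_mem hv.1 hw.1, mul_mem hv.2 hw.2⟩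
    · intro z hz
      rw [avg_E_bind]
      rcases Finset.mem_insert.mp hz with rfl | hz
      · exact h2
      · exact (avg_contract τ (hμ.mono fun v hv => hv.2) _ _).trans (h1 z hz)

lemma avg_n2_sandwich (τ : Tr A) (c d a : A) : τ.n2 (c * a * d) ≤ ‖c‖ * ‖d‖ * τ.n2 a := by
  calc τ.n2 (c * a * d) ≤ τ.n2 (c * a) * ‖d‖ := τ.n2_mul_le' _ _
    _ ≤ ‖c‖ * τ.n2 a * ‖d‖ := mul_le_mul_of_nonneg_right (τ.n2_mul_le _ _) (norm_nonneg _)
    _ = _ := by ring

lemma avg_sandwich_sub (c d a : A) (t : ℂ) :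
    c * a * d - t • (c * d) = c * (a - t • (1 : A)) * d := by
  rw [mul_sub, sub_mul, mul_smul_comm, smul_mul_assoc, mul_one]

/-- Consequence of averaging used for corners. -/
theorem AV.sandwich {τ : Tr A} {P : Set A} (hav : AV τ P) (hf : τ.Faithful)
    (c₁ d₁ c₂ d₂ x₁ x₂ : A)
    (h : ∀ v ∈ P, v ∈ unitary A → c₁ * (v * x₁ * star v) * d₁ = c₂ * (v * x₂ * star v) * d₂) :
    τ x₁ • (c₁ * d₁) = τ x₂ • (c₂ * d₂) := by
  classical
  rw [← sub_eq_zero]
  apply hf
  refine le_antisymm ?_ (τ.n2_nonneg _)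
  set K := ‖c₁‖ * ‖d₁‖ + ‖c₂‖ * ‖d₂‖ with hK
  have hK0 : 0 ≤ K := by positivity
  refine le_of_forall_pos_le_add fun ε hε => ?_
  obtain ⟨μ, hμ, h1⟩ := hav {x₁, x₂} (ε / (K + 1)) (by positivity)
  have a1 := h1 x₁ (by simp)
  have a2 := h1 x₂ (by simp)
  set E₁ := μ.E (fun v => v * x₁ * star v) with hE1
  set E₂ := μ.E (fun v => v * x₂ * star v) with hE2
  have e : c₁ * E₁ * d₁ = c₂ * E₂ * d₂ := by
    rw [hE1, hE2, Mean.mul_E, Mean.E_mul, Mean.mul_E, Mean.E_mul]
    exact Mean.E_congr (hμ.mono fun v hv => h v hv.1 hv.2)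
  have b1 := avg_n2_sandwich τ c₁ d₁ (E₁ - τ x₁ • (1 : A))
  have b2 := avg_n2_sandwich τ c₂ d₂ (E₂ - τ x₂ • (1 : A))
  rw [← avg_sandwich_sub] at b1 b2
  have b3 := τ.n2_triangle (τ x₁ • (c₁ * d₁)) (c₁ * E₁ * d₁) (τ x₂ • (c₂ * d₂))
  rw [τ.n2_sub_comm (τ x₁ • (c₁ * d₁)) (c₁ * E₁ * d₁)] at b3
  nth_rewrite 2 [e] at b3
  have b4 : ‖c₁‖ * ‖d₁‖ * τ.n2 (E₁ - τ x₁ • (1 : A)) ≤ ‖c₁‖ * ‖d₁‖ * (ε / (K + 1)) :=
    mul_le_mul_of_nonneg_left a1 (by positivity)
  have b5 : ‖c₂‖ * ‖d₂‖ * τ.n2 (E₂ - τ x₂ • (1 : A)) ≤ ‖c₂‖ * ‖d₂‖ * (ε / (K + 1)) :=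
    mul_le_mul_of_nonneg_left a2 (by positivity)
  have b6 : K * (ε / (K + 1)) ≤ ε := by
    rw [mul_div_assoc', div_le_iff₀ (by positivity)]
    nlinarith
  have b7 : K * (ε / (K + 1)) = ‖c₁‖ * ‖d₁‖ * (ε / (K + 1)) + ‖c₂‖ * ‖d₂‖ * (ε / (K + 1)) := by
    rw [hK]; ring
  linarith

/-- Consequence of averaging used for fullness of a corner. -/
theorem AV.mem_of_wclosed {τ : Tr A} {P : Set A} (hav : AV τ P) (B : StarSubalgebra ℂ A)
    (hB : τ.WClosed (B : Set A)) (c d x : A)
    (h : ∀ v ∈ P, v ∈ unitary A → c * (v * x * star v) * d ∈ B) : τ x • (c * d) ∈ B := by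
  have hex : ∀ n : ℕ, ∃ μ : Mean A, μ.All (fun v => v ∈ P ∧ v ∈ unitary A) ∧
      τ.n2 (μ.E (fun v => v * x * star v) - τ x • (1 : A)) ≤ 1 / ((n : ℝ) + 1) := by
    intro n
    obtain ⟨μ, hμ, h1⟩ := hav {x} (1 / ((n : ℝ) + 1)) (by positivity)
    exact ⟨μ, hμ, h1 x (by simp)⟩
  choose μ hμ h1 using hex
  refine hB (fun n => c * (μ n).E (fun v => v * x * star v) * d) (‖c‖ * ‖x‖ * ‖d‖) _ ?_ ?_ ?_
  · intro n
    show c * (μ n).E (fun v => v * x * star v) * d ∈ B
    rw [Mean.mul_E, Mean.E_mul]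
    exact Mean.E_mem_subalgebra B ((hμ n).mono fun v hv => h v hv.1 hv.2)
  · intro n
    have : ‖(μ n).E (fun v => v * x * star v)‖ ≤ ‖x‖ :=
      Mean.norm_E_le_of_all ((hμ n).mono fun v hv => (avg_norm_conj hv.2 x).le)
    calc _ ≤ ‖c * (μ n).E (fun v => v * x * star v)‖ * ‖d‖ := norm_mul_le _ _
      _ ≤ ‖c‖ * ‖(μ n).E (fun v => v * x * star v)‖ * ‖d‖ :=
          mul_le_mul_of_nonneg_right (norm_mul_le _ _) (norm_nonneg _)
      _ ≤ _ := by gcongr
  · have hlim : Tendsto (fun n : ℕ => ‖c‖ * ‖d‖ * (1 / ((n : ℝ) + 1))) atTop (𝓝 0) := by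
      have := (tendsto_one_div_add_atTop_nhds_zero_nat (𝕜 := ℝ)).const_mul (‖c‖ * ‖d‖)
      simpa using this
    refine squeeze_zero (fun n => τ.n2_nonneg _) (fun n => ?_) hlim
    rw [avg_sandwich_sub]
    exact (avg_n2_sandwich τ c d _).trans (mul_le_mul_of_nonneg_left (h1 n) (by positivity))

/-- Symmetric averaging. -/
lemma avg_symm (τ : Tr A) (P : StarSubalgebra ℂ A) (hav : AV τ (P : Set A)) (F : Finset A) (η : ℝ)
    (hη : 0 < η) : ∃ μ : Mean A, μ.All (fun v => v ∈ P ∧ v ∈ unitary A) ∧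
      (∀ x ∈ F, τ.n2 (μ.E (fun v => v * x * star v) - τ x • (1 : A)) ≤ η) ∧
      ∀ x ∈ F, τ.n2 (μ.E (fun v => star v * x * v) - τ x • (1 : A)) ≤ η := by
  obtain ⟨ν, hν, h⟩ := hav F η hη
  have hs : (ν.map star).All (fun v => v ∈ P ∧ v ∈ unitary A) := by
    rw [Mean.all_map]
    exact hν.mono fun v hv => ⟨star_mem hv.1, Unitary.star_mem hv.2⟩
  refine ⟨(ν.map star).bind fun v => ν.map fun w => v * w, ?_, ?_, ?_⟩
  · rw [Mean.all_bind]
    refine hs.mono fun v hv => ?_
    rw [Mean.all_map]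
    exact hν.mono fun w hw => ⟨mul_mem hv.1 hw.1, mul_mem hv.2 hw.2⟩
  · intro x hx
    rw [avg_E_bind]
    exact (avg_contract τ (hs.mono fun v hv => hv.2) _ _).trans (h x hx)
  · intro x hx
    have e : ((ν.map star).bind fun v => ν.map fun w => v * w).E (fun v => star v * x * v)
        = (ν.map star).E (fun w => w * (ν.E fun v => v * x * star v) * star w) := by
      rw [Mean.E_bind, Mean.E_map, Mean.E_map]
      simp only [Mean.E_map]
      rw [Mean.E_comm]
      congr 1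
      funext w
      rw [Mean.mul_E, Mean.E_mul]
      congr 1
      funext v
      simp only [star_mul, star_star, mul_assoc]
    rw [e]
    exact (avg_contract τ (hs.mono fun v hv => hv.2) _ _).trans (h x hx)

/-- Orthonormal families in an infinite-dimensional subalgebra. -/
lemma avg_orthonormal (τ : Tr A) (hf : τ.Faithful) (P : StarSubalgebra ℂ A)
    (hinf : ¬ FiniteDimensional ℂ P) (N : ℕ) : ∃ c : ℕ → A, (∀ k, c k ∈ P) ∧
      ∀ j < N, ∀ k < N, τ (star (c j) * c k) = if j = k then 1 else 0 := by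
  induction N with
  | zero => exact ⟨fun _ => 0, fun _ => zero_mem P, by simp⟩
  | succ N ih =>
    obtain ⟨c, hc, h⟩ := ih
    let T : P →ₗ[ℂ] (Fin N → ℂ) :=
      { toFun := fun p j => τ (star (c j) * (p : A))
        map_add' := by
          intro p q; funext j
          simp [mul_add]
        map_smul' := by
          intro a p; funext j
          simp }
    have hT : ¬ Function.Injective T := fun hT => hinf (FiniteDimensional.of_injective T hT)
    rw [injective_iff_map_eq_zero] at hT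
    push Not at hT
    obtain ⟨p, hp, hp0⟩ := hT
    have hn : τ.n2 (p : A) ≠ 0 := fun h0 => hp0 (Subtype.ext (hf _ h0))
    let q : A := ((τ.n2 (p : A) : ℂ))⁻¹ • (p : A)
    have hq : ∀ j < N, τ (star (c j) * q) = 0 := by
      intro j hj
      have := congrFun hp ⟨j, hj⟩
      have h2 : τ (star (c j) * (p : A)) = 0 := this
      simp only [q, mul_smul_comm, τ.map_smul, h2, mul_zero]
    have hq' : ∀ j < N, τ (star q * c j) = 0 := by
      intro j hj
      have := τ.map_star (star (c j) * q)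
      rw [star_mul, star_star, hq j hj] at this
      simpa using this
    have hqq : τ (star q * q) = 1 := by
      rw [← τ.n2_sq_complex, τ.n2_smul, norm_inv, Complex.norm_real, Real.norm_eq_abs,
        abs_of_nonneg (τ.n2_nonneg _), inv_mul_cancel₀ hn]
      simp
    refine ⟨fun k => if k = N then q else c k, fun k => ?_, fun j hj k hk => ?_⟩
    · by_cases hk : k = N
      · simp only [hk, if_true]; exact P.smul_mem p.2 _
      · simp only [hk, if_false]; exact hc k
    · by_cases hjN : j = N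
      · by_cases hkN : k = N
        · simp [hjN, hkN, hqq]
        · have : k < N := by omega
          simp [hjN, hkN, hq' k this, Ne.symm hkN]
      · have hj' : j < N := by omega
        by_cases hkN : k = N
        · simp [hjN, hkN, hq j hj']
        · have : k < N := by omega
          simp [hjN, hkN, h j hj' k this]

/-- The uniform average over `[k, k + 2 ^ r)`. -/
def avgTree : ℕ → ℕ → Mean ℕ
  | 0, k => Mean.pt k
  | r + 1, k => Mean.mid (avgTree r k) (avgTree r (k + 2 ^ r))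

lemma avgTree_all (r k : ℕ) : (avgTree r k).All fun j => j < k + 2 ^ r := by
  induction r generalizing k with
  | zero => simp [avgTree]
  | succ r ih =>
    refine ⟨(ih k).mono fun j hj => ?_, (ih (k + 2 ^ r)).mono fun j hj => ?_⟩
    · rw [pow_succ]; omega
    · rw [pow_succ]; omega

lemma avgTree_E (r k : ℕ) (f : ℕ → ℝ) :
    (avgTree r k).E f = (2 ^ r : ℝ)⁻¹ * ∑ j ∈ Finset.range (2 ^ r), f (k + j) := by
  induction r generalizing k with
  | zero => simp [avgTree]
  | succ r ih =>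
    rw [avgTree, Mean.E_mid, ih, ih, show (2 : ℕ) ^ (r + 1) = 2 ^ r + 2 ^ r by ring,
      Finset.sum_range_add]
    simp only [smul_eq_mul, add_assoc]
    rw [pow_succ]
    field_simp

/-- The two self-adjoint parts of `g`, suitably normalised. -/
noncomputable def avgParts (g : A) : Mean A :=
  Mean.mid (Mean.pt (((√2 : ℝ)⁻¹ : ℝ) • (g + star g)))
    (Mean.pt (((√2 : ℝ)⁻¹ : ℝ) • (Complex.I • (g - star g))))

lemma avg_sqrt2 : ((√2 : ℝ)⁻¹) * ((√2 : ℝ)⁻¹) = 2⁻¹ := by
  rw [← mul_inv, Real.mul_self_sqrt (by norm_num)]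

lemma avgParts_all (P : StarSubalgebra ℂ A) {g : A} (hg : g ∈ P) {C : ℝ} (hC : ‖g‖ ≤ C) :
    (avgParts g).All (fun s => s ∈ (P : Set A) ∧ IsSelfAdjoint s ∧ ‖s‖ ≤ 2 * C) := by
  have h1 : |((√2 : ℝ)⁻¹)| ≤ 1 := by
    rw [abs_of_nonneg (by positivity)]
    exact inv_le_one_of_one_le₀ (Real.one_le_sqrt.mpr (by norm_num))
  have hC0 : 0 ≤ C := (norm_nonneg _).trans hC
  refine ⟨⟨?_, ?_, ?_⟩, ⟨?_, ?_, ?_⟩⟩
  · rw [← Complex.coe_smul]
    exact P.smul_mem (add_mem hg (star_mem hg)) _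
  · show star _ = _
    simp [add_comm]
  · rw [norm_smul, Real.norm_eq_abs]
    have := norm_add_le g (star g)
    rw [norm_star] at this
    calc _ ≤ 1 * (2 * C) := mul_le_mul h1 (by linarith) (norm_nonneg _) zero_le_one
      _ = _ := one_mul _
  · rw [← Complex.coe_smul]
    exact P.smul_mem (P.smul_mem (sub_mem hg (star_mem hg)) _) _
  · show star _ = _
    rw [star_smul, star_smul, star_sub, star_star]
    simp only [RCLike.star_def, Complex.conj_I, neg_smul, ← smul_neg, neg_sub, conj_trivial]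
  · rw [norm_smul, norm_smul, Real.norm_eq_abs, Complex.norm_I, one_mul]
    have := norm_sub_le g (star g)
    rw [norm_star] at this
    calc _ ≤ 1 * (2 * C) := mul_le_mul h1 (by linarith) (norm_nonneg _) zero_le_one
      _ = _ := one_mul _

lemma avgParts_cov (g x : A) : (avgParts g).E (fun s => s * x * s)
    = (2⁻¹ : ℝ) • (g * x * star g + star g * x * g) := by
  rw [avgParts, Mean.E_mid, Mean.E_pt, Mean.E_pt]
  congr 1
  simp only [smul_mul_assoc, mul_smul_comm, smul_smul, avg_sqrt2]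
  rw [smul_comm (Complex.I) ((√2 : ℝ)⁻¹), smul_smul, smul_smul, avg_sqrt2, Complex.I_mul_I,
    neg_one_smul, ← smul_add]
  have : (g + star g) * x * (g + star g) + -((g - star g) * x * (g - star g))
      = (2 : ℝ) • (g * x * star g + star g * x * g) := by
    rw [two_smul]; noncomm_ring
  rw [this, smul_smul]
  norm_num

lemma avgParts_corr (τ : Tr A) (g x : A) : (avgParts g).E (fun s => ‖τ (x * s)‖ ^ 2)
    = 2⁻¹ * (‖τ (x * g)‖ ^ 2 + ‖τ (x * star g)‖ ^ 2) := by
  rw [avgParts, Mean.E_mid, Mean.E_pt, Mean.E_pt, smul_eq_mul]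
  congr 1
  simp only [mul_smul_comm, τ.map_real_smul, τ.map_smul,
    norm_mul, Complex.norm_I, one_mul, mul_pow, Complex.norm_real, Real.norm_eq_abs, sq_abs]
  simp only [mul_add, mul_sub, τ.map_add, τ.map_sub]
  have h := parallelogram_law_with_norm ℂ (τ (x * g)) (τ (x * star g))
  have h2 : ((√2 : ℝ)⁻¹) ^ 2 = 2⁻¹ := by rw [sq, avg_sqrt2]
  rw [h2]
  linarith

theorem bmstep_of_av (τ : Tr A) (hf : τ.Faithful) (P : StarSubalgebra ℂ A)
    (hav : AV τ (P : Set A)) (hinf : ¬ FiniteDimensional ℂ P) : BMstep τ (P : Set A) := by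
  classical
  intro ε hε
  obtain ⟨r, hr⟩ : ∃ r : ℕ, (2 ^ r : ℝ)⁻¹ ≤ ε := by
    obtain ⟨r, hr⟩ := exists_pow_lt_of_lt_one hε (show (2⁻¹ : ℝ) < 1 by norm_num)
    exact ⟨r, by rw [← inv_pow]; exact hr.le⟩
  obtain ⟨c, hcP, hc⟩ := avg_orthonormal τ hf P hinf (2 ^ r)
  set C : ℝ := ∑ k ∈ Finset.range (2 ^ r), ‖c k‖ with hC
  have hC0 : 0 ≤ C := Finset.sum_nonneg fun _ _ => norm_nonneg _
  have hCk : ∀ k < 2 ^ r, ‖c k‖ ≤ C := fun k hk =>
    Finset.single_le_sum (f := fun k => ‖c k‖) (fun _ _ => norm_nonneg _) (Finset.mem_range.mpr hk)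
  have hbessel : ∀ y : A, ∑ k ∈ Finset.range (2 ^ r), ‖τ (star (c k) * y)‖ ^ 2 ≤ ‖y‖ ^ 2 := by
    intro y
    have ho : Orthonormal ℂ (fun k : Fin (2 ^ r) => τ.toL2 (c k)) := by
      rw [orthonormal_iff_ite]
      intro j k
      rw [τ.inner_toL2, hc j j.2 k k.2]
      simp [Fin.ext_iff]
    have := ho.sum_inner_products_le (τ.toL2 y) (s := Finset.univ)
    simp only [τ.inner_toL2] at this
    rw [Finset.sum_range (fun k => ‖τ (star (c k) * y)‖ ^ 2)]
    exact this.trans (pow_le_pow_left₀ (τ.n2_nonneg y) (τ.n2_le_norm y) 2)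
  refine ⟨2 * C, fun F η hη => ?_⟩
  set R : ℝ := ∑ x ∈ F, ‖x‖ with hR
  have hR0 : 0 ≤ R := Finset.sum_nonneg fun _ _ => norm_nonneg _
  have hRx : ∀ x ∈ F, ‖x‖ ≤ R := fun x hx =>
    Finset.single_le_sum (f := fun x : A => ‖x‖) (fun _ _ => norm_nonneg _) hx
  set η' : ℝ := η / (C * C + R + 1) with hη'
  have hη'0 : 0 < η' := by positivity
  have hη'1 : (C * C + R) * η' ≤ η := by
    rw [hη', mul_div_assoc', div_le_iff₀ (by positivity)]
    nlinarith
  obtain ⟨ν, hν, h1, h2⟩ := avg_symm τ P hav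
    (F ∪ (Finset.range (2 ^ r)).image (fun k => c k * star (c k))
      ∪ (Finset.range (2 ^ r)).image (fun k => star (c k) * c k)) η' hη'0
  have hunorm : ∀ v : A, v ∈ unitary A → ∀ w : A, w ∈ unitary A → ∀ y : A, ‖v * y * w‖ = ‖y‖ := by
    intro v hv w hw y
    rw [CStarRing.norm_mul_mem_unitary _ hw, CStarRing.norm_mem_unitary_mul _ hv]
  refine ⟨(avgTree r 0).bind fun k => ν.bind fun v => ν.bind fun w => avgParts (v * c k * w),
    ?_, ?_, ?_⟩
  · rw [Mean.all_bind]
    refine (avgTree_all r 0).mono fun k hk => ?_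
    rw [Mean.all_bind]
    refine hν.mono fun v hv => ?_
    rw [Mean.all_bind]
    refine hν.mono fun w hw => ?_
    apply avgParts_all P (mul_mem (mul_mem hv.1 (hcP k)) hw.1)
    rw [hunorm v hv.2 w hw.2]
    exact hCk k (by simpa using hk)
  · intro x
    simp only [Mean.E_bind, avgParts_corr]
    rw [Mean.E_comm]
    refine Mean.E_le (hν.mono fun v hv => ?_)
    rw [Mean.E_comm]
    refine Mean.E_le (hν.mono fun w hw => ?_)
    rw [avgTree_E]
    have b1 := hbessel (star (w * x * v))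
    have b2 := hbessel (star v * x * star w)
    rw [norm_star, hunorm w hw.2 v hv.2] at b1
    rw [hunorm _ (Unitary.star_mem hv.2) _ (Unitary.star_mem hw.2)] at b2
    have e1 : ∀ k, ‖τ (x * (v * c k * w))‖ = ‖τ (star (c k) * star (w * x * v))‖ := by
      intro k
      rw [← star_mul, τ.map_star, RCLike.norm_conj, ← mul_assoc, τ.comm]
      simp only [mul_assoc]
    have e2 : ∀ k, ‖τ (x * star (v * c k * w))‖ = ‖τ (star (c k) * (star v * x * star w))‖ := by
      intro k
      have : x * star (v * c k * w) = (x * star w) * (star (c k) * star v) := by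
        simp only [star_mul, mul_assoc]
      rw [this, τ.comm]
      simp only [mul_assoc]
    simp only [zero_add, e1, e2]
    rw [← Finset.mul_sum, Finset.sum_add_distrib]
    calc _ ≤ (2 ^ r : ℝ)⁻¹ * ‖x‖ ^ 2 := by
          apply mul_le_mul_of_nonneg_left _ (by positivity)
          linarith
      _ ≤ ε * ‖x‖ ^ 2 := mul_le_mul_of_nonneg_right hr (by positivity)
  · intro x hx
    rw [Mean.E_bind, ← (avgTree r 0).E_const (τ x • (1 : A)), ← Mean.E_sub]
    refine Mean.n2_E_le_of_all τ ((avgTree_all r 0).mono fun k hk => ?_)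
    have hk' : k < 2 ^ r := by simpa using hk
    have hckk : τ (star (c k) * c k) = 1 := by rw [hc k hk' k hk']; simp
    have hτx : ‖τ x‖ ≤ R := (τ.norm_le x).trans (hRx x hx)
    have hxF := h1 x (by simp [hx])
    have hxF' := h2 x (by simp [hx])
    have hc1 := h1 (c k * star (c k)) (by
      simp only [Finset.mem_union, Finset.mem_image, Finset.mem_range]
      exact Or.inl (Or.inr ⟨k, hk', rfl⟩))
    have hc2 := h2 (star (c k) * c k) (by
      simp only [Finset.mem_union, Finset.mem_image, Finset.mem_range]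
      exact Or.inr ⟨k, hk', rfl⟩)
    rw [τ.comm, hckk, one_smul] at hc1
    rw [hckk, one_smul] at hc2
    have hcc : ‖c k‖ * ‖c k‖ ≤ C * C :=
      mul_le_mul (hCk k hk') (hCk k hk') (norm_nonneg _) hC0
    simp only [Mean.E_bind, avgParts_cov, Mean.E_smul, Mean.E_add]
    -- first term
    have t1 : τ.n2 (ν.E (fun v => ν.E fun w => v * c k * w * x * star (v * c k * w))
        - τ x • (1 : A)) ≤ η := by
      have e : ν.E (fun v => ν.E fun w => v * c k * w * x * star (v * c k * w)) - τ x • (1 : A)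
          = ν.E (fun v => v * (c k * (ν.E (fun w => w * x * star w) - τ x • (1 : A))
              * star (c k)) * star v)
            + τ x • (ν.E (fun v => v * (c k * star (c k)) * star v) - 1) := by
        rw [smul_sub, ← add_sub_assoc]
        congr 1
        rw [ν.map_E' (fun a : A => τ x • a) (smul_add _) (fun a b => smul_comm _ a b),
          ← Mean.E_add]
        congr 1
        funext v
        rw [← avg_sandwich_sub, mul_sub, sub_mul, mul_smul_comm, smul_mul_assoc, sub_add_cancel,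
          Mean.mul_E, Mean.E_mul, Mean.mul_E, Mean.E_mul]
        congr 1
        funext w
        simp only [star_mul, mul_assoc]
      rw [e]
      refine (τ.n2_add_le _ _).trans ?_
      have a1 : τ.n2 (ν.E (fun v => v * (c k * (ν.E (fun w => w * x * star w) - τ x • (1 : A))
              * star (c k)) * star v)) ≤ C * C * η' := by
        refine Mean.n2_E_le_of_all τ (hν.mono fun v hv => ?_)
        rw [avg_n2_conj τ hv.2]
        refine (avg_n2_sandwich τ _ _ _).trans ?_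
        rw [norm_star]
        exact mul_le_mul hcc hxF (τ.n2_nonneg _) (by positivity)
      have a2 : τ.n2 (τ x • (ν.E (fun v => v * (c k * star (c k)) * star v) - 1)) ≤ R * η' := by
        rw [τ.n2_smul]
        exact mul_le_mul hτx hc1 (τ.n2_nonneg _) hR0
      linarith
    have t2 : τ.n2 (ν.E (fun v => ν.E fun w => star (v * c k * w) * x * (v * c k * w))
        - τ x • (1 : A)) ≤ η := by
      have e : ν.E (fun v => ν.E fun w => star (v * c k * w) * x * (v * c k * w)) - τ x • (1 : A)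
          = ν.E (fun w => star w * (star (c k) * (ν.E (fun v => star v * x * v) - τ x • (1 : A))
              * c k) * w)
            + τ x • (ν.E (fun w => star w * (star (c k) * c k) * w) - 1) := by
        rw [smul_sub, ← add_sub_assoc, Mean.E_comm]
        congr 1
        rw [ν.map_E' (fun a : A => τ x • a) (smul_add _) (fun a b => smul_comm _ a b),
          ← Mean.E_add]
        congr 1
        funext w
        rw [← avg_sandwich_sub, mul_sub, sub_mul, mul_smul_comm, smul_mul_assoc, sub_add_cancel,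
          Mean.mul_E, Mean.E_mul, Mean.mul_E, Mean.E_mul]
        congr 1
        funext v
        simp only [star_mul, mul_assoc]
      rw [e]
      refine (τ.n2_add_le _ _).trans ?_
      have a1 : τ.n2 (ν.E (fun w => star w * (star (c k) *
          (ν.E (fun v => star v * x * v) - τ x • (1 : A)) * c k) * w)) ≤ C * C * η' := by
        refine Mean.n2_E_le_of_all τ (hν.mono fun w hw => ?_)
        rw [τ.n2_mul_unitary hw.2, τ.n2_unitary_mul (Unitary.star_mem hw.2)]
        refine (avg_n2_sandwich τ _ _ _).trans ?_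
        rw [norm_star]
        exact mul_le_mul hcc hxF' (τ.n2_nonneg _) (by positivity)
      have a2 : τ.n2 (τ x • (ν.E (fun w => star w * (star (c k) * c k) * w) - 1)) ≤ R * η' := by
        rw [τ.n2_smul]
        exact mul_le_mul hτx hc2 (τ.n2_nonneg _) hR0
      linarith
    have e : ∀ a b t : A, (2⁻¹ : ℝ) • (a + b) - t = (2⁻¹ : ℝ) • ((a - t) + (b - t)) := by
      intro a b t
      module
    rw [e, τ.n2_real_smul, abs_of_pos (by norm_num)]
    have := τ.n2_add_le
      (ν.E (fun v => ν.E fun w => v * c k * w * x * star (v * c k * w)) - τ x • (1 : A))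
      (ν.E (fun v => ν.E fun w => star (v * c k * w) * x * (v * c k * w)) - τ x • (1 : A))
    linarith

end Crest.Agent.R095
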