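import Crest.Agent.R095.Basic

/-! Row 95: the Cayley transform of a self-adjoint element, a substitute for `exp (i h)`. -/

set_option autoImplicit false

open Filter Topology
open scoped ComplexOrder InnerProductSpace ComplexConjugate

namespace Crest.Agent.R095

open Complex (I)

variable {A : Type*} [CStarAlgebra A]

/-- The resolvent `(1 - i h / 2)⁻¹`. -/
noncomputable def cayR (h : A) : A := cfc (fun z : ℂ => (1 - I / 2 * z)⁻¹) h

/-- The Cayley transform `(1 + i h / 2) (1 - i h / 2)⁻¹`. -/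
noncomputable def cay (h : A) : A := 1 + I • (h * cayR h)

lemma one_le_norm_cay_den {z : ℂ} (hz : z.im = 0) : 1 ≤ ‖1 - I / 2 * z‖ := by
  refine le_trans ?_ (Complex.abs_re_le_norm _)
  simp [hz]

lemma cay_den_ne_zero {z : ℂ} (hz : z.im = 0) : 1 - I / 2 * z ≠ 0 := by
  intro h
  have := one_le_norm_cay_den hz
  rw [h, norm_zero] at this
  linarith

section
variable {h : A} (hh : IsSelfAdjoint h)
include hh

lemma cay_contOn : ContinuousOn (fun z : ℂ => (1 - I / 2 * z)⁻¹) (spectrum ℂ h) :=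
  ContinuousOn.inv₀ (by fun_prop) fun _ hz => cay_den_ne_zero (hh.im_eq_zero_of_mem_spectrum hz)

lemma cay_den_eq : cfc (fun z : ℂ => 1 - I / 2 * z) h = 1 - (I / 2) • h := by
  have := hh.isStarNormal
  rw [cfc_sub .., cfc_const_one .., cfc_const_mul_id ..]

lemma den_mul_cayR : (1 - (I / 2) • h) * cayR h = 1 := by
  have := hh.isStarNormal
  rw [← cay_den_eq hh, cayR, ← cfc_mul _ _ h (by fun_prop) (cay_contOn hh),
    ← cfc_const_one ℂ h]
  exact cfc_congr fun z hz => mul_inv_cancel₀ (cay_den_ne_zero (hh.im_eq_zero_of_mem_spectrum hz))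

lemma cayR_mul_den : cayR h * (1 - (I / 2) • h) = 1 := by
  have := hh.isStarNormal
  rw [← cay_den_eq hh, cayR, ← cfc_mul _ _ h (cay_contOn hh) (by fun_prop),
    ← cfc_const_one ℂ h]
  exact cfc_congr fun z hz => inv_mul_cancel₀ (cay_den_ne_zero (hh.im_eq_zero_of_mem_spectrum hz))

lemma norm_cayR_le : ‖cayR h‖ ≤ 1 := by
  refine norm_cfc_le zero_le_one fun z hz => ?_
  rw [norm_inv]
  exact inv_le_one_of_one_le₀ (one_le_norm_cay_den (hh.im_eq_zero_of_mem_spectrum hz))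

lemma cayR_eq : cayR h = 1 + (I / 2) • (h * cayR h) := by
  have := den_mul_cayR hh
  rw [sub_mul, one_mul, smul_mul_assoc] at this
  exact sub_eq_iff_eq_add.mp this

lemma cayR_eq' : cayR h = 1 + (I / 2) • (cayR h * h) := by
  have := cayR_mul_den hh
  rw [mul_sub, mul_one, mul_smul_comm] at this
  exact sub_eq_iff_eq_add.mp this

lemma cayR_comm : h * cayR h = cayR h * h := by
  have h1 := (cayR_eq hh).symm.trans (cayR_eq' hh)
  have h2 : (I / 2 : ℂ) ≠ 0 := by simp
  exact smul_right_injective A h2 (add_left_cancel h1)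

lemma cay_eq_mul : cay h = (1 + (I / 2) • h) * cayR h := by
  rw [add_mul, one_mul, smul_mul_assoc, cay]
  nth_rewrite 2 [cayR_eq hh]
  rw [add_assoc, ← add_smul, add_halves]

lemma cay_mem_unitary : cay h ∈ unitary A := by
  have hs : star (1 - (I / 2) • h : A) = 1 + (I / 2) • h := by
    simp [hh.star_eq, neg_div]
  have hs' : star (1 + (I / 2) • h : A) = 1 - (I / 2) • h := by rw [← hs, star_star]
  have hc : (1 - (I / 2) • h : A) * (1 + (I / 2) • h) = (1 + (I / 2) • h) * (1 - (I / 2) • h) := by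
    generalize (I / 2) • h = k
    noncomm_ring
  have h1 : star (cayR h) * (1 + (I / 2) • h) = 1 := by
    have := congrArg star (den_mul_cayR hh)
    rwa [star_mul, hs, star_one] at this
  have h2 : (1 + (I / 2) • h) * star (cayR h) = 1 := by
    have := congrArg star (cayR_mul_den hh)
    rwa [star_mul, hs, star_one] at this
  have hc2 : (1 + (I / 2) • h) * cayR h = cayR h * (1 + (I / 2) • h) := by
    rw [add_mul, mul_add, one_mul, mul_one, smul_mul_assoc, mul_smul_comm, cayR_comm hh]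
  refine Unitary.mem_iff.2 ⟨?_, ?_⟩
  · rw [cay_eq_mul hh, star_mul, hs', mul_assoc, ← mul_assoc (1 - (I / 2) • h), hc, mul_assoc,
      den_mul_cayR hh, mul_one, h1]
  · rw [cay_eq_mul hh, star_mul, hs', hc2, mul_assoc, ← mul_assoc (1 + (I / 2) • h), h2, one_mul,
      cayR_mul_den hh]

/-- Second-order form with a sandwiched remainder. -/
lemma cay_eq_second : cay h = 1 + I • h - (1 / 2 : ℂ) • (h * cayR h * h) := by
  rw [cay]
  nth_rewrite 1 [cayR_eq' hh]
  rw [mul_add, mul_one, smul_add, mul_smul_comm, smul_smul, mul_assoc, ← add_assoc,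
    sub_eq_add_neg, ← neg_smul]
  congr 2
  rw [← mul_div_assoc, Complex.I_mul_I, neg_div]

/-- Third-order Taylor remainder. -/
lemma norm_cay_sub_le : ‖cay h - (1 + I • h - (1 / 2 : ℂ) • (h * h))‖ ≤ ‖h‖ ^ 3 / 4 := by
  have e : cay h - (1 + I • h - (1 / 2 : ℂ) • (h * h))
      = -((1 / 2 * (I / 2) : ℂ) • (h * (h * cayR h) * h)) := by
    rw [cay_eq_second hh]
    nth_rewrite 1 [cayR_eq hh]
    rw [mul_add, mul_one, add_mul, smul_add, mul_smul_comm, smul_mul_assoc, smul_smul]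
    abel
  rw [e, norm_neg, norm_smul]
  have h1 : ‖h * (h * cayR h) * h‖ ≤ ‖h‖ ^ 3 := by
    have h2 : ‖h * cayR h‖ ≤ ‖h‖ :=
      (norm_mul_le _ _).trans (mul_le_of_le_one_right (norm_nonneg _) (norm_cayR_le hh))
    calc _ ≤ ‖h‖ * ‖h * cayR h‖ * ‖h‖ := norm_mul₃_le
      _ ≤ ‖h‖ * ‖h‖ * ‖h‖ := by gcongr
      _ = _ := by ring
  have h3 : ‖(1 / 2 * (I / 2) : ℂ)‖ = 1 / 4 := by simp; norm_num
  rw [h3]; linarith

lemma n2_cay_sub_one_le (τ : Tr A) : τ.n2 (cay h - 1) ≤ τ.n2 h := by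
  rw [cay, add_sub_cancel_left, τ.n2_smul, Complex.norm_I, one_mul]
  exact (τ.n2_mul_le' _ _).trans (mul_le_of_le_one_right (τ.n2_nonneg _) (norm_cayR_le hh))

/-- The second-order remainder is small in trace norm. -/
lemma norm_tr_cay_rem_le (τ : Tr A) (X : A) :
    ‖τ ((cay h - 1 - I • h) * X)‖ ≤ τ.n2 h ^ 2 / 2 * ‖X‖ := by
  have e : cay h - 1 - I • h = -((1 / 2 : ℂ) • (h * cayR h * h)) := by
    rw [cay_eq_second hh]; abel
  rw [e, neg_mul, smul_mul_assoc, τ.map_neg, τ.map_smul, norm_neg, norm_mul, mul_assoc]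
  have h1 := τ.norm_mul_le_n2 (h * cayR h) (h * X)
  have h2 : τ.n2 (h * cayR h) ≤ τ.n2 h :=
    (τ.n2_mul_le' _ _).trans (mul_le_of_le_one_right (τ.n2_nonneg _) (norm_cayR_le hh))
  have h3 := τ.n2_mul_le' h X
  have h4 : τ.n2 (h * cayR h) * τ.n2 (h * X) ≤ τ.n2 h * (τ.n2 h * ‖X‖) :=
    mul_le_mul h2 h3 (τ.n2_nonneg _) (τ.n2_nonneg _)
  have h5 : ‖(1 / 2 : ℂ)‖ = 1 / 2 := by simp
  rw [h5]; nlinarith

end

lemma cay_mem {B : StarSubalgebra ℂ A} (hB : IsClosed (B : Set A)) {h : A} (hh : h ∈ B) :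
    cay h ∈ B :=
  add_mem (one_mem B) (B.smul_mem (mul_mem hh (cfc_mem (𝕜' := ℂ) (hs := hB) _ hh)) _)

end Crest.Agent.R095
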