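import Crest.Agent.R095.Basic
import Crest.Prelude.Def_VNFactor

/-! Row 95: a concrete von Neumann algebra with a faithful tracial vector state is an abstract
tracial von Neumann algebra; the bicommutant theorem in the 2-norm. -/

set_option autoImplicit false

open Filter Topology
open scoped ComplexOrder InnerProductSpace ComplexConjugate

namespace Crest.Agent.R095

variable {H : Type*} [NormedAddCommGroup H] [InnerProductSpace ℂ H] [CompleteSpace H]

instance vn_isClosed (M : VonNeumannAlgebra H) :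
    IsClosed (M.toStarSubalgebra : Set (H →L[ℂ] H)) := by
  have : (M.toStarSubalgebra : Set (H →L[ℂ] H))
      = Set.centralizer (Set.centralizer (M : Set (H →L[ℂ] H))) := by simp
  rw [this]
  exact Set.isClosed_centralizer _

/-- The von Neumann algebra `M` as a type; it is a C⋆-algebra. -/
abbrev VN (M : VonNeumannAlgebra H) : Type _ := M.toStarSubalgebra

noncomputable example (M : VonNeumannAlgebra H) : CStarAlgebra (VN M) := inferInstance

/-- The Hilbert space of square-summable sequences in `H`. -/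
abbrev CK (H : Type*) [NormedAddCommGroup H] : Type _ := lp (fun _ : ℕ => H) 2

/-- The amplification of an operator. -/
noncomputable def camp (x : H →L[ℂ] H) : CK H →L[ℂ] CK H :=
  lp.mapCLM 2 (fun _ : ℕ => x) (norm_nonneg x) (fun _ => le_rfl)

omit [CompleteSpace H] in
@[simp] lemma camp_apply (x : H →L[ℂ] H) (f : CK H) (n : ℕ) : camp x f n = x (f n) := rfl

omit [CompleteSpace H] in
lemma camp_add (x y : H →L[ℂ] H) (f : CK H) : camp (x + y) f = camp x f + camp y f := by
  ext n; simp

omit [CompleteSpace H] in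
lemma camp_sub (x y : H →L[ℂ] H) (f : CK H) : camp (x - y) f = camp x f - camp y f := by
  ext n; simp

omit [CompleteSpace H] in
lemma camp_smul (c : ℂ) (x : H →L[ℂ] H) (f : CK H) : camp (c • x) f = c • camp x f := by
  ext n; simp

omit [CompleteSpace H] in
lemma camp_mul (x y : H →L[ℂ] H) (f : CK H) : camp (x * y) f = camp x (camp y f) := by
  ext n; simp

omit [CompleteSpace H] in
lemma camp_one (f : CK H) : camp (1 : H →L[ℂ] H) f = f := by
  ext n; simp

lemma camp_inner (x : H →L[ℂ] H) (f g : CK H) :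
    ⟪camp (star x) f, g⟫_ℂ = ⟪f, camp x g⟫_ℂ := by
  rw [lp.inner_eq_tsum, lp.inner_eq_tsum]
  congr 1
  funext n
  rw [camp_apply, camp_apply, ContinuousLinearMap.star_eq_adjoint,
    ContinuousLinearMap.adjoint_inner_left]

/-- A square-summable sequence as a vector. -/
noncomputable def cvec (ξ : ℕ → H) (hξ : Summable fun n => ‖ξ n‖ ^ 2) : CK H :=
  ⟨ξ, memℓp_gen (by simpa using hξ)⟩

omit [InnerProductSpace ℂ H] [CompleteSpace H] in
@[simp] lemma cvec_apply (ξ : ℕ → H) (hξ : Summable fun n => ‖ξ n‖ ^ 2) (n : ℕ) :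
    cvec ξ hξ n = ξ n := rfl

omit [InnerProductSpace ℂ H] [CompleteSpace H] in
lemma ck_norm_sq (f : CK H) : ‖f‖ ^ 2 = ∑' n, ‖f n‖ ^ 2 := by
  have := lp.norm_rpow_eq_tsum (p := 2) (by norm_num) f
  simpa using this

lemma camp_norm_sq (ξ : ℕ → H) (hξ : Summable fun n => ‖ξ n‖ ^ 2) (x : H →L[ℂ] H) :
    ‖camp x (cvec ξ hξ)‖ ^ 2 = Crest.OpAlg.traceNormSq ξ x := by
  rw [ck_norm_sq]; rfl

lemma camp_vectorState (ξ : ℕ → H) (hξ : Summable fun n => ‖ξ n‖ ^ 2) (x : H →L[ℂ] H) :
    Crest.OpAlg.vectorState ξ x = ⟪cvec ξ hξ, camp x (cvec ξ hξ)⟫_ℂ := by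
  rw [lp.inner_eq_tsum]; rfl

lemma cproj_comm {E : Type*} [NormedAddCommGroup E] [InnerProductSpace ℂ E]
    (S : Submodule ℂ E) [S.HasOrthogonalProjection] (T T' : E →L[ℂ] E)
    (h : ∀ a b, ⟪T' a, b⟫_ℂ = ⟪a, T b⟫_ℂ) (hT : ∀ a ∈ S, T a ∈ S) (hT' : ∀ a ∈ S, T' a ∈ S)
    (v : E) : S.starProjection (T v) = T (S.starProjection v) := by
  apply Submodule.eq_starProjection_of_mem_orthogonal (hT _ (S.starProjection_apply_mem v))
  rw [← map_sub, Submodule.mem_orthogonal]
  intro u hu
  rw [← h]
  exact (Submodule.mem_orthogonal _ _).mp (S.sub_starProjection_mem_orthogonal v) _ (hT' u hu)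

omit [CompleteSpace H] in
lemma ck_separable [TopologicalSpace.SeparableSpace H] :
    TopologicalSpace.SeparableSpace (CK H) := by
  classical
  rw [← TopologicalSpace.isSeparable_univ_iff]
  have h1 : TopologicalSpace.IsSeparable
      (⋃ i : ℕ, Set.range (lp.singleContinuousLinearMap ℂ (fun _ : ℕ => H) 2 i)) :=
    TopologicalSpace.isSeparable_iUnion.mpr fun i =>
      TopologicalSpace.isSeparable_range (ContinuousLinearMap.continuous _)
  refine (h1.span (R := ℂ)).closure.mono fun f _ => ?_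
  refine mem_closure_of_tendsto (lp.hasSum_single (by norm_num) f) (Eventually.of_forall fun s => ?_)
  exact Submodule.sum_mem _ fun i _ => Submodule.subset_span (Set.mem_iUnion.mpr ⟨i, f i, rfl⟩)

lemma cyclic_top (M : VonNeumannAlgebra H) (ξ : ℕ → H)
    (hsep : ∀ x ∈ M, (∀ n, x (ξ n) = 0) → x = 0) (S : Submodule ℂ H) (hS : IsClosed (S : Set H))
    (hinv : ∀ T ∈ M.commutant, ∀ a ∈ S, T a ∈ S) (hξ : ∀ n, ξ n ∈ S) (η : H) : η ∈ S := by
  haveI : CompleteSpace S := hS.completeSpace_coe
  haveI : S.HasOrthogonalProjection := Submodule.HasOrthogonalProjection.ofCompleteSpace S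
  have he : S.starProjection ∈ M := by
    rw [← M.commutant_commutant, VonNeumannAlgebra.mem_commutant_iff]
    intro T hT
    ext v
    simp only [ContinuousLinearMap.mul_apply]
    refine (cproj_comm S T (star T) (fun a b => ?_) (hinv T hT) (hinv _ (star_mem hT)) v).symm
    rw [ContinuousLinearMap.star_eq_adjoint, ContinuousLinearMap.adjoint_inner_left]
  have h0 := hsep (1 - S.starProjection) (sub_mem (one_mem M) he) (fun n => by
    simp [Submodule.starProjection_eq_self_iff.mpr (hξ n)])
  have h1 : η = S.starProjection η := by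
    have := congrArg (fun T : H →L[ℂ] H => T η) h0
    simpa [sub_eq_zero] using this
  rw [h1]
  exact S.starProjection_apply_mem η

lemma cstrong_limit (M : VonNeumannAlgebra H) (ξ : ℕ → H)
    (hsep : ∀ x ∈ M, (∀ n, x (ξ n) = 0) → x = 0) (x : ℕ → H →L[ℂ] H) (hx : ∀ k, x k ∈ M)
    (R : ℝ) (hR : ∀ k, ‖x k‖ ≤ R) (hc : ∀ n, CauchySeq fun k => x k (ξ n)) :
    ∃ y : H →L[ℂ] H, ‖y‖ ≤ R ∧ ∀ η, Tendsto (fun k => x k η) atTop (𝓝 (y η)) := by
  have hR0 : 0 ≤ R := (norm_nonneg _).trans (hR 0)
  let S : Submodule ℂ H :=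
    { carrier := {η | CauchySeq fun k => x k η}
      add_mem' := fun {a b} ha hb => by
        simp only [Set.mem_setOf_eq, map_add]
        exact CauchySeq.add ha hb
      zero_mem' := by simpa using cauchySeq_const (0 : H)
      smul_mem' := fun c a ha => by
        simp only [Set.mem_setOf_eq, map_smul]
        exact (uniformContinuous_const_smul c).comp_cauchySeq ha }
  have hS : IsClosed (S : Set H) := by
    refine isClosed_of_closure_subset fun η hη => ?_
    change CauchySeq fun k => x k η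
    rw [Metric.cauchySeq_iff]
    intro ε hε
    obtain ⟨a, ha, hd⟩ := Metric.mem_closure_iff.mp hη (ε / (3 * (R + 1))) (by positivity)
    obtain ⟨N, hN⟩ := Metric.cauchySeq_iff.mp (show CauchySeq fun k => x k a from ha) (ε / 3)
      (by positivity)
    refine ⟨N, fun m hm n hn => ?_⟩
    have hb : ∀ k, dist (x k η) (x k a) ≤ ε / 3 := by
      intro k
      calc dist (x k η) (x k a) ≤ ‖x k‖ * dist η a := (x k).dist_le_opNorm η a
        _ ≤ (R + 1) * (ε / (3 * (R + 1))) :=
          mul_le_mul ((hR k).trans (by linarith)) hd.le dist_nonneg (by positivity)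
        _ = ε / 3 := by field_simp
    have t := dist_triangle4 (x m η) (x m a) (x n a) (x n η)
    have := hb m
    have := hb n
    have := hN m hm n hn
    rw [dist_comm (x n a)] at t
    linarith
  have hall : ∀ η, CauchySeq fun k => x k η := by
    refine cyclic_top M ξ hsep S hS (fun T hT a ha => ?_) hc
    change CauchySeq fun k => x k (T a)
    have e : (fun k => x k (T a)) = T ∘ fun k => x k a := by
      funext k
      have := VonNeumannAlgebra.mem_commutant_iff.mp hT _ (hx k)
      exact congrArg (fun U : H →L[ℂ] H => U a) this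
    rw [e]
    exact T.uniformContinuous.comp_cauchySeq ha
  choose f hf using fun η => cauchySeq_tendsto_of_complete (hall η)
  let y : H →L[ℂ] H := continuousLinearMapOfTendsto x (tendsto_pi_nhds.mpr hf)
  have hy : ∀ η, y η = f η := fun _ => rfl
  refine ⟨y, y.opNorm_le_bound hR0 fun η => ?_, fun η => hf η⟩
  rw [hy]
  exact le_of_tendsto' (hf η).norm fun k => (x k).le_of_opNorm_le (hR k) η

lemma cstrong_mem (N : VonNeumannAlgebra H) (x : ℕ → H →L[ℂ] H) (hx : ∀ k, x k ∈ N)
    (y : H →L[ℂ] H) (h : ∀ η, Tendsto (fun k => x k η) atTop (𝓝 (y η))) : y ∈ N := by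
  rw [← N.commutant_commutant, VonNeumannAlgebra.mem_commutant_iff]
  intro T hT
  ext η
  simp only [ContinuousLinearMap.mul_apply]
  have h1 := (T.continuous.tendsto _).comp (h η)
  have e : (T ∘ fun k => x k η) = fun k => x k (T η) := by
    funext k
    have := VonNeumannAlgebra.mem_commutant_iff.mp hT _ (hx k)
    exact (congrArg (fun U : H →L[ℂ] H => U η) this).symm
  rw [e] at h1
  exact tendsto_nhds_unique h1 (h (T η))

/-- The trace presented by `ξ` exists as a `Tr`, with the expected 2-norm; it is faithful,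
complete and separable, and every von Neumann algebra `N` cuts out a W-closed subset. -/
theorem exists_vtr [TopologicalSpace.SeparableSpace H] (M : VonNeumannAlgebra H) (ξ : ℕ → H)
    (hξ : Crest.OpAlg.IsFaithfulTracialVectorState M ξ) :
    ∃ τ : Tr (VN M), τ.IsTW ∧
      (∀ x : VN M, τ.n2 x ^ 2 = Crest.OpAlg.traceNormSq ξ (x : H →L[ℂ] H)) ∧
      ∀ N : VonNeumannAlgebra H, τ.WClosed {x : VN M | (x : H →L[ℂ] H) ∈ N} := by
  obtain ⟨hsum, htr, hsep⟩ := hξ
  have hs := hsum.summable
  set v := cvec ξ hs with hv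
  have hv1 : ‖v‖ ^ 2 = 1 := by rw [ck_norm_sq]; exact hsum.tsum_eq
  have hss : ∀ x : H →L[ℂ] H, ⟪v, camp (star x * x) v⟫_ℂ = ((‖camp x v‖ ^ 2 : ℝ) : ℂ) := by
    intro x
    rw [camp_mul, ← camp_inner, star_star, inner_self_eq_norm_sq_to_K]
    norm_cast
  let τ : Tr (VN M) :=
    { toLin :=
        { toFun := fun x => ⟪v, camp (x : H →L[ℂ] H) v⟫_ℂ
          map_add' := fun x y => by
            rw [← inner_add_right, ← camp_add]; rfl
          map_smul' := fun c x => by
            rw [RingHom.id_apply, smul_eq_mul, ← inner_smul_right, ← camp_smul]; rfl }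
      map_one' := by
        change ⟪v, camp (1 : H →L[ℂ] H) v⟫_ℂ = 1
        rw [camp_one, inner_self_eq_norm_sq_to_K]
        have := congrArg (fun r : ℝ => (r : ℂ)) hv1
        simpa using this
      tracial' := fun x y => by
        have := htr _ x.2 _ y.2
        rw [camp_vectorState ξ hs, camp_vectorState ξ hs] at this
        exact this
      pos' := fun x => by
        change 0 ≤ ⟪v, camp (star (x : H →L[ℂ] H) * (x : H →L[ℂ] H)) v⟫_ℂ
        rw [hss]
        exact Complex.zero_le_real.mpr (sq_nonneg _) }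
  have hn2 : ∀ x : VN M, τ.n2 x = ‖camp (x : H →L[ℂ] H) v‖ := by
    intro x
    rw [τ.n2_eq_sqrt]
    change √(⟪v, camp (star (x : H →L[ℂ] H) * (x : H →L[ℂ] H)) v⟫_ℂ).re = _
    rw [hss, Complex.ofReal_re, Real.sqrt_sq (norm_nonneg _)]
  have hsub : ∀ x y : VN M,
      τ.n2 (x - y) = dist (camp (x : H →L[ℂ] H) v) (camp (y : H →L[ℂ] H) v) := by
    intro x y
    rw [hn2, dist_eq_norm, ← camp_sub]; rfl
  have hiso : Isometry (fun a : τ.L2 => camp ((τ.toL2.symm a : VN M) : H →L[ℂ] H) v) := by
    refine Isometry.of_dist_eq fun a b => ?_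
    rw [← hsub, ← τ.dist_toL2]
    simp
  have hfaith : τ.Faithful := by
    intro x hx
    rw [hn2, norm_eq_zero] at hx
    refine Subtype.ext (hsep _ x.2 fun n => ?_)
    have := congrArg (fun f : CK H => f n) hx
    simpa [hv] using this
  have hkey : ∀ (x : ℕ → VN M) (R : ℝ), (∀ n, ‖x n‖ ≤ R) → CauchySeq (fun n => τ.toL2 (x n)) →
      ∃ y : VN M, ‖y‖ ≤ R ∧ Tendsto (fun n => τ.n2 (x n - y)) atTop (𝓝 0) ∧
        ∀ η, Tendsto (fun k => (x k : H →L[ℂ] H) η) atTop (𝓝 ((y : H →L[ℂ] H) η)) := by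
    intro x R hR hc
    have hc' : CauchySeq (fun n => camp (x n : H →L[ℂ] H) v) :=
      hiso.uniformContinuous.comp_cauchySeq hc
    obtain ⟨ζ, hζ⟩ := cauchySeq_tendsto_of_complete hc'
    have hζn : ∀ n, Tendsto (fun k => (x k : H →L[ℂ] H) (ξ n)) atTop (𝓝 (ζ n)) := fun n =>
      ((lp.evalCLM ℂ (fun _ : ℕ => H) 2 n).continuous.tendsto ζ).comp hζ
    obtain ⟨y, hyR, hy⟩ := cstrong_limit M ξ hsep (fun k => (x k : H →L[ℂ] H))
      (fun k => (x k).2) R hR (fun n => (hζn n).cauchySeq)
    have hyM : y ∈ M := cstrong_mem M _ (fun k => (x k).2) y hy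
    refine ⟨⟨y, hyM⟩, hyR, ?_, hy⟩
    have e : camp y v = ζ := by
      ext n
      exact tendsto_nhds_unique (hy (ξ n)) (hζn n)
    simp only [hsub, e]
    exact tendsto_iff_dist_tendsto_zero.mp hζ
  refine ⟨τ, ⟨hfaith, fun x R hR hc => ?_, ?_⟩, fun x => ?_, fun N x R y hx hR hlim => ?_⟩
  · obtain ⟨y, h1, h2, -⟩ := hkey x R hR hc
    exact ⟨y, h1, h2⟩
  · haveI := ck_separable (H := H)
    haveI : SecondCountableTopology τ.L2 := hiso.isUniformInducing.isInducing.secondCountableTopology
    infer_instance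
  · rw [hn2, camp_norm_sq]
  · have hl : Tendsto (fun n => τ.toL2 (x n)) atTop (𝓝 (τ.toL2 y)) := by
      rw [tendsto_iff_dist_tendsto_zero]
      simpa only [τ.dist_toL2] using hlim
    obtain ⟨y', -, h2, h3⟩ := hkey x R hR hl.cauchySeq
    have e : y = y' := by
      rw [← sub_eq_zero]
      apply hfaith
      refine le_antisymm ?_ (τ.n2_nonneg _)
      have := hlim.add h2
      rw [add_zero] at this
      refine ge_of_tendsto' this fun n => ?_
      have := τ.n2_triangle y (x n) y'
      rwa [τ.n2_sub_comm y (x n)] at this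
    rw [e]
    exact cstrong_mem N _ hx _ h3

/-- The bicommutant theorem, σ-strong form for one square-summable sequence of vectors. -/
theorem bicommutant_approx (B : StarSubalgebra ℂ (H →L[ℂ] H)) (ξ : ℕ → H)
    (hξ : Summable fun n => ‖ξ n‖ ^ 2) (z : H →L[ℂ] H)
    (hz : z ∈ Set.centralizer (Set.centralizer (B : Set (H →L[ℂ] H)))) (ε : ℝ) (hε : 0 < ε) :
    ∃ b ∈ B, Crest.OpAlg.traceNormSq ξ (z - b) < ε := by
  classical
  set v := cvec ξ hξ with hv
  let L : (H →L[ℂ] H) →ₗ[ℂ] CK H :=
    { toFun := fun x => camp x v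
      map_add' := fun x y => camp_add x y v
      map_smul' := fun c x => camp_smul c x v }
  let S0 : Submodule ℂ (CK H) := (Subalgebra.toSubmodule B.toSubalgebra).map L
  let S : Submodule ℂ (CK H) := S0.topologicalClosure
  haveI : CompleteSpace S := S0.isClosed_topologicalClosure.completeSpace_coe
  haveI : S.HasOrthogonalProjection := Submodule.HasOrthogonalProjection.ofCompleteSpace S
  have hinv : ∀ b ∈ B, ∀ a ∈ S, camp b a ∈ S := by
    intro b hb a ha
    refine map_mem_closure (f := camp b) (s := (S0 : Set (CK H))) (camp b).continuous ha ?_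
    rintro _ ⟨c, hc, rfl⟩
    exact ⟨b * c, B.mul_mem hb hc, camp_mul b c v⟩
  have hcomm : ∀ b ∈ B, ∀ f, S.starProjection (camp b f) = camp b (S.starProjection f) :=
    fun b hb => cproj_comm S _ (camp (star b)) (camp_inner b) (hinv b hb) (hinv _ (star_mem hb))
  have hsingle : ∀ (b : H →L[ℂ] H) (j : ℕ) (η : H),
      camp b (lp.single 2 j η) = lp.single 2 j (b η) := by
    intro b j η
    ext n
    rw [camp_apply]
    by_cases h : n = j
    · subst h; simp
    · simp [lp.single_apply, h]
  let e : ℕ → ℕ → H →L[ℂ] H := fun i j =>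
    (lp.evalCLM ℂ (fun _ : ℕ => H) 2 i).comp
      (S.starProjection.comp (lp.singleContinuousLinearMap ℂ (fun _ : ℕ => H) 2 j))
  have he : ∀ i j η, e i j η = S.starProjection (lp.single 2 j η) i := fun _ _ _ => rfl
  have heB : ∀ i j, e i j ∈ Set.centralizer (B : Set (H →L[ℂ] H)) := by
    intro i j b hb
    ext η
    simp only [ContinuousLinearMap.mul_apply, he]
    rw [← hsingle, hcomm b hb, camp_apply]
  have hz' : S.starProjection.comp (camp z) = (camp z).comp S.starProjection := by
    refine lp.ext_continuousLinearMap (by norm_num) fun j => ?_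
    ext η i
    have := congrArg (fun U : H →L[ℂ] H => U η) (hz _ (heB i j))
    simp only [ContinuousLinearMap.mul_apply, he] at this
    simp only [ContinuousLinearMap.comp_apply, lp.singleContinuousLinearMap_apply, hsingle,
      camp_apply]
    exact this
  have hvS : v ∈ S := S0.le_topologicalClosure ⟨1, B.one_mem, camp_one v⟩
  have hzS : camp z v ∈ S := by
    have := congrArg (fun U : CK H →L[ℂ] CK H => U v) hz'
    simp only [ContinuousLinearMap.comp_apply, Submodule.starProjection_eq_self_iff.mpr hvS] at this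
    exact Submodule.starProjection_eq_self_iff.mp this
  obtain ⟨_, ⟨b, hb, rfl⟩, hd⟩ := Metric.mem_closure_iff.mp hzS (√ε) (Real.sqrt_pos.mpr hε)
  refine ⟨b, hb, ?_⟩
  rw [← camp_norm_sq ξ hξ, camp_sub, ← dist_eq_norm]
  exact (Real.lt_sqrt dist_nonneg).mp hd

/-- The bicommutant of a ⋆-subalgebra as a von Neumann algebra. -/
theorem exists_vn_bicommutant (B : StarSubalgebra ℂ (H →L[ℂ] H)) :
    ∃ N : VonNeumannAlgebra H,
      (N : Set (H →L[ℂ] H)) = Set.centralizer (Set.centralizer (B : Set (H →L[ℂ] H))) := by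
  have h1 : (StarSubalgebra.centralizer ℂ (B : Set (H →L[ℂ] H)) : Set (H →L[ℂ] H))
      = Set.centralizer (B : Set (H →L[ℂ] H)) := by simp
  let N : VonNeumannAlgebra H :=
    { toStarSubalgebra := StarSubalgebra.centralizer ℂ (B : Set (H →L[ℂ] H))
      centralizer_centralizer' := by simp }
  refine ⟨N.commutant, ?_⟩
  rw [VonNeumannAlgebra.coe_commutant, ← h1]
  rfl

end Crest.Agent.R095
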