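import Crest.Agent.R095.Avg

/-! Row 95: two finite-dimensionality transfers. -/

set_option autoImplicit false

open Filter Topology
open scoped ComplexOrder InnerProductSpace ComplexConjugate

namespace Crest.Agent.R095

variable {A : Type*} [CStarAlgebra A]

/-- An orthonormal basis of a finite-dimensional subspace for the trace inner product. -/
lemma fd_onb (τ : Tr A) (hf : τ.Faithful) (V : Submodule ℂ A) (hfd : FiniteDimensional ℂ V) :
    ∃ (d : ℕ) (c : Fin d → A), (∀ i, c i ∈ V) ∧ (∀ i, τ.n2 (c i) = 1) ∧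
      ∀ y ∈ V, y = ∑ i, τ (star (c i) * y) • c i := by
  letI : NormedAddCommGroup τ.L2 := NormedAddCommGroup.ofSeparation (fun x hx => hf x hx)
  let V' : Submodule ℂ τ.L2 := V
  haveI : FiniteDimensional ℂ V' := hfd
  let b := stdOrthonormalBasis ℂ V'
  refine ⟨_, fun i => τ.toL2.symm (b i : τ.L2), fun i => (b i).2, fun i => b.orthonormal.1 i,
    fun y hy => ?_⟩
  have h := congrArg (fun z : V' => (z : τ.L2)) (b.sum_repr' ⟨τ.toL2 y, hy⟩)
  simp only [Submodule.coe_sum, Submodule.coe_smul] at h
  exact h.symm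

lemma fd_eq_zero (τ : Tr A) (hf : τ.Faithful) {ι : Type*} [Fintype ι] (y : ι → A)
    (h : τ (∑ i, star (y i) * y i) = 0) (i : ι) : y i = 0 := by
  have h1 : ∑ i, τ.n2 (y i) ^ 2 = 0 := by
    have := congrArg Complex.re h
    rw [τ.map_sum, Complex.re_sum, Complex.zero_re] at this
    simpa only [τ.n2_sq] using this
  have := (Finset.sum_eq_zero_iff_of_nonneg (fun i _ => sq_nonneg _)).mp h1 i (Finset.mem_univ _)
  exact hf _ (pow_eq_zero_iff two_ne_zero |>.mp this)

/-- An algebra with a finite-dimensional irreducible ⋆-subalgebra is finite-dimensional. -/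
theorem finiteDimensional_of_irred (τ : Tr A) (hf : τ.Faithful) (P : StarSubalgebra ℂ A)
    (hirr : Irred (P : Set A)) (hfd : FiniteDimensional ℂ P) : FiniteDimensional ℂ A := by
  obtain ⟨d, c, hcP, -, hc⟩ := fd_onb τ hf P.toSubalgebra.toSubmodule hfd
  have hcP : ∀ i, c i ∈ P := hcP
  have hc : ∀ y ∈ P, y = ∑ i, τ (star (c i) * y) • c i := hc
  obtain ⟨z, hz⟩ : ∃ z : A, z = ∑ i, star (c i) * c i := ⟨_, rfl⟩
  have hzP : z ∈ P := by
    rw [hz]; exact sum_mem fun i _ => mul_mem (star_mem (hcP i)) (hcP i)
  -- the Casimir map is scalar valued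
  have cas : ∀ x : A, ∑ i, c i * x * star (c i) = τ (x * z) • (1 : A) := by
    intro x
    obtain ⟨l, hl⟩ := hirr (∑ i, c i * x * star (c i)) fun a ha => by
      have h1 : ∀ i, a * c i = ∑ j, τ (star (c j) * (a * c i)) • c j :=
        fun i => hc _ (mul_mem ha (hcP i))
      have h2 : ∀ j, star (c j) * a = ∑ i, τ (star (c j) * (a * c i)) • star (c i) := by
        intro j
        have := congrArg star (hc _ (mul_mem (star_mem ha) (hcP j)))
        rw [star_mul, star_star, star_sum] at this
        rw [this]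
        refine Finset.sum_congr rfl fun i _ => ?_
        rw [star_smul, Complex.star_def, ← τ.map_star]
        simp only [star_mul, star_star, mul_assoc]
      calc (∑ i, c i * x * star (c i)) * a = ∑ j, c j * x * (star (c j) * a) := by
            rw [Finset.sum_mul]; simp only [mul_assoc]
        _ = ∑ j, ∑ i, τ (star (c j) * (a * c i)) • (c j * x * star (c i)) := by
            refine Finset.sum_congr rfl fun j _ => ?_
            rw [h2 j, Finset.mul_sum]; simp only [mul_smul_comm]
        _ = ∑ i, ∑ j, τ (star (c j) * (a * c i)) • (c j * x * star (c i)) := Finset.sum_comm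
        _ = ∑ i, (a * c i) * x * star (c i) := by
            refine Finset.sum_congr rfl fun i _ => ?_
            conv_rhs => rw [h1 i]
            rw [Finset.sum_mul, Finset.sum_mul]; simp only [smul_mul_assoc]
        _ = a * ∑ i, c i * x * star (c i) := by
            rw [Finset.mul_sum]; simp only [mul_assoc]
    have : τ (x * z) = l := by
      have h := congrArg τ hl
      rw [τ.map_smul, τ.map_one, mul_one, τ.map_sum] at h
      rw [← h, hz, Finset.mul_sum, τ.map_sum]
      refine Finset.sum_congr rfl fun i _ => ?_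
      rw [← mul_assoc, τ.cyc3]
    rw [this, hl]
  let L : A →ₗ[ℂ] (Fin d → ℂ) :=
    { toFun := fun x j => τ (x * c j)
      map_add' := by intro x y; funext j; simp [add_mul]
      map_smul' := by intro a x; funext j; simp }
  refine FiniteDimensional.of_injective L ?_
  rw [injective_iff_map_eq_zero]
  intro x hx
  have hx1 : ∀ j, τ (x * c j) = 0 := fun j => congrFun hx j
  have hx2 : ∀ y ∈ P, τ (x * y) = 0 := by
    intro y hy
    rw [hc y hy, Finset.mul_sum, τ.map_sum]
    simp [hx1]
  have hx3 : ∀ j, ∑ i, c i * (x * c j) * star (c i) = 0 := by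
    intro j
    rw [cas, mul_assoc, hx2 _ (mul_mem (hcP j) hzP), zero_smul]
  have hzx : z * x = 0 := by
    calc z * x = ∑ i, c i * x * (τ (star (c i) * z) • (1 : A)) := by
          conv_lhs => rw [hc z hzP]
          rw [Finset.sum_mul]; simp only [smul_mul_assoc, mul_smul_comm, mul_one]
      _ = ∑ i, ∑ j, c i * (x * c j) * star (c i) * star (c j) := by
          refine Finset.sum_congr rfl fun i _ => ?_
          rw [← cas, Finset.mul_sum]; simp only [mul_assoc]
      _ = ∑ j, (∑ i, c i * (x * c j) * star (c i)) * star (c j) := by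
          rw [Finset.sum_comm]; simp only [Finset.sum_mul]
      _ = 0 := by simp [hx3]
  have hcx : ∀ i, c i * x = 0 := by
    refine fd_eq_zero τ hf (fun i => c i * x) ?_
    have : ∑ i, star (c i * x) * (c i * x) = star x * (z * x) := by
      rw [hz, Finset.sum_mul, Finset.mul_sum]; simp only [star_mul, mul_assoc]
    rw [this, hzx, mul_zero, τ.map_zero]
  calc x = 1 * x := (one_mul x).symm
    _ = 0 := by
      rw [hc 1 (one_mem P), Finset.sum_mul]; simp [hcx]

/-- Averaging an upper bound on a linear functional. -/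
lemma fd_avle (τ : Tr A) (hav : AV τ (Set.univ : Set A)) (p z : A) (d : ℝ)
    (h : ∀ v ∈ unitary A, (τ (v * p * star v * z)).re ≤ d) : (τ p * τ z).re ≤ d := by
  refine le_of_forall_pos_le_add fun ε hε => ?_
  obtain ⟨μ, hμ, h1⟩ := hav {p} (ε / (‖z‖ + 1)) (by positivity)
  have h2 := h1 p (Finset.mem_singleton_self p)
  set y := μ.E (fun v => v * p * star v)
  have h3 : (τ (y * z)).re ≤ d := by
    have e : (τ (y * z)).re = μ.E fun v => (τ (v * p * star v * z)).re :=
      μ.map_E' (fun s : A => (τ (s * z)).re) (fun s t => by simp [add_mul])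
        (fun c s => by simp) _
    rw [e]
    exact Mean.E_le (hμ.mono fun v hv => h v hv.2)
  have h4 : ‖τ ((y - τ p • (1 : A)) * z)‖ ≤ ε := by
    refine (τ.norm_mul_le_n2_norm _ _).trans ?_
    calc τ.n2 (y - τ p • (1 : A)) * ‖z‖ ≤ ε / (‖z‖ + 1) * (‖z‖ + 1) :=
          mul_le_mul h2 (by linarith) (norm_nonneg _) (by positivity)
      _ = ε := div_mul_cancel₀ _ (by positivity)
  rw [sub_mul, smul_mul_assoc, one_mul, τ.map_sub, τ.map_smul] at h4
  have h5 := (Complex.abs_re_le_norm _).trans h4
  rw [Complex.sub_re, abs_le] at h5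
  linarith [h5.1]

/-- A finite factor with a finite-dimensional nonzero corner is finite-dimensional. -/
theorem finiteDimensional_of_corner (τ : Tr A) (hf : τ.Faithful) (hav : AV τ (Set.univ : Set A))
    (p : A) (hp : IsStarProjection p) (hp0 : p ≠ 0) (V : Submodule ℂ A)
    (hV : ∀ x : A, p * x * p ∈ V) (hfd : FiniteDimensional ℂ V) : FiniteDimensional ℂ A := by
  by_contra hinf
  have hpp : p * p = p := hp.isIdempotentElem
  have hps : star p = p := hp.isSelfAdjoint.star_eq
  let W : Submodule ℂ A :=
    { carrier := {y | p * y * p = y}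
      add_mem' := fun {x y} hx hy => by
        simp only [Set.mem_ofPred_eq] at hx hy ⊢
        rw [mul_add, add_mul, hx, hy]
      zero_mem' := by simp
      smul_mem' := fun a x hx => by
        simp only [Set.mem_ofPred_eq] at hx ⊢
        rw [mul_smul_comm, smul_mul_assoc, hx] }
  have hWV : W ≤ V := fun y hy => by
    have hy' : p * y * p = y := hy
    rw [← hy']; exact hV y
  have hW : FiniteDimensional ℂ W := Submodule.finiteDimensional_of_le hWV
  obtain ⟨d, e, heW, he1, he⟩ := fd_onb τ hf W hW
  have heW : ∀ l, p * e l * p = e l := heW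
  -- Parseval in the corner
  have pars : ∀ x : A, (τ (star (p * x * p) * (p * x * p))).re
      = ∑ l, ‖τ (star (e l) * x)‖ ^ 2 := by
    intro x
    have hx : p * x * p ∈ W := by
      change p * (p * x * p) * p = p * x * p
      rw [← mul_assoc, ← mul_assoc, hpp, mul_assoc (p * x), hpp]
    have h1 : ∀ l, τ (star (e l) * (p * x * p)) = τ (star (e l) * x) := by
      intro l
      conv_rhs => rw [← heW l]
      rw [star_mul, star_mul, hps, ← mul_assoc, τ.comm]
      simp only [mul_assoc]
    have h2 := he _ hx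
    simp only [h1] at h2
    have h3 : τ (star (p * x * p) * (p * x * p))
        = ∑ l, τ (star (e l) * x) * conj (τ (star (e l) * x)) := by
      conv_lhs => rw [h2]; rw [Finset.mul_sum, ← h2, τ.map_sum]
      refine Finset.sum_congr rfl fun l _ => ?_
      rw [mul_smul_comm, τ.map_smul, ← h1, ← τ.map_star, star_mul (star (e l)), star_star]
    rw [h3, Complex.re_sum]
    refine Finset.sum_congr rfl fun l _ => ?_
    rw [Complex.mul_conj, Complex.ofReal_re, Complex.normSq_eq_norm_sq]
  have ht : τ p = ((τ.n2 p ^ 2 : ℝ) : ℂ) := by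
    rw [Complex.ofReal_pow, τ.n2_sq_complex, hps, hpp]
  have ht0 : 0 < τ.n2 p ^ 2 := by
    have : τ.n2 p ≠ 0 := fun h => hp0 (hf p h)
    positivity
  set t : ℝ := τ.n2 p ^ 2
  obtain ⟨n, hn⟩ := exists_nat_gt ((d : ℝ) / t ^ 2)
  have hinf' : ¬ FiniteDimensional ℂ (⊤ : StarSubalgebra ℂ A) := fun h =>
    hinf (Module.Finite.of_surjective (⊤ : StarSubalgebra ℂ A).toSubalgebra.toSubmodule.subtype
      fun x => ⟨⟨x, trivial⟩, rfl⟩)
  obtain ⟨x, -, hx⟩ := avg_orthonormal τ hf ⊤ hinf' n
  have hon : Orthonormal ℂ (fun i : Fin n => τ.toL2 (x i)) := by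
    rw [orthonormal_iff_ite]
    intro i j
    rw [τ.inner_toL2, hx i i.2 j j.2]
    simp [Fin.ext_iff]
  have k1 : ∀ v ∈ unitary A, ∀ w ∈ unitary A,
      (τ (w * p * star w * ∑ i : Fin n, star (x i) * (v * p * star v) * x i)).re ≤ d := by
    intro v hv w hw
    have e1 : ∀ i : Fin n, τ (w * p * star w * (star (x i) * (v * p * star v) * x i))
        = τ (star (p * (star v * x i * w) * p) * (p * (star v * x i * w) * p)) := by
      intro i
      have : star (p * (star v * x i * w) * p) * (p * (star v * x i * w) * p)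
          = (p * star w * (star (x i) * (v * p * star v) * x i)) * (w * p) := by
        simp only [star_mul, star_star, hps, mul_assoc]
        rw [← mul_assoc p p, hpp]
      rw [this, τ.comm _ (w * p)]
      simp only [mul_assoc]
      rw [← mul_assoc p p, hpp]
    rw [Finset.mul_sum, τ.map_sum, Complex.re_sum]
    simp only [e1, pars]
    rw [Finset.sum_comm]
    calc ∑ l, ∑ i : Fin n, ‖τ (star (e l) * (star v * x i * w))‖ ^ 2 ≤ ∑ _l : Fin d, (1 : ℝ) := by
          refine Finset.sum_le_sum fun l _ => ?_
          have hb := hon.sum_inner_products_le (s := Finset.univ) (τ.toL2 (v * e l * star w))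
          rw [← τ.n2_def, τ.n2_mul_unitary (Unitary.star_mem hw), τ.n2_unitary_mul hv, he1,
            one_pow] at hb
          refine le_of_eq_of_le (Finset.sum_congr rfl fun i _ => ?_) hb
          rw [norm_inner_symm, τ.inner_toL2, ← mul_assoc, τ.comm]
          simp only [star_mul, star_star, mul_assoc]
      _ = d := by simp
  have k2 : ∀ v ∈ unitary A,
      (τ (v * p * star v * (τ p • ∑ i : Fin n, x i * star (x i)))).re ≤ d := by
    intro v hv
    have := fd_avle τ hav p _ d (k1 v hv)
    rw [mul_smul_comm, τ.map_smul, Finset.mul_sum, τ.map_sum]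
    rw [τ.map_sum] at this
    convert this using 4 with i
    rw [← mul_assoc, τ.cyc3 (v * p * star v)]
  have k3 := fd_avle τ hav p _ d k2
  have e2 : τ (∑ i : Fin n, x i * star (x i)) = n := by
    rw [τ.map_sum]
    have : ∀ i : Fin n, τ (x i * star (x i)) = 1 := fun i => by
      rw [τ.comm, hx i i.2 i i.2, if_pos rfl]
    simp [this]
  rw [τ.map_smul, e2, ht] at k3
  have k4 : t * (t * n) ≤ d := by exact_mod_cast k3
  rw [div_lt_iff₀ (by positivity)] at hn
  nlinarith

end Crest.Agent.R095
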