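import Crest.Agent.R095.AMT
import Crest.Agent.R095.FinDim

/-! Row 95: the abstract main theorem in a corner `p A p`. -/

set_option autoImplicit false

open Filter Topology
open scoped ComplexOrder InnerProductSpace ComplexConjugate

namespace Crest.Agent.R095

variable {A : Type*} [CStarAlgebra A]

section corner

variable {p : A}

/-- The corner as a non-unital ⋆-subalgebra. -/
def cornerSub (hp : IsStarProjection p) : NonUnitalStarSubalgebra ℂ A where
  carrier := {x | p * x * p = x}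
  add_mem' := fun {x y} hx hy => by
    simp only [Set.mem_ofPred_eq] at hx hy ⊢
    rw [mul_add, add_mul, hx, hy]
  zero_mem' := by simp
  mul_mem' := fun {x y} hx hy => by
    simp only [Set.mem_ofPred_eq] at hx hy ⊢
    have hpp : p * p = p := hp.isIdempotentElem
    have h1 : p * x = x := by rw [← hx, ← mul_assoc, ← mul_assoc, hpp]
    have h2 : y * p = y := by rw [← hy, mul_assoc, hpp]
    rw [← mul_assoc, h1, mul_assoc, h2]
  smul_mem' := fun a x hx => by
    simp only [Set.mem_ofPred_eq] at hx ⊢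
    rw [mul_smul_comm, smul_mul_assoc, hx]
  star_mem' := fun {x} hx => by
    have hx' : p * x * p = x := hx
    change p * star x * p = star x
    conv_rhs => rw [← hx']
    rw [star_mul, star_mul, hp.isSelfAdjoint.star_eq, mul_assoc]

instance cornerSub_isClosed (hp : IsStarProjection p) : IsClosed (cornerSub hp : Set A) :=
  isClosed_eq (f := fun x : A => p * x * p) (g := fun x => x) (by fun_prop) (by fun_prop)

/-- The corner `p A p`. -/
def Cn (hp : IsStarProjection p) : Type _ := cornerSub hp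

namespace Cn

variable {hp : IsStarProjection p}

noncomputable instance : NonUnitalCStarAlgebra (Cn hp) :=
  inferInstanceAs (NonUnitalCStarAlgebra (cornerSub hp))

/-- The underlying element. -/
def val (x : Cn hp) : A := Subtype.val x

lemma prop (x : Cn hp) : p * x.val * p = x.val := Subtype.property x

lemma ext {x y : Cn hp} (h : x.val = y.val) : x = y := Subtype.ext h

/-- Constructor. -/
def mk (x : A) (hx : p * x * p = x) : Cn hp := Subtype.mk x hx

@[simp] lemma val_mk (x : A) (hx : p * x * p = x) : (mk x hx : Cn hp).val = x := rfl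

lemma p_mul (x : Cn hp) : p * x.val = x.val := by
  rw [← x.prop, ← mul_assoc, ← mul_assoc, hp.isIdempotentElem.eq]

lemma mul_p (x : Cn hp) : x.val * p = x.val := by
  rw [← x.prop, mul_assoc, hp.isIdempotentElem.eq]

instance : One (Cn hp) :=
  ⟨mk p (by rw [hp.isIdempotentElem.eq, hp.isIdempotentElem.eq])⟩

noncomputable instance : Ring (Cn hp) :=
  { (inferInstance : NonUnitalRing (Cn hp)) with
    one := 1
    one_mul := fun x => ext x.p_mul
    mul_one := fun x => ext x.mul_p
    npow := npowRec }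

noncomputable instance : NormedRing (Cn hp) :=
  { (inferInstance : Ring (Cn hp)), (inferInstance : NonUnitalNormedRing (Cn hp)) with }

noncomputable instance : Algebra ℂ (Cn hp) := Algebra.ofModule smul_mul_assoc mul_smul_comm

noncomputable instance : NormedAlgebra ℂ (Cn hp) :=
  { (inferInstance : Algebra ℂ (Cn hp)), (inferInstance : NormedSpace ℂ (Cn hp)) with }

noncomputable instance : CStarAlgebra (Cn hp) := {}

@[simp] lemma val_one : (1 : Cn hp).val = p := rfl
@[simp] lemma val_zero : (0 : Cn hp).val = 0 := rfl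
@[simp] lemma val_add (x y : Cn hp) : (x + y).val = x.val + y.val := rfl
@[simp] lemma val_sub (x y : Cn hp) : (x - y).val = x.val - y.val := rfl
@[simp] lemma val_mul (x y : Cn hp) : (x * y).val = x.val * y.val := rfl
@[simp] lemma val_star (x : Cn hp) : (star x).val = star x.val := rfl
@[simp] lemma val_smul (c : ℂ) (x : Cn hp) : (c • x).val = c • x.val := rfl
@[simp] lemma norm_val (x : Cn hp) : ‖x.val‖ = ‖x‖ := rfl

/-- The inclusion as a linear map. -/
def incl (hp : IsStarProjection p) : Cn hp →ₗ[ℂ] A where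
  toFun := val
  map_add' := val_add
  map_smul' := val_smul

lemma continuous_val : Continuous (val : Cn hp → A) := continuous_subtype_val

/-- The part of a ⋆-subalgebra containing `p` that lies in the corner. -/
def sub (hp : IsStarProjection p) (B : StarSubalgebra ℂ A) (hB : p ∈ B) :
    StarSubalgebra ℂ (Cn hp) where
  carrier := {x | x.val ∈ B}
  mul_mem' := fun hx hy => mul_mem (s := B) hx hy
  add_mem' := fun hx hy => add_mem (s := B) hx hy
  algebraMap_mem' := fun c => by
    rw [Algebra.algebraMap_eq_smul_one]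
    exact B.smul_mem hB c
  star_mem' := fun hx => star_mem (s := B) hx

lemma mem_sub {B : StarSubalgebra ℂ A} {hB : p ∈ B} {x : Cn hp} :
    x ∈ sub hp B hB ↔ x.val ∈ B := Iff.rfl

/-- The normalised trace of the corner. -/
noncomputable def tr (τ : Tr A) (hp : IsStarProjection p) (h0 : τ.n2 p ≠ 0) : Tr (Cn hp) where
  toLin := (((τ.n2 p ^ 2)⁻¹ : ℝ) : ℂ) • (τ.toLin ∘ₗ incl hp)
  map_one' := by
    change (((τ.n2 p ^ 2)⁻¹ : ℝ) : ℂ) * τ p = 1
    have : τ p = ((τ.n2 p ^ 2 : ℝ) : ℂ) := by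
      rw [Complex.ofReal_pow, τ.n2_sq_complex, hp.isSelfAdjoint.star_eq, hp.isIdempotentElem.eq]
    rw [this, ← Complex.ofReal_mul, inv_mul_cancel₀ (pow_ne_zero 2 h0), Complex.ofReal_one]
  tracial' := fun x y => by
    change (((τ.n2 p ^ 2)⁻¹ : ℝ) : ℂ) * τ (x.val * y.val)
      = (((τ.n2 p ^ 2)⁻¹ : ℝ) : ℂ) * τ (y.val * x.val)
    rw [τ.comm]
  pos' := fun x => by
    change 0 ≤ (((τ.n2 p ^ 2)⁻¹ : ℝ) : ℂ) * τ (star x.val * x.val)
    exact mul_nonneg (Complex.zero_le_real.mpr (by positivity)) (τ.pos _)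

lemma tr_n2 (τ : Tr A) (h0 : τ.n2 p ≠ 0) (x : Cn hp) :
    (tr τ hp h0).n2 x = (τ.n2 p)⁻¹ * τ.n2 x.val := by
  have h1 : 0 < τ.n2 p := lt_of_le_of_ne (τ.n2_nonneg p) h0.symm
  have h2 : 0 ≤ (τ.n2 p)⁻¹ * τ.n2 x.val := mul_nonneg (by positivity) (τ.n2_nonneg _)
  refine (pow_left_inj₀ (Tr.n2_nonneg _ _) h2 two_ne_zero).mp ?_
  rw [Tr.n2_sq, mul_pow, τ.n2_sq x.val, inv_pow]
  change ((((τ.n2 p ^ 2)⁻¹ : ℝ) : ℂ) * τ (star x.val * x.val)).re = _
  rw [Complex.re_ofReal_mul]

lemma n2_val (τ : Tr A) (h0 : τ.n2 p ≠ 0) (x : Cn hp) :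
    τ.n2 x.val = τ.n2 p * (tr τ hp h0).n2 x := by
  rw [tr_n2, ← mul_assoc, mul_inv_cancel₀ h0, one_mul]

lemma tr_faithful (τ : Tr A) (hf : τ.Faithful) (h0 : τ.n2 p ≠ 0) : (tr τ hp h0).Faithful := by
  intro x hx
  apply ext
  apply hf
  rw [n2_val τ h0, hx, mul_zero]

lemma tr_isTW (τ : Tr A) (hτ : τ.IsTW) (h0 : τ.n2 p ≠ 0) : (tr τ hp h0).IsTW := by
  have h1 : 0 < τ.n2 p := lt_of_le_of_ne (τ.n2_nonneg p) h0.symm
  -- the inclusion and the compression as Lipschitz maps of `L²` spaces
  let ι : (tr τ hp h0).L2 → τ.L2 := fun x => τ.toL2 ((tr τ hp h0).toL2.symm x).val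
  have hι : LipschitzWith ⟨τ.n2 p, h1.le⟩ ι := LipschitzWith.of_dist_le_mul fun x y => by
    rw [τ.dist_toL2, ← val_sub, n2_val τ h0]
    exact le_of_eq (by rw [← Tr.dist_toL2]; rfl)
  have hc : ∀ x : A, p * (p * x * p) * p = p * x * p := fun x => by
    rw [← mul_assoc, ← mul_assoc, hp.isIdempotentElem.eq, mul_assoc (p * x),
      hp.isIdempotentElem.eq]
  let π : τ.L2 → (tr τ hp h0).L2 := fun x =>
    (tr τ hp h0).toL2 (mk (p * τ.toL2.symm x * p) (hc _))
  have hπ : LipschitzWith ⟨(τ.n2 p)⁻¹ * (‖p‖ * ‖p‖), by positivity⟩ π :=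
    LipschitzWith.of_dist_le_mul fun x y => by
      rw [Tr.dist_toL2, tr_n2, val_sub, val_mk, val_mk, ← sub_mul, ← mul_sub]
      have := avg_n2_sandwich τ p p (τ.toL2.symm x - τ.toL2.symm y)
      rw [← τ.dist_toL2] at this
      change _ ≤ (τ.n2 p)⁻¹ * (‖p‖ * ‖p‖) * dist x y
      rw [mul_assoc (τ.n2 p)⁻¹]
      exact mul_le_mul_of_nonneg_left this (inv_nonneg.mpr h1.le)
  refine ⟨tr_faithful τ hτ.faithful h0, fun x R hR hx => ?_, ?_⟩
  · obtain ⟨y, hy, hlim⟩ := hτ.complete (fun n => (x n).val) R hR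
      (hι.uniformContinuous.comp_cauchySeq hx)
    have hpy : p * y * p = y := by
      rw [← sub_eq_zero]
      apply hτ.faithful
      refine le_antisymm ?_ (τ.n2_nonneg _)
      have h2 : Tendsto (fun n => ‖p‖ * ‖p‖ * τ.n2 ((x n).val - y) + τ.n2 ((x n).val - y)) atTop
          (𝓝 0) := by simpa using (hlim.const_mul (‖p‖ * ‖p‖)).add hlim
      refine ge_of_tendsto' h2 fun n => ?_
      refine (τ.n2_triangle _ (x n).val _).trans (add_le_add_left ?_ _)
      rw [τ.n2_sub_comm]
      conv_lhs => rw [← (x n).prop]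
      rw [← sub_mul, ← mul_sub]
      exact avg_n2_sandwich τ p p _
    refine ⟨mk y hpy, hy, ?_⟩
    simp only [tr_n2, val_sub, val_mk]
    simpa using hlim.const_mul (τ.n2 p)⁻¹
  · have := hτ.sep
    refine DenseRange.separableSpace (f := π) (Function.Surjective.denseRange fun x => ?_)
      hπ.continuous
    refine ⟨ι x, ?_⟩
    exact ext ((tr τ hp h0).toL2.symm x).prop

lemma sub_wclosed (τ : Tr A) (h0 : τ.n2 p ≠ 0) (B : StarSubalgebra ℂ A) (hB : p ∈ B)
    (hw : τ.WClosed (B : Set A)) : (tr τ hp h0).WClosed (sub hp B hB : Set (Cn hp)) := by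
  intro x R y hx hR hlim
  refine hw (fun n => (x n).val) R y.val hx hR ?_
  simp only [← val_sub, n2_val τ h0]
  simpa using hlim.const_mul (τ.n2 p)

end Cn

end corner

theorem amt_corner (τ : Tr A) (hτ : τ.IsTW) (P : StarSubalgebra ℂ A) (hP : IsClosed (P : Set A))
    (hirr : Irred (P : Set A)) (hinf : ¬ FiniteDimensional ℂ A)
    (p : A) (hp : IsStarProjection p) (hp0 : p ≠ 0) (hpP : p ∈ P) :
    ∃ u : A, p * u * p = u ∧ star u * u = p ∧ u * star u = p ∧
      ∀ B : StarSubalgebra ℂ A, τ.WClosed (B : Set A) → P ≤ B → u ∈ B → B = ⊤ := by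
  have h0 : τ.n2 p ≠ 0 := fun h => hp0 (hτ.faithful p h)
  have hpp : p * p = p := hp.isIdempotentElem
  have hps : star p = p := hp.isSelfAdjoint.star_eq
  have htp : τ p ≠ 0 := by
    have : τ p = ((τ.n2 p : ℂ)) ^ 2 := by rw [τ.n2_sq_complex, hps, hpp]
    rw [this]
    exact pow_ne_zero 2 (Complex.ofReal_ne_zero.mpr h0)
  have hc : ∀ x : A, p * (p * x * p) * p = p * x * p := fun x => by
    rw [← mul_assoc, ← mul_assoc, hpp, mul_assoc (p * x), hpp]
  have hav := av_of_irred τ hτ.faithful hτ.complete P hP hirr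
  have havU : AV τ (Set.univ : Set A) := by
    intro F η hη
    obtain ⟨μ, hμ, h⟩ := hav F η hη
    exact ⟨μ, hμ.mono fun v hv => ⟨trivial, hv.2⟩, h⟩
  let σ := Cn.tr τ hp h0
  have hσ : σ.IsTW := Cn.tr_isTW τ hτ h0
  let Q := Cn.sub hp P hpP
  have hQ : IsClosed (Q : Set (Cn hp)) := hP.preimage Cn.continuous_val
  have hQirr : Irred (Q : Set (Cn hp)) := by
    intro T hT
    have key := hav.sandwich hτ.faithful T.val p p p p T.val fun v hv _ => by
      have hv' : v ∈ P := hv
      have h1 := congrArg Cn.val (hT (Cn.mk (p * v * p) (hc v)) (mul_mem (mul_mem hpP hv') hpP))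
      simp only [Cn.val_mul, Cn.val_mk] at h1
      calc T.val * (v * p * star v) * p = (T.val * p) * v * p * (star v * p) := by
            rw [T.mul_p]; simp only [mul_assoc]
        _ = (T.val * (p * v * p)) * (star v * p) := by simp only [mul_assoc]
        _ = p * v * (p * T.val) * (star v * p) := by rw [h1]; simp only [mul_assoc]
        _ = _ := by rw [T.p_mul]; simp only [mul_assoc]
    rw [T.mul_p, hpp] at key
    refine ⟨(τ p)⁻¹ * τ T.val, Cn.ext ?_⟩
    rw [Cn.val_smul, Cn.val_one, mul_smul, ← key, smul_smul, inv_mul_cancel₀ htp, one_smul]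
  have hCinf : ¬ FiniteDimensional ℂ (Cn hp) := fun h =>
    hinf (finiteDimensional_of_corner τ hτ.faithful havU p hp hp0 (LinearMap.range (Cn.incl hp))
      (fun x => ⟨Cn.mk (p * x * p) (hc x), rfl⟩) inferInstance)
  have hQinf : ¬ FiniteDimensional ℂ Q := fun h =>
    hCinf (finiteDimensional_of_irred σ hσ.faithful Q hQirr h)
  obtain ⟨u, hu, -, hgen⟩ := amt σ hσ Q hQ hQirr hQinf 1 (one_mem _) 1 one_pos
  refine ⟨u.val, u.prop, congrArg Cn.val (Unitary.star_mul_self_of_mem hu),
    congrArg Cn.val (Unitary.mul_star_self_of_mem hu), fun B hB hPB huB => ?_⟩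
  have hpB : p ∈ B := hPB hpP
  have h1 := hgen (Cn.sub hp B hpB) (Cn.sub_wclosed τ h0 B hpB hB) (fun x hx => hPB hx) huB
  have h2 : ∀ x : A, p * x * p ∈ B := fun x => by
    have : Cn.mk (p * x * p) (hc x) ∈ Cn.sub hp B hpB := by rw [h1]; trivial
    exact this
  have hcancel : ∀ y : A, τ p • y ∈ B → y ∈ B := fun y hy => by
    have := B.smul_mem hy (τ p)⁻¹
    rwa [smul_smul, inv_mul_cancel₀ htp, one_smul] at this
  have h3 : ∀ y : A, y * p ∈ B := fun y => by
    apply hcancel
    have := hav.mem_of_wclosed B hB 1 (y * p) p fun v hv _ => by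
      have e : 1 * (v * p * star v) * (y * p) = v * (p * (star v * y) * p) := by
        simp only [mul_assoc, one_mul]
      rw [e]
      exact mul_mem (hPB hv) (h2 _)
    rwa [one_mul] at this
  rw [eq_top_iff]
  intro y _
  apply hcancel
  have := hav.mem_of_wclosed B hB y 1 p fun v hv _ => by
    have e : y * (v * p * star v) * 1 = (y * v * p) * star v := by
      simp only [mul_assoc, mul_one]
    rw [e]
    exact mul_mem (h3 _) (star_mem (hPB hv))
  rwa [mul_one] at this

end Crest.Agent.R095
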