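import Crest.Agent.R095.Basic

/-! Row 95: calculus of a free Haar unitary. -/

set_option autoImplicit false

open Filter Topology
open scoped ComplexOrder InnerProductSpace ComplexConjugate

namespace Crest.Agent.R095

variable {A : Type*} [CStarAlgebra A]

theorem Red.mono {τ : Tr A} {S T : Set A} {b : A} {e : Bool} {w : A} (h : Red τ S b e w)
    (hST : S ⊆ T) : Red τ T b e w := by
  induction h with
  | last e x hx => exact Red.last e x (hST hx)
  | cons e e' x w hx hc _ ih => exact Red.cons e e' x w (hST hx) hc ih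

theorem Free.mono {τ : Tr A} {S T : Set A} {b : A} (h : Free τ T b) (hST : S ⊆ T) :
    Free τ S b :=
  ⟨h.1, fun e w hw => h.2 e w (hw.mono hST)⟩

/-- Reduced words over `S` are stable under right multiplication, landing in words over `T`. -/
theorem Red.mul_right' {τ : Tr A} {S : Set A} {T : StarSubalgebra ℂ A} {b : A} {e : Bool} {w : A}
    (h : Red τ S b e w) (hST : S ⊆ T) {y : A} (hy : y ∈ T) : Red τ (T : Set A) b e (w * y) := by
  induction h with
  | last e x hx => rw [mul_assoc]; exact Red.last e _ (mul_mem (hST hx) hy)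
  | cons e e' x w hx hc _ ih => rw [mul_assoc]; exact Red.cons e e' x _ (hST hx) hc ih

theorem Red.mul_right {τ : Tr A} {S : StarSubalgebra ℂ A} {b : A} {e : Bool} {w : A}
    (h : Red τ (S : Set A) b e w) {y : A} (hy : y ∈ S) : Red τ (S : Set A) b e (w * y) :=
  h.mul_right' subset_rfl hy

theorem Free.tr_mul {τ : Tr A} {S : StarSubalgebra ℂ A} {b : A} (hb : Free τ (S : Set A) b)
    {e : Bool} {w : A} (h : Red τ (S : Set A) b e w) {y : A} (hy : y ∈ S) : τ (y * w) = 0 := by
  rw [τ.comm]; exact hb.2 e _ (h.mul_right hy)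

lemma lt_mem {T : StarSubalgebra ℂ A} {b : A} (hb : b ∈ T) (e : Bool) : lt b e ∈ T := by
  cases e
  · exact star_mem hb
  · exact hb

theorem Red.mem {τ : Tr A} {S : Set A} {T : StarSubalgebra ℂ A} {b : A} {e : Bool} {w : A}
    (h : Red τ S b e w) (hST : S ⊆ T) (hb : b ∈ T) : w ∈ T := by
  induction h with
  | last e x hx => exact mul_mem (lt_mem hb e) (hST hx)
  | cons e e' x w hx _ _ ih => exact mul_mem (mul_mem (lt_mem hb e) (hST hx)) ih

lemma lt_mul_lt {b : A} (hb : b ∈ unitary A) {e e' : Bool} (h : e ≠ e') :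
    lt b e * lt b e' = 1 := by
  cases e <;> cases e'
  · exact absurd rfl h
  · exact Unitary.star_mul_self_of_mem hb
  · exact Unitary.mul_star_self_of_mem hb
  · exact absurd rfl h

theorem Free.unitary_mul {τ : Tr A} {S : StarSubalgebra ℂ A} {c d : A}
    (hc : Free τ (S : Set A) c) (hd : d ∈ S) (hdu : d ∈ unitary A) :
    Free τ (S : Set A) (d * c) := by
  refine ⟨mul_mem hdu hc.1, fun e w hw => ?_⟩
  have key : (e = true → ∃ w', Red τ (S : Set A) c true w' ∧ w = d * w') ∧
      (e = false → Red τ (S : Set A) c false w) := by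
    induction hw with
    | last e x hx =>
      refine ⟨?_, ?_⟩
      · rintro rfl
        exact ⟨_, Red.last true x hx, by simp [mul_assoc]⟩
      · rintro rfl
        have := Red.last (τ := τ) (S := (S : Set A)) (b := c) false (star d * x)
          (mul_mem (star_mem hd) hx)
        simpa [mul_assoc] using this
    | cons e e' x w hx hxc _ ih =>
      refine ⟨?_, ?_⟩
      · rintro rfl
        cases e'
        · exact ⟨_, Red.cons true false x w hx hxc (ih.2 rfl), by simp [mul_assoc]⟩
        · obtain ⟨w', hw', rfl⟩ := ih.1 rfl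
          exact ⟨_, Red.cons true true (x * d) w' (mul_mem hx hd) (fun h => absurd rfl h) hw',
            by simp [mul_assoc]⟩
      · rintro rfl
        cases e'
        · have := Red.cons false false (star d * x) w (mul_mem (star_mem hd) hx)
            (fun h => absurd rfl h) (ih.2 rfl)
          simpa [mul_assoc] using this
        · obtain ⟨w', hw', rfl⟩ := ih.1 rfl
          have := Red.cons false true (star d * x * d) w'
            (mul_mem (mul_mem (star_mem hd) hx) hd)
            (fun h => by rw [τ.conj_unitary' hdu]; exact hxc h) hw'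
          simpa [mul_assoc] using this
  cases e
  · exact hc.2 _ _ (key.2 rfl)
  · obtain ⟨w', hw', rfl⟩ := key.1 rfl
    exact hc.tr_mul hw' hd

lemma center_mem {τ : Tr A} {S : StarSubalgebra ℂ A} {x : A} (hx : x ∈ S) :
    x - τ x • (1 : A) ∈ S := sub_mem hx (S.smul_mem (one_mem S) _)

lemma tr_center (τ : Tr A) (x : A) : τ (x - τ x • (1 : A)) = 0 := by simp

/-- The words `y * w` with `y ∈ S` and `w` reduced. -/
def Words (τ : Tr A) (S : Set A) (b : A) : Set A :=
  {z | ∃ y ∈ S, ∃ e w, Red τ S b e w ∧ z = y * w}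

/-- A subspace stable under left multiplication by a generating set is stable under the
generated algebra. -/
lemma adjoin_mul_mem {G : Set A} (V : Submodule ℂ A)
    (hG : ∀ g ∈ G, (∀ z ∈ V, g * z ∈ V) ∧ ∀ z ∈ V, star g * z ∈ V) {x : A}
    (hx : x ∈ StarAlgebra.adjoin ℂ G) : ∀ z ∈ V, x * z ∈ V := by
  have hx' : x ∈ Algebra.adjoin ℂ (G ∪ star G) := by
    rw [← StarAlgebra.adjoin_toSubalgebra]; exact hx
  clear hx
  induction hx' using Algebra.adjoin_induction with
  | mem x hx =>
    rcases hx with hx | hx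
    · exact (hG x hx).1
    · have := (hG (star x) hx).2
      rwa [star_star] at this
  | algebraMap r =>
    intro z hz
    rw [← Algebra.smul_def]
    exact V.smul_mem r hz
  | add x y _ _ hx hy => intro z hz; rw [add_mul]; exact V.add_mem (hx z hz) (hy z hz)
  | mul x y _ _ hx hy => intro z hz; rw [mul_assoc]; exact hx _ (hy z hz)

lemma span_mul_mem {G : Set A} {V : Submodule ℂ A} {g : A} (h : ∀ z ∈ G, g * z ∈ V) :
    ∀ z ∈ Submodule.span ℂ G, g * z ∈ V := by
  intro z hz
  induction hz using Submodule.span_induction with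
  | mem z hz => exact h z hz
  | zero => simp
  | add x y _ _ hx hy => rw [mul_add]; exact V.add_mem hx hy
  | smul c x _ hx => rw [mul_smul_comm]; exact V.smul_mem c hx

lemma tr_span_eq_zero (τ : Tr A) {G : Set A} (h : ∀ z ∈ G, τ z = 0) :
    ∀ z ∈ Submodule.span ℂ G, τ z = 0 := by
  intro z hz
  induction hz using Submodule.span_induction with
  | mem z hz => exact h z hz
  | zero => simp
  | add x y _ _ hx hy => simp [hx, hy]
  | smul c x _ hx => simp [hx]

/-- The algebra generated by `S` and a unitary is spanned by `S` and the reduced words. -/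
theorem adjoin_le_span (τ : Tr A) (S : StarSubalgebra ℂ A) {b : A} (hb : b ∈ unitary A) {x : A}
    (hx : x ∈ StarAlgebra.adjoin ℂ ((S : Set A) ∪ {b})) :
    x ∈ Submodule.span ℂ ((S : Set A) ∪ Words τ S b) := by
  set V := Submodule.span ℂ ((S : Set A) ∪ Words τ S b) with hV
  have hS : ∀ y ∈ S, y ∈ V := fun y hy => Submodule.subset_span (Or.inl hy)
  have hW : ∀ y ∈ S, ∀ e w, Red τ (S : Set A) b e w → y * w ∈ V :=
    fun y hy e w hw => Submodule.subset_span (Or.inr ⟨y, hy, e, w, hw, rfl⟩)
  have hR : ∀ e w, Red τ (S : Set A) b e w → w ∈ V := fun e w hw => by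
    simpa using hW 1 (one_mem S) e w hw
  have h1 : ∀ g ∈ S, ∀ z ∈ V, g * z ∈ V := by
    intro g hg
    refine span_mul_mem ?_
    rintro z (hz | ⟨y, hy, e, w, hw, rfl⟩)
    · exact hS _ (mul_mem hg hz)
    · rw [← mul_assoc]; exact hW _ (mul_mem hg hy) e w hw
  have h2 : ∀ e, ∀ z ∈ V, lt b e * z ∈ V := by
    intro e
    refine span_mul_mem ?_
    rintro z (hz | ⟨y, hy, e', w, hw, rfl⟩)
    · exact hR _ _ (Red.last e z hz)
    · by_cases hee : e = e'
      · rw [← mul_assoc]
        exact hR _ _ (Red.cons e e' y w hy (fun h => absurd hee h) hw)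
      · have e1 : lt b e * (y * w) = lt b e * (y - τ y • (1 : A)) * w + τ y • (lt b e * w) := by
          simp only [mul_sub, sub_mul, mul_smul_comm, smul_mul_assoc, mul_one, mul_assoc]
          abel
        rw [e1]
        refine V.add_mem (hR _ _ (Red.cons e e' _ w (center_mem hy) (fun _ => tr_center τ y) hw))
          (V.smul_mem _ ?_)
        cases hw with
        | last _ x hx => rw [← mul_assoc, lt_mul_lt hb hee, one_mul]; exact hS x hx
        | cons _ e'' x w hx _ hw =>
          rw [← mul_assoc, ← mul_assoc, lt_mul_lt hb hee, one_mul]; exact hW x hx e'' w hw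
  have := adjoin_mul_mem V (G := (S : Set A) ∪ {b}) ?_ hx 1 (hS 1 (one_mem S))
  · simpa using this
  · rintro g (hg | rfl)
    · exact ⟨h1 g hg, h1 _ (star_mem hg)⟩
    · exact ⟨h2 true, h2 false⟩

theorem adjoin_decomp (τ : Tr A) (S : StarSubalgebra ℂ A) {b : A} (hb : b ∈ unitary A) {x : A}
    (hx : x ∈ StarAlgebra.adjoin ℂ ((S : Set A) ∪ {b})) :
    ∃ s ∈ S, ∃ r ∈ Submodule.span ℂ (Words τ S b), x = s + r := by
  have h := adjoin_le_span τ S hb hx
  rw [Submodule.span_union, Submodule.mem_sup] at h
  obtain ⟨s, hs, r, hr, rfl⟩ := h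
  refine ⟨s, ?_, r, hr, rfl⟩
  have : Submodule.span ℂ (S : Set A) ≤ Subalgebra.toSubmodule S.toSubalgebra :=
    Submodule.span_le.2 fun y hy => hy
  exact this hs

/-- Concatenation of reduced words through a middle factor orthogonal to `S`. -/
theorem Red.concat {τ : Tr A} {S : Set A} {T : StarSubalgebra ℂ A} {c : A} {e e' : Bool}
    {q q' w : A} (h : Red τ S c e q) (hST : S ⊆ T) (hw : w ∈ T) (hw0 : ∀ x ∈ S, τ (x * w) = 0)
    (hq' : Red τ (T : Set A) c e' q') : Red τ (T : Set A) c e (q * w * q') := by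
  induction h with
  | last e x hx =>
    have := Red.cons e e' (x * w) q' (mul_mem (hST hx) hw) (fun _ => hw0 x hx) hq'
    simpa only [mul_assoc] using this
  | cons e e'' x q hx hc _ ih =>
    have := Red.cons e e'' x _ (hST hx) hc ih
    simpa only [mul_assoc] using this

theorem Free.swap {τ : Tr A} {S : StarSubalgebra ℂ A} {b c : A} (hb : Free τ (S : Set A) b)
    (hc : Free τ (StarAlgebra.adjoin ℂ ((S : Set A) ∪ {b}) : Set A) c) :
    Free τ (StarAlgebra.adjoin ℂ ((S : Set A) ∪ {c}) : Set A) b := by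
  set T := StarAlgebra.adjoin ℂ ((S : Set A) ∪ {b}) with hT
  have hST : (S : Set A) ⊆ T := fun y hy => StarAlgebra.subset_adjoin ℂ _ (Or.inl hy)
  have hbT : b ∈ T := StarAlgebra.subset_adjoin ℂ _ (Or.inr rfl)
  have hcS : Free τ (S : Set A) c := hc.mono hST
  let NF : Bool → Set A := fun e => {w | Red τ (S : Set A) b e w} ∪
    {z | ∃ w e' q, Red τ (S : Set A) b e w ∧ Red τ (T : Set A) c e' q ∧ z = w * q}
  have hNF : ∀ e, ∀ z ∈ NF e, τ z = 0 := by
    rintro e z (hz | ⟨w, e', q, hw, hq, rfl⟩)
    · exact hb.2 e z hz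
    · exact hc.tr_mul hq (hw.mem hST hbT)
  have n1 : ∀ e w, Red τ (S : Set A) b e w → w ∈ Submodule.span ℂ (NF e) :=
    fun e w hw => Submodule.subset_span (Or.inl hw)
  have n2 : ∀ e w e' q, Red τ (S : Set A) b e w → Red τ (T : Set A) c e' q →
      w * q ∈ Submodule.span ℂ (NF e) :=
    fun e w e' q hw hq => Submodule.subset_span (Or.inr ⟨w, e', q, hw, hq, rfl⟩)
  have hr0 : ∀ r ∈ Submodule.span ℂ (Words τ S c), τ r = 0 := by
    refine tr_span_eq_zero τ ?_
    rintro z ⟨y, hy, e, w, hw, rfl⟩
    exact hcS.tr_mul hw hy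
  refine ⟨hb.1, fun e w hw => tr_span_eq_zero τ (hNF e) w ?_⟩
  induction hw with
  | last e x hx =>
    obtain ⟨s, hs, r, hr, rfl⟩ := adjoin_decomp τ S hc.1 hx
    rw [mul_add]
    refine add_mem (n1 _ _ (Red.last e s hs)) (span_mul_mem ?_ r hr)
    rintro z ⟨y, hy, e', q, hq, rfl⟩
    rw [← mul_assoc]
    exact n2 _ _ _ _ (Red.last e y hy) (hq.mono hST)
  | cons e e' x w hx hxc _ ih =>
    obtain ⟨s, hs, r, hr, rfl⟩ := adjoin_decomp τ S hc.1 hx
    have hs0 : e ≠ e' → τ s = 0 := fun h => by
      have := hxc h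
      rwa [τ.map_add, hr0 r hr, add_zero] at this
    rw [mul_add, add_mul]
    refine add_mem (span_mul_mem ?_ w ih) ?_
    · rintro z (hz | ⟨w', e'', q, hw', hq, rfl⟩)
      · exact n1 _ _ (Red.cons e e' s z hs hs0 hz)
      · rw [← mul_assoc]
        exact n2 _ _ _ _ (Red.cons e e' s w' hs hs0 hw') hq
    · have : ∀ r ∈ Submodule.span ℂ (Words τ S c),
          lt b e * r * w ∈ Submodule.span ℂ (NF e) := by
        intro r hr
        induction hr using Submodule.span_induction with
        | mem r hr =>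
          obtain ⟨y, hy, e₁, q, hq, rfl⟩ := hr
          refine span_mul_mem ?_ w ih
          rintro z (hz | ⟨w', e'', q', hw', hq', rfl⟩)
          · have := n2 _ _ _ _ (Red.last e y hy) (hq.mul_right' hST (Red.mem hz hST hbT))
            simpa only [mul_assoc] using this
          · have := n2 _ _ _ _ (Red.last e y hy)
              (hq.concat hST (hw'.mem hST hbT) (fun x hx => hb.tr_mul hw' hx) hq')
            simpa only [mul_assoc] using this
        | zero => simp
        | add x y _ _ hx hy => rw [mul_add, add_mul]; exact add_mem hx hy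
        | smul a x _ hx => rw [mul_smul_comm, smul_mul_assoc]; exact Submodule.smul_mem _ a hx
      exact this r hr

/-- Alternating words `b⋆ y₁ b x₁ b⋆ y₂ b x₂ ⋯` with centred inner coefficients. -/
inductive Alt (τ : Tr A) (S : Set A) (b : A) : A → Prop
  | last (y x : A) (hy : y ∈ S) (hy0 : τ y = 0) (hx : x ∈ S) : Alt τ S b (star b * y * (b * x))
  | cons (y x w : A) (hy : y ∈ S) (hy0 : τ y = 0) (hx : x ∈ S) (hx0 : τ x = 0)
      (hw : Alt τ S b w) : Alt τ S b (star b * y * (b * x * w))

theorem Alt.red {τ : Tr A} {S : Set A} {b w : A} (h : Alt τ S b w) : Red τ S b false w := by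
  induction h with
  | last y x hy hy0 hx => exact Red.cons false true y _ hy (fun _ => hy0) (Red.last true x hx)
  | cons y x w hy hy0 hx hx0 _ ih =>
    exact Red.cons false true y _ hy (fun _ => hy0) (Red.cons true false x w hx (fun _ => hx0) ih)

theorem Free.conj_orth {τ : Tr A} {S : StarSubalgebra ℂ A} {b : A} (hb : Free τ (S : Set A) b)
    {Y : A} (hY : Y ∈ S) (hY0 : τ Y = 0) {D : A}
    (hD : D ∈ (StarAlgebra.adjoin ℂ
      ((S : Set A) ∪ (fun y => star b * y * b) '' (S : Set A))).topologicalClosure) :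
    τ (b * Y * star b * D) = 0 := by
  have hbb : star b * b = 1 := Unitary.star_mul_self_of_mem hb.1
  have hbb' : b * star b = 1 := Unitary.mul_star_self_of_mem hb.1
  set V := Submodule.span ℂ ((S : Set A) ∪ {z | ∃ x ∈ S, ∃ w, Alt τ (S : Set A) b w ∧ z = x * w})
    with hV
  have hS : ∀ y ∈ S, y ∈ V := fun y hy => Submodule.subset_span (Or.inl hy)
  have hW : ∀ y ∈ S, ∀ w, Alt τ (S : Set A) b w → y * w ∈ V :=
    fun y hy w hw => Submodule.subset_span (Or.inr ⟨y, hy, w, hw, rfl⟩)
  have hR : ∀ w, Alt τ (S : Set A) b w → w ∈ V := fun w hw => by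
    simpa using hW 1 (one_mem S) w hw
  have h1 : ∀ g ∈ S, ∀ z ∈ V, g * z ∈ V := by
    intro g hg
    refine span_mul_mem ?_
    rintro z (hz | ⟨y, hy, w, hw, rfl⟩)
    · exact hS _ (mul_mem hg hz)
    · rw [← mul_assoc]; exact hW _ (mul_mem hg hy) w hw
  have split : ∀ g z : A,
      star b * g * (b * z) = star b * (g - τ g • (1 : A)) * (b * z) + τ g • z := by
    intro g z
    have : star b * (b * z) = z := by rw [← mul_assoc, hbb, one_mul]
    simp only [mul_sub, sub_mul, mul_smul_comm, smul_mul_assoc, mul_one, this]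
    abel
  have h2 : ∀ g ∈ S, ∀ z ∈ V, star b * g * b * z ∈ V := by
    intro g hg z hz
    rw [mul_assoc, split]
    refine V.add_mem ?_ (V.smul_mem _ hz)
    rw [← mul_assoc]
    set g' := g - τ g • (1 : A) with hg'
    have hg'S : g' ∈ S := center_mem hg
    have hg'0 : τ g' = 0 := tr_center τ g
    refine span_mul_mem ?_ z hz
    rintro z (hz | ⟨x, hx, w, hw, rfl⟩)
    · rw [mul_assoc]; exact hR _ (Alt.last g' z hg'S hg'0 hz)
    · have e1 : star b * g' * b * (x * w)
          = star b * g' * (b * (x - τ x • (1 : A)) * w) + τ x • (star b * g' * (b * w)) := by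
        simp only [mul_sub, sub_mul, mul_smul_comm, smul_mul_assoc, mul_one, mul_assoc]
        abel
      rw [e1]
      refine V.add_mem (hR _ (Alt.cons g' _ w hg'S hg'0 (center_mem hx) (tr_center τ x) hw))
        (V.smul_mem _ ?_)
      cases hw with
      | last y x' hy hy0 hx' =>
        have e2 : star b * g' * (b * (star b * y * (b * x'))) = star b * (g' * y) * (b * x') := by
          simp only [mul_assoc]; rw [← mul_assoc b (star b), hbb', one_mul]
        rw [e2, split]
        exact V.add_mem (hR _ (Alt.last _ x' (center_mem (mul_mem hg'S hy)) (tr_center τ _) hx'))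
          (V.smul_mem _ (hS _ hx'))
      | cons y x' w' hy hy0 hx' hx0 hw' =>
        have e2 : star b * g' * (b * (star b * y * (b * x' * w')))
            = star b * (g' * y) * (b * (x' * w')) := by
          simp only [mul_assoc]; rw [← mul_assoc b (star b), hbb', one_mul]
        rw [e2, split]
        refine V.add_mem ?_ (V.smul_mem _ (hW _ hx' _ hw'))
        rw [← mul_assoc b]
        exact hR _ (Alt.cons _ x' w' (center_mem (mul_mem hg'S hy)) (tr_center τ _) hx' hx0 hw')
  have h3 : ∀ z ∈ V, τ (b * Y * star b * z) = 0 := by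
    intro z hz
    induction hz using Submodule.span_induction with
    | mem z hz =>
      rcases hz with hz | ⟨x, hx, w, hw, rfl⟩
      · have := hb.2 _ _ (Red.cons true false Y _ hY (fun _ => hY0) (Red.last false z hz))
        simpa only [mul_assoc, lt_true, lt_false] using this
      · have := hb.2 _ _ (Red.cons true false Y _ hY (fun _ => hY0)
          (Red.cons false false x w hx (fun h => absurd rfl h) hw.red))
        simpa only [mul_assoc, lt_true, lt_false] using this
    | zero => simp
    | add x y _ _ hx hy => simp [mul_add, hx, hy]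
    | smul c x _ hx => simp [hx]
  have h4 : ∀ D ∈ StarAlgebra.adjoin ℂ ((S : Set A) ∪ (fun y => star b * y * b) '' (S : Set A)),
      τ (b * Y * star b * D) = 0 := by
    intro D hD
    refine h3 D ?_
    have := adjoin_mul_mem V ?_ hD 1 (hS 1 (one_mem S))
    · simpa using this
    · rintro g (hg | ⟨y, hy, rfl⟩)
      · exact ⟨h1 g hg, h1 _ (star_mem hg)⟩
      · refine ⟨h2 y hy, ?_⟩
        have := h2 (star y) (star_mem hy)
        simpa only [star_mul, star_star, mul_assoc] using this
  have hcl : IsClosed {D : A | τ (b * Y * star b * D) = 0} :=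
    isClosed_eq (τ.continuous.comp (continuous_const.mul continuous_id)) continuous_const
  exact closure_minimal h4 hcl hD

end Crest.Agent.R095
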