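import Crest.Agent.R095.Avg

/-! Row 95: an irreducible triple `h, p, v` with `h` diagonal and `v` off-diagonal. -/

set_option autoImplicit false

open Filter Topology
open scoped ComplexOrder InnerProductSpace ComplexConjugate

namespace Crest.Agent.R095

variable {A : Type*} [CStarAlgebra A]

/-- A Bessel-type obstruction: too many almost orthogonal vectors correlate with `x`. -/
lemma irr_bessel {E : Type*} [SeminormedAddCommGroup E] [InnerProductSpace ℂ E] (x : E)
    (R e : ℝ) (he : 0 < e) : ∃ n : ℕ, ∃ k : ℝ, 0 < k ∧ ∀ z : Fin n → E, (∀ j, ‖z j‖ ≤ R) →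
      (∀ i j, i ≠ j → (⟪z i, z j⟫_ℂ).re ≤ k) → (∀ j, e ≤ (⟪x, z j⟫_ℂ).re) → False := by
  obtain ⟨n, hn⟩ := exists_nat_gt (2 * ‖x‖ ^ 2 * R ^ 2 / e ^ 2)
  have hn0 : (0 : ℝ) < n := lt_of_le_of_lt (by positivity) hn
  set k : ℝ := e ^ 2 / (2 * (‖x‖ ^ 2 + 1)) with hk
  have hk0 : 0 < k := by positivity
  refine ⟨n, k, hk0, fun z hR hzz hx => ?_⟩
  set w : E := ∑ j, z j with hw
  have h1 : (n : ℝ) * e ≤ ‖x‖ * ‖w‖ := by
    have : (⟪x, w⟫_ℂ).re = ∑ j, (⟪x, z j⟫_ℂ).re := by
      rw [hw, inner_sum, Complex.re_sum]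
    have h2 : (n : ℝ) * e ≤ (⟪x, w⟫_ℂ).re := by
      rw [this]
      calc (n : ℝ) * e = ∑ _j : Fin n, e := by simp
        _ ≤ _ := Finset.sum_le_sum fun j _ => hx j
    exact h2.trans ((Complex.re_le_norm _).trans (norm_inner_le_norm _ _))
  have h2 : ‖w‖ ^ 2 ≤ n * R ^ 2 + n ^ 2 * k := by
    have e1 : ‖w‖ ^ 2 = ∑ i, ∑ j, (⟪z i, z j⟫_ℂ).re := by
      rw [← @inner_self_eq_norm_sq ℂ, hw, sum_inner]
      simp only [inner_sum, RCLike.re_to_complex, Complex.re_sum]
    rw [e1]
    have h3 : ∀ i, ∑ j, (⟪z i, z j⟫_ℂ).re ≤ R ^ 2 + n * k := by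
      intro i
      have : ∀ j, (⟪z i, z j⟫_ℂ).re ≤ (if j = i then R ^ 2 else 0) + k := by
        intro j
        by_cases hj : j = i
        · subst hj
          have h4 := @inner_self_eq_norm_sq ℂ _ _ _ _ (z j)
          rw [RCLike.re_to_complex] at h4
          rw [h4, if_pos rfl]
          have := pow_le_pow_left₀ (norm_nonneg _) (hR j) 2
          linarith
        · rw [if_neg hj, zero_add]; exact hzz i j (Ne.symm hj)
      calc ∑ j, (⟪z i, z j⟫_ℂ).re ≤ ∑ j, ((if j = i then R ^ 2 else 0) + k) :=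
            Finset.sum_le_sum fun j _ => this j
        _ = R ^ 2 + n * k := by simp [Finset.sum_add_distrib]
    calc ∑ i, ∑ j, (⟪z i, z j⟫_ℂ).re ≤ ∑ _i : Fin n, (R ^ 2 + n * k) :=
          Finset.sum_le_sum fun i _ => h3 i
      _ = n * R ^ 2 + n ^ 2 * k := by simp; ring
  have h3 : ((n : ℝ) * e) ^ 2 ≤ ‖x‖ ^ 2 * (n * R ^ 2 + n ^ 2 * k) := by
    calc ((n : ℝ) * e) ^ 2 ≤ (‖x‖ * ‖w‖) ^ 2 := pow_le_pow_left₀ (by positivity) h1 2
      _ = ‖x‖ ^ 2 * ‖w‖ ^ 2 := by ring
      _ ≤ _ := mul_le_mul_of_nonneg_left h2 (by positivity)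
  have h4 : 2 * ‖x‖ ^ 2 * R ^ 2 < n * e ^ 2 := by
    rwa [div_lt_iff₀ (by positivity)] at hn
  have h5 : ‖x‖ ^ 2 * k ≤ e ^ 2 / 2 := by
    rw [hk, mul_div_assoc', div_le_div_iff₀ (by positivity) (by positivity)]
    nlinarith [sq_nonneg e, sq_nonneg ‖x‖]
  have h6 : ‖x‖ ^ 2 * (n * R ^ 2 + n ^ 2 * k) < ((n : ℝ) * e) ^ 2 := by
    have a1 : ‖x‖ ^ 2 * (n * R ^ 2) < n * (n * e ^ 2) / 2 := by nlinarith
    have a2 : ‖x‖ ^ 2 * (n ^ 2 * k) ≤ n ^ 2 * (e ^ 2 / 2) := by nlinarith [sq_nonneg (n : ℝ)]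
    nlinarith
  linarith

/-- Generic Baire argument along short segments. -/
lemma irr_baire {E : Type*} [NormedAddCommGroup E] [NormedSpace ℝ E] [CompleteSpace E]
    {ι W : Type*} [Countable ι] (N : E → W → ℝ) (Bad : ι → W → Prop) (d : ι → E)
    (hLip : ∀ i e e' w, Bad i w → N e w ≤ N e' w + 2 * ‖e - e'‖)
    (hdense : ∀ i, ∃ n : ℕ, ∀ e, ∀ s : ℝ, 0 < s → ∃ δ : ℝ, 0 < δ ∧ ∀ w : Fin n → W,
      (∀ j, Bad i (w j) ∧ N (e + (((j : ℕ) : ℝ) * s) • d i) (w j) < δ) → False) :
    ∃ e, ∀ i, ∃ δ : ℝ, 0 < δ ∧ ∀ w, Bad i w → δ ≤ N e w := by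
  let O : ι → Set E := fun i => {e | ∃ δ : ℝ, 0 < δ ∧ ∀ w, Bad i w → δ ≤ N e w}
  have ho : ∀ i, IsOpen (O i) := by
    intro i
    rw [Metric.isOpen_iff]
    rintro e ⟨δ, hδ, h⟩
    refine ⟨δ / 4, by positivity, fun e' he' => ⟨δ / 2, by positivity, fun w hw => ?_⟩⟩
    rw [Metric.mem_ball, dist_comm, dist_eq_norm] at he'
    have h1 := hLip i e e' w hw
    have h2 := h w hw
    linarith
  have hd : ∀ i, Dense (O i) := by
    intro i
    rw [Metric.dense_iff]
    intro e ε hε
    obtain ⟨n, hn⟩ := hdense i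
    set s : ℝ := ε / ((n + 1) * (‖d i‖ + 1)) with hs
    have hs0 : 0 < s := by positivity
    obtain ⟨δ, hδ, h⟩ := hn e s hs0
    by_contra hcon
    rw [Set.not_nonempty_iff_eq_empty] at hcon
    have : ∀ j : Fin n, ∃ w, Bad i w ∧ N (e + (((j : ℕ) : ℝ) * s) • d i) w < δ := by
      intro j
      by_contra hj
      push Not at hj
      have hmem : e + (((j : ℕ) : ℝ) * s) • d i ∈ Metric.ball e ε ∩ O i := by
        refine ⟨?_, δ, hδ, hj⟩
        rw [Metric.mem_ball, dist_eq_norm, add_sub_cancel_left, norm_smul,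
          Real.norm_of_nonneg (by positivity)]
        have hj' : ((j : ℕ) : ℝ) < n + 1 := by
          have : ((j : ℕ) : ℝ) < n := by exact_mod_cast j.2
          linarith
        have e1 : ε = s * ((n + 1) * (‖d i‖ + 1)) := by rw [hs]; field_simp
        rw [e1]
        have a1 : ((j : ℕ) : ℝ) * ‖d i‖ < (n + 1) * (‖d i‖ + 1) := by
          nlinarith [norm_nonneg (d i), (Nat.cast_nonneg j : (0 : ℝ) ≤ ((j : ℕ) : ℝ))]
        nlinarith
      rw [hcon] at hmem
      exact hmem
    choose w hw using this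
    exact h w hw
  obtain ⟨e, he⟩ := (dense_iInter_of_isOpen ho hd).nonempty
  exact ⟨e, fun i => Set.mem_iInter.mp he i⟩

/-- The inner derivation. -/
def irrD (a T : A) : A := a * T - T * a

lemma irrD_inner (τ : Tr A) {a : A} (ha : IsSelfAdjoint a) (T U : A) :
    τ (star (irrD a T) * U) = τ (star T * irrD a U) := by
  simp only [irrD, star_sub, star_mul, ha.star_eq, sub_mul, mul_sub, τ.map_sub, mul_assoc]
  rw [τ.comm a, mul_assoc]

lemma irrD_comm {a b : A} (h : a * b = b * a) (T : A) : irrD a (irrD b T) = irrD b (irrD a T) := by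
  have e : irrD a (irrD b T) - irrD b (irrD a T) = (a * b - b * a) * T - T * (a * b - b * a) := by
    simp only [irrD]; noncomm_ring
  rw [h, sub_self, zero_mul, mul_zero, sub_zero] at e
  exact sub_eq_zero.mp e

lemma irrD_le (τ : Tr A) (a T : A) : τ.n2 (irrD a T) ≤ 2 * ‖a‖ * τ.n2 T := by
  have h1 := τ.n2_mul_le a T
  have h2 := τ.n2_mul_le' T a
  have h3 := τ.n2_sub_le (a * T) (T * a)
  simp only [irrD]; linarith

lemma irrD_le' (τ : Tr A) (a T : A) : τ.n2 (irrD a T) ≤ 2 * ‖T‖ * τ.n2 a := by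
  have h1 := τ.n2_mul_le T a
  have h2 := τ.n2_mul_le' a T
  have h3 := τ.n2_sub_le (a * T) (T * a)
  simp only [irrD]; linarith

lemma irrD_sub_left (a b T : A) : irrD (a - b) T = irrD a T - irrD b T := by
  simp only [irrD]; noncomm_ring

lemma irrD_sub_right (a T U : A) : irrD a (T - U) = irrD a T - irrD a U := by
  simp only [irrD]; noncomm_ring

lemma irrD_smul_left (c : ℝ) (a T : A) : irrD (c • a) T = c • irrD a T := by
  simp only [irrD, smul_mul_assoc, mul_smul_comm, smul_sub]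

lemma irrD_smul_right (c : ℝ) (a T : A) : irrD a (c • T) = c • irrD a T := by
  simp only [irrD, smul_mul_assoc, mul_smul_comm, smul_sub]

lemma irr_dense (τ : Tr A) (hτ : τ.IsTW) (X : Set A) :
    ∃ C ⊆ X, C.Countable ∧ ∀ a ∈ X, ∀ ε : ℝ, 0 < ε → ∃ c ∈ C, τ.n2 (a - c) < ε := by
  have := hτ.sep
  obtain ⟨t, ht, htc, hcl⟩ :=
    (TopologicalSpace.IsSeparable.of_separableSpace (τ.toL2 '' X)).exists_countable_dense_subset
  refine ⟨τ.toL2 ⁻¹' t, fun a ha => ?_, htc.preimage τ.toL2.injective, fun a ha ε hε => ?_⟩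
  · obtain ⟨b, hb, hab⟩ := ht ha
    rwa [← τ.toL2.injective hab]
  · obtain ⟨c, hc, hlt⟩ := Metric.mem_closure_iff.mp (hcl ⟨a, ha, rfl⟩) ε hε
    refine ⟨τ.toL2.symm c, by simpa using hc, ?_⟩
    rw [← τ.dist_toL2]; simpa using hlt

lemma irr_abs_ge {n : ℕ} {i j : Fin n} (h : i ≠ j) {s : ℝ} (hs : 0 < s) :
    s ≤ |((i : ℕ) : ℝ) * s - ((j : ℕ) : ℝ) * s| := by
  rw [← sub_mul, abs_mul, abs_of_pos hs]
  have h1 : (1 : ℝ) ≤ |((i : ℕ) : ℝ) - ((j : ℕ) : ℝ)| := by
    have : (1 : ℤ) ≤ |((i : ℕ) : ℤ) - ((j : ℕ) : ℤ)| := by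
      refine Int.one_le_abs ?_
      intro h0
      apply h
      ext
      omega
    exact_mod_cast this
  nlinarith

lemma irr_le_of_forall {x : ℝ} (h : ∀ r : ℕ, x < 1 / ((r : ℝ) + 1)) : x ≤ 0 := by
  by_contra hx
  push Not at hx
  obtain ⟨r, hr⟩ := exists_nat_one_div_lt hx
  exact absurd (h r) (not_lt.mpr hr.le)

/-- Step A: a single element of a closed commutative space of self-adjoints with the same
commutant. -/
lemma irr_stepA (τ : Tr A) (hτ : τ.IsTW) (M : Submodule ℝ A) (hM : IsClosed (M : Set A))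
    (hsa : ∀ a ∈ M, IsSelfAdjoint a) (hcomm : ∀ a ∈ M, ∀ b ∈ M, a * b = b * a) :
    ∃ h ∈ M, ∀ T : A, h * T = T * h → ∀ a ∈ M, a * T = T * a := by
  have : CompleteSpace M := hM.completeSpace_coe
  obtain ⟨C, hCM, hCc, hC⟩ := irr_dense τ hτ (M : Set A)
  obtain ⟨L, -, hLc, hL⟩ := irr_dense τ hτ (Set.univ : Set A)
  have := hCc.to_subtype
  have := hLc.to_subtype
  obtain ⟨h, hh⟩ := irr_baire (E := M) (ι := C × L × ℕ) (W := A)
    (fun e T => τ.n2 (irrD (e : A) T))
    (fun i T => τ.n2 T ≤ 1 ∧ 1 / ((i.2.2 : ℝ) + 1) ≤ (τ (star (i.2.1 : A) * irrD (i.1 : A) T)).re)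
    (fun i => ⟨i.1, hCM i.1.2⟩)
    (by
      rintro i e e' T ⟨hT, -⟩
      have e1 : irrD (e : A) T = irrD (e' : A) T + irrD ((e - e' : M) : A) T := by
        rw [Submodule.coe_sub, irrD_sub_left]; abel
      have h1 := τ.n2_add_le (irrD (e' : A) T) (irrD ((e - e' : M) : A) T)
      have h2 := irrD_le τ ((e - e' : M) : A) T
      have h3 : ‖((e - e' : M) : A)‖ = ‖e - e'‖ := rfl
      rw [h3] at h2
      rw [e1]
      nlinarith [norm_nonneg (e - e'), τ.n2_nonneg T])
    (by
      rintro ⟨a, x, r⟩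
      have ha : (a : A) ∈ M := hCM a.2
      obtain ⟨n, k, hk, hb⟩ := irr_bessel (τ.toL2 x) (2 * ‖(a : A)‖) (1 / ((r : ℝ) + 1))
        (by positivity)
      refine ⟨n, fun e s hs => ⟨k * s / (4 * ‖(a : A)‖ + 1), by positivity, fun T hT => ?_⟩⟩
      set δ := k * s / (4 * ‖(a : A)‖ + 1) with hδ
      have hδ0 : 0 < δ := by positivity
      have hz : ∀ j, τ.n2 (irrD (a : A) (T j)) ≤ 2 * ‖(a : A)‖ := by
        intro j
        have h1 := irrD_le τ (a : A) (T j)
        nlinarith [(hT j).1.1, norm_nonneg (a : A)]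
      refine hb (fun j => τ.toL2 (irrD (a : A) (T j))) hz (fun i j hij => ?_)
        (fun j => (hT j).1.2)
      rw [τ.inner_toL2]
      set ti : ℝ := ((i : ℕ) : ℝ) * s
      set tj : ℝ := ((j : ℕ) : ℝ) * s
      have hi : τ.n2 (irrD ((e : A) + ti • (a : A)) (T i)) < δ := (hT i).2
      have hj : τ.n2 (irrD ((e : A) + tj • (a : A)) (T j)) < δ := (hT j).2
      have hbj : (e : A) + tj • (a : A) ∈ M := M.add_mem e.2 (M.smul_mem _ ha)
      have key : ((ti - tj : ℝ) : ℂ) * τ (star (irrD (a : A) (T i)) * irrD (a : A) (T j)) =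
          τ (star (irrD ((e : A) + ti • (a : A)) (T i)) * irrD (a : A) (T j)) -
          τ (star (irrD (a : A) (T i)) * irrD ((e : A) + tj • (a : A)) (T j)) := by
        rw [irrD_inner τ (hsa _ ha) (T i) (irrD ((e : A) + tj • (a : A)) (T j)),
          irrD_comm (hcomm _ ha _ hbj), ← irrD_inner τ (hsa _ hbj), ← τ.map_sub,
          ← sub_mul (star _), ← star_sub, ← irrD_sub_left, add_sub_add_left_eq_sub, ← sub_smul, irrD_smul_left,
          star_smul, smul_mul_assoc, τ.map_real_smul]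
        simp
      have h1 := τ.norm_star_mul_le (irrD ((e : A) + ti • (a : A)) (T i)) (irrD (a : A) (T j))
      have h2 := τ.norm_star_mul_le (irrD (a : A) (T i)) (irrD ((e : A) + tj • (a : A)) (T j))
      have h3 : |ti - tj| * ‖τ (star (irrD (a : A) (T i)) * irrD (a : A) (T j))‖ ≤
          4 * ‖(a : A)‖ * δ := by
        rw [← Real.norm_eq_abs, ← Complex.norm_real, ← norm_mul, key]
        refine (norm_sub_le _ _).trans ?_
        have b1 : τ.n2 (irrD ((e : A) + ti • (a : A)) (T i)) * τ.n2 (irrD (a : A) (T j)) ≤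
            δ * (2 * ‖(a : A)‖) := mul_le_mul hi.le (hz j) (τ.n2_nonneg _) hδ0.le
        have b2 : τ.n2 (irrD (a : A) (T i)) * τ.n2 (irrD ((e : A) + tj • (a : A)) (T j)) ≤
            (2 * ‖(a : A)‖) * δ := mul_le_mul (hz i) hj.le (τ.n2_nonneg _) (by positivity)
        linarith
      have h4 := irr_abs_ge hij hs
      have h5 : 4 * ‖(a : A)‖ * δ ≤ k * s := by
        rw [hδ, mul_div_assoc', div_le_iff₀ (by positivity)]
        nlinarith [mul_pos hk hs]
      refine (Complex.re_le_norm _).trans ?_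
      have h6 : s * ‖τ (star (irrD (a : A) (T i)) * irrD (a : A) (T j))‖ ≤ s * k := by
        have := mul_le_mul_of_nonneg_right h4
          (norm_nonneg (τ (star (irrD (a : A) (T i)) * irrD (a : A) (T j))))
        linarith
      exact le_of_mul_le_mul_left h6 hs)
  refine ⟨h, h.2, fun T hT a ha => ?_⟩
  -- normalise `T`
  set c : ℝ := (τ.n2 T + 1)⁻¹ with hc
  have hT0 := τ.n2_nonneg T
  have hc0 : 0 < c := by positivity
  have hT1 : τ.n2 (c • T) ≤ 1 := by
    rw [τ.n2_real_smul, abs_of_pos hc0, hc, inv_mul_le_iff₀ (by positivity)]; linarith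
  have hD0 : irrD (h : A) (c • T) = 0 := by
    rw [irrD_smul_right, irrD, hT, sub_self, smul_zero]
  have h1 : ∀ b ∈ C, τ.n2 (irrD b (c • T)) = 0 := by
    intro b hb
    have h2 : ∀ x ∈ L, (τ (star x * irrD b (c • T))).re ≤ 0 := by
      intro x hx
      refine irr_le_of_forall fun r => ?_
      obtain ⟨δ, hδ, h3⟩ := hh (⟨b, hb⟩, ⟨x, hx⟩, r)
      by_contra hcon
      have := h3 (c • T) ⟨hT1, not_lt.mp hcon⟩
      simp only [hD0, τ.n2_zero] at this
      linarith
    set z := irrD b (c • T)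
    by_contra hne
    have hpos : 0 < τ.n2 z := lt_of_le_of_ne (τ.n2_nonneg _) (Ne.symm hne)
    obtain ⟨x, hx, hlt⟩ := hL z (Set.mem_univ _) _ hpos
    have h3 := h2 x hx
    have h4 := τ.norm_star_mul_le (z - x) z
    have h5 : (τ (star (z - x) * z)).re = τ.n2 z ^ 2 - (τ (star x * z)).re := by
      rw [star_sub, sub_mul, τ.map_sub, Complex.sub_re, τ.n2_sq]
    have h6 := Complex.re_le_norm (τ (star (z - x) * z))
    nlinarith
  have h2 : τ.n2 (irrD a (c • T)) ≤ 0 := by
    refine le_of_forall_pos_le_add fun ε hε => ?_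
    obtain ⟨b, hb, hlt⟩ := hC a ha (ε / (2 * ‖c • T‖ + 1)) (by positivity)
    have e1 : irrD a (c • T) = irrD b (c • T) + irrD (a - b) (c • T) := by
      rw [irrD_sub_left]; abel
    have h3 := τ.n2_add_le (irrD b (c • T)) (irrD (a - b) (c • T))
    have h4 := irrD_le' τ (a - b) (c • T)
    rw [lt_div_iff₀ (by positivity)] at hlt
    rw [e1]
    nlinarith [h1 b hb, τ.n2_nonneg (a - b)]
  have h3 := hτ.faithful _ (le_antisymm h2 (τ.n2_nonneg _))
  rw [irrD_smul_right, smul_eq_zero] at h3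
  exact sub_eq_zero.mp (h3.resolve_left hc0.ne')

/-- Step B: a single element of a closed space `V` whose commutant inside the commutative set
`M` commutes with all of `V`. -/
lemma irr_stepB (τ : Tr A) (hτ : τ.IsTW) (M : Submodule ℝ A) (V : Submodule ℝ A)
    (hV : IsClosed (V : Set A))
    (hsa : ∀ a ∈ M, IsSelfAdjoint a) (hcomm : ∀ a ∈ M, ∀ b ∈ M, a * b = b * a) :
    ∃ v ∈ V, ∀ a ∈ M, a * v = v * a → ∀ x ∈ V, a * x = x * a := by
  have : CompleteSpace V := hV.completeSpace_coe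
  obtain ⟨C, hCV, hCc, hC⟩ := irr_dense τ hτ (V : Set A)
  have := hCc.to_subtype
  obtain ⟨v, hv⟩ := irr_baire (E := V) (ι := C × ℕ) (W := A)
    (fun e a => τ.n2 (irrD a (e : A)))
    (fun i a => a ∈ M ∧ ‖a‖ ≤ 1 ∧ 1 / ((i.2 : ℝ) + 1) ≤ τ.n2 (irrD a (i.1 : A)))
    (fun i => ⟨i.1, hCV i.1.2⟩)
    (by
      rintro i e e' a ⟨-, ha, -⟩
      have e1 : irrD a (e : A) = irrD a (e' : A) + irrD a ((e - e' : V) : A) := by
        rw [Submodule.coe_sub, irrD_sub_right]; abel
      have h1 := τ.n2_add_le (irrD a (e' : A)) (irrD a ((e - e' : V) : A))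
      have h2 := irrD_le τ a ((e - e' : V) : A)
      have h3 : τ.n2 ((e - e' : V) : A) ≤ ‖e - e'‖ := τ.n2_le_norm _
      rw [e1]
      nlinarith [norm_nonneg a, τ.n2_nonneg ((e - e' : V) : A)])
    (by
      rintro ⟨x, r⟩
      obtain ⟨n, k, hk, hb⟩ := irr_bessel (τ.toL2 x) (4 * τ.n2 (x : A)) ((1 / ((r : ℝ) + 1)) ^ 2)
        (by positivity)
      refine ⟨n, fun e s hs => ⟨√k * s / 4, by positivity, fun a ha => ?_⟩⟩
      set δ := √k * s / 4 with hδ
      have hδ0 : 0 < δ := by positivity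
      have hD : ∀ j y, τ.n2 (irrD (a j) y) ≤ 2 * τ.n2 y := by
        intro j y
        have h1 := irrD_le τ (a j) y
        nlinarith [(ha j).1.2.1, τ.n2_nonneg y]
      refine hb (fun j => τ.toL2 (irrD (a j) (irrD (a j) x))) (fun j => ?_) (fun i j hij => ?_)
        (fun j => ?_)
      · have h1 := hD j (irrD (a j) x)
        have h2 := hD j x
        change τ.n2 _ ≤ _
        linarith
      · rw [τ.inner_toL2]
        have hai := (ha i).1.1
        have haj := (ha j).1.1
        have e1 : τ (star (irrD (a i) (irrD (a i) x)) * irrD (a j) (irrD (a j) x)) =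
            τ (star (irrD (a j) (irrD (a i) x)) * irrD (a j) (irrD (a i) x)) := by
          rw [irrD_inner τ (hsa _ hai), irrD_comm (hcomm _ hai _ haj), ← irrD_inner τ (hsa _ haj),
            irrD_comm (hcomm _ hai _ haj)]
        rw [e1, ← τ.n2_sq]
        set ti : ℝ := ((i : ℕ) : ℝ) * s
        set tj : ℝ := ((j : ℕ) : ℝ) * s
        have hi : τ.n2 (irrD (a i) ((e : A) + ti • (x : A))) < δ := (ha i).2
        have hj : τ.n2 (irrD (a j) ((e : A) + tj • (x : A))) < δ := (ha j).2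
        have key : (ti - tj) • irrD (a j) (irrD (a i) x) =
            irrD (a j) (irrD (a i) ((e : A) + ti • (x : A))) -
            irrD (a i) (irrD (a j) ((e : A) + tj • (x : A))) := by
          rw [irrD_comm (hcomm _ hai _ haj), ← irrD_sub_right, ← irrD_sub_right,
            add_sub_add_left_eq_sub, ← sub_smul, irrD_smul_right, irrD_smul_right]
        have h3 : |ti - tj| * τ.n2 (irrD (a j) (irrD (a i) x)) ≤ 4 * δ := by
          rw [← τ.n2_real_smul, key]
          refine (τ.n2_sub_le _ _).trans ?_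
          have b1 := hD j (irrD (a i) ((e : A) + ti • (x : A)))
          have b2 := hD i (irrD (a j) ((e : A) + tj • (x : A)))
          linarith
        have h4 := irr_abs_ge hij hs
        have h6 : s * τ.n2 (irrD (a j) (irrD (a i) x)) ≤ s * √k := by
          have := mul_le_mul_of_nonneg_right h4 (τ.n2_nonneg (irrD (a j) (irrD (a i) x)))
          linarith
        have h7 := le_of_mul_le_mul_left h6 hs
        have h8 := pow_le_pow_left₀ (τ.n2_nonneg _) h7 2
        rwa [Real.sq_sqrt hk.le] at h8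
      · rw [τ.inner_toL2, ← irrD_inner τ (hsa _ (ha j).1.1), ← τ.n2_sq]
        exact pow_le_pow_left₀ (by positivity) (ha j).1.2.2 2)
  refine ⟨v, v.2, fun a ha hav x hx => ?_⟩
  set c : ℝ := (‖a‖ + 1)⁻¹ with hc
  have hc0 : 0 < c := by positivity
  have ha1 : ‖c • a‖ ≤ 1 := by
    rw [norm_smul, Real.norm_of_nonneg hc0.le, hc, inv_mul_le_iff₀ (by positivity)]; linarith
  have hD0 : irrD (c • a) (v : A) = 0 := by
    rw [irrD_smul_left, irrD, hav, sub_self, smul_zero]
  have h1 : ∀ y ∈ C, τ.n2 (irrD (c • a) y) ≤ 0 := by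
    intro y hy
    refine irr_le_of_forall fun r => ?_
    obtain ⟨δ, hδ, h3⟩ := hv (⟨y, hy⟩, r)
    by_contra hcon
    have := h3 (c • a) ⟨M.smul_mem _ ha, ha1, not_lt.mp hcon⟩
    simp only [hD0, τ.n2_zero] at this
    linarith
  have h2 : τ.n2 (irrD (c • a) x) ≤ 0 := by
    refine le_of_forall_pos_le_add fun ε hε => ?_
    obtain ⟨y, hy, hlt⟩ := hC x hx (ε / 2) (by positivity)
    have e1 : irrD (c • a) x = irrD (c • a) y + irrD (c • a) (x - y) := by
      rw [irrD_sub_right]; abel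
    have h3 := τ.n2_add_le (irrD (c • a) y) (irrD (c • a) (x - y))
    have h4 := irrD_le τ (c • a) (x - y)
    rw [e1]
    nlinarith [h1 y hy, τ.n2_nonneg (x - y)]
  have h3 := hτ.faithful _ (le_antisymm h2 (τ.n2_nonneg _))
  rw [irrD_smul_left, smul_eq_zero] at h3
  exact sub_eq_zero.mp (h3.resolve_left hc0.ne')

lemma irr_tr_proj_ne (τ : Tr A) (hf : τ.Faithful) {p : A} (hp : IsStarProjection p)
    (hp0 : p ≠ 0) : τ p ≠ 0 := by
  intro h
  apply hp0
  apply hf
  have h1 := τ.n2_sq p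
  rw [hp.isSelfAdjoint.star_eq, hp.isIdempotentElem.eq, h, Complex.zero_re] at h1
  exact pow_eq_zero_iff two_ne_zero |>.mp h1

/-- An element commuting with `p` and with the off-diagonal corners is a scalar. -/
lemma irr_scalar (τ : Tr A) (hτ : τ.IsTW) (hfac : Irred (Set.univ : Set A))
    (p : A) (hp : IsStarProjection p) (hp0 : p ≠ 0) (hp1 : p ≠ 1) (a : A) (hap : a * p = p * a)
    (h1 : ∀ w : A, a * (p * w * (1 - p)) = p * w * (1 - p) * a)
    (h2 : ∀ w : A, a * ((1 - p) * w * p) = (1 - p) * w * p * a) : ∃ c : ℂ, a = c • (1 : A) := by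
  have hav : AV τ ((⊤ : StarSubalgebra ℂ A) : Set A) :=
    av_of_irred τ hτ.faithful hτ.complete ⊤ (by simp) (by simpa using hfac)
  have hq : IsStarProjection (1 - p) := hp.one_sub
  have htp := irr_tr_proj_ne τ hτ.faithful hp hp0
  have htq := irr_tr_proj_ne τ hτ.faithful hq (fun h => hp1 (sub_eq_zero.mp h).symm)
  have hpp : p * p = p := hp.isIdempotentElem.eq
  have hqq : (1 - p) * (1 - p) = 1 - p := hq.isIdempotentElem.eq
  have k1 := hav.sandwich hτ.faithful (a * p) p p p (1 - p) ((1 - p) * a) (fun w _ _ => by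
    have := congrArg (· * (star w * p)) (h1 w)
    simp only [mul_assoc] at this ⊢
    exact this)
  have k2 := hav.sandwich hτ.faithful (a * (1 - p)) (1 - p) (1 - p) (1 - p) p (p * a)
    (fun w _ _ => by
      have := congrArg (· * (star w * (1 - p))) (h2 w)
      simp only [mul_assoc] at this ⊢
      exact this)
  rw [mul_assoc, hpp] at k1
  rw [mul_assoc, hqq] at k2
  set l : ℂ := τ ((1 - p) * a) / τ (1 - p) with hl
  have e1 : a * p = l • p := by
    have := congrArg (fun z => (τ (1 - p))⁻¹ • z) k1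
    simp only [smul_smul, inv_mul_cancel₀ htq, one_smul] at this
    rw [this, hl, div_eq_inv_mul]
  have e2 : τ (p * a) = l * τ p := by rw [← hap, e1, τ.map_smul]
  have e3 : a * (1 - p) = l • (1 - p) := by
    have := congrArg (fun z => (τ p)⁻¹ • z) k2
    simp only [smul_smul, inv_mul_cancel₀ htp, one_smul] at this
    rw [this, e2, mul_comm l, ← mul_assoc, inv_mul_cancel₀ htp, one_mul]
  refine ⟨l, ?_⟩
  calc a = a * p + a * (1 - p) := by noncomm_ring
    _ = l • (1 : A) := by rw [e1, e3, ← smul_add]; simp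

theorem exists_irred_triple (τ : Tr A) (hτ : τ.IsTW) (hfac : Irred (Set.univ : Set A))
    (p : A) (hp : IsStarProjection p) (hp0 : p ≠ 0) (hp1 : p ≠ 1) :
    ∃ h v : A, IsSelfAdjoint h ∧ IsSelfAdjoint v ∧ h * p = p * h ∧ p * v * p = 0 ∧
      Irred ({h, p, v} : Set A) := by
  -- maximal commuting family of self-adjoints containing `p`
  obtain ⟨S, hpS, hS⟩ := zorn_subset_nonempty
    {S : Set A | (∀ a ∈ S, IsSelfAdjoint a) ∧ ∀ a ∈ S, ∀ b ∈ S, a * b = b * a}
    (fun c hc hchain _ => by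
      refine ⟨⋃₀ c, ⟨?_, ?_⟩, fun s hs => Set.subset_sUnion_of_mem hs⟩
      · rintro a ⟨s, hs, ha⟩
        exact (hc hs).1 a ha
      · rintro a ⟨s, hs, ha⟩ b ⟨t, ht, hb⟩
        rcases hchain.total hs ht with h | h
        · exact (hc ht).2 a (h ha) b hb
        · exact (hc hs).2 a ha b (h hb))
    {p} ⟨by simpa using hp.isSelfAdjoint, by simp⟩
  have hpS' : p ∈ S := hpS rfl
  have hmax : ∀ a, IsSelfAdjoint a → (∀ b ∈ S, a * b = b * a) → a ∈ S := by
    intro a ha hab
    have : insert a S ⊆ S := hS.le_of_ge (y := insert a S) ⟨?_, ?_⟩ (Set.subset_insert a S)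
    · exact this (Set.mem_insert a S)
    · rintro b (rfl | hb)
      · exact ha
      · exact hS.prop.1 b hb
    · rintro b (rfl | hb) c (rfl | hc)
      · rfl
      · exact hab c hc
      · exact (hab b hb).symm
      · exact hS.prop.2 b hb c hc
  let M : Submodule ℝ A :=
    { carrier := {a | IsSelfAdjoint a ∧ ∀ b ∈ S, a * b = b * a}
      add_mem' := fun {a b} ha hb => ⟨ha.1.add hb.1, fun c hc => by
        rw [add_mul, mul_add, ha.2 c hc, hb.2 c hc]⟩
      zero_mem' := ⟨IsSelfAdjoint.zero A, fun c _ => by simp⟩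
      smul_mem' := fun c a ha => ⟨(IsSelfAdjoint.all c).smul ha.1, fun b hb => by
        rw [smul_mul_assoc, mul_smul_comm, ha.2 b hb]⟩ }
  have hMc : IsClosed (M : Set A) := by
    have : (M : Set A) = {a | star a = a} ∩ ⋂ b ∈ S, {a | a * b = b * a} := by
      ext a; simp [M, IsSelfAdjoint]
    rw [this]
    exact (isClosed_eq continuous_star continuous_id).inter (isClosed_biInter fun b _ =>
      isClosed_eq (continuous_id.mul continuous_const) (continuous_const.mul continuous_id))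
  have hMsa : ∀ a ∈ M, IsSelfAdjoint a := fun a ha => ha.1
  have hMcomm : ∀ a ∈ M, ∀ b ∈ M, a * b = b * a := fun a ha b hb => ha.2 b (hmax b hb.1 hb.2)
  have hSM : ∀ b ∈ S, b ∈ M := fun b hb => ⟨hS.prop.1 b hb, fun c hc => hS.prop.2 b hb c hc⟩
  let V : Submodule ℝ A :=
    { carrier := {v | IsSelfAdjoint v ∧ p * v * p = 0}
      add_mem' := fun {a b} ha hb => ⟨ha.1.add hb.1, by
        rw [mul_add, add_mul, ha.2, hb.2, add_zero]⟩
      zero_mem' := ⟨IsSelfAdjoint.zero A, by simp⟩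
      smul_mem' := fun c a ha => ⟨(IsSelfAdjoint.all c).smul ha.1, by
        rw [mul_smul_comm, smul_mul_assoc, ha.2, smul_zero]⟩ }
  have hVc : IsClosed (V : Set A) := by
    have : (V : Set A) = {a | star a = a} ∩ {a | p * a * p = 0} := by
      ext a; simp [V, IsSelfAdjoint]
    rw [this]
    exact (isClosed_eq continuous_star continuous_id).inter
      (isClosed_eq ((continuous_const.mul continuous_id).mul continuous_const) continuous_const)
  obtain ⟨h, hhM, hh⟩ := irr_stepA τ hτ M hMc hMsa hMcomm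
  obtain ⟨v, hvV, hv⟩ := irr_stepB τ hτ M V hVc hMsa hMcomm
  refine ⟨h, v, hhM.1, hvV.1, hhM.2 p hpS', hvV.2, ?_⟩
  have hpp : p * p = p := hp.isIdempotentElem.eq
  have hps : star p = p := hp.isSelfAdjoint.star_eq
  -- self-adjoint elements commuting with `h` and `v` are scalars
  have hsa : ∀ a : A, IsSelfAdjoint a → h * a = a * h → a * v = v * a →
      ∃ c : ℂ, a = c • (1 : A) := by
    intro a ha h1 h2
    have haM : a ∈ M := ⟨ha, fun b hb => (hh a h1 b (hSM b hb)).symm⟩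
    have hcV := hv a haM h2
    have hy : ∀ y : A, p * y * p = 0 → p * star y * p = 0 → a * y = y * a := by
      intro y hy1 hy2
      have m1 : y + star y ∈ V := ⟨by rw [IsSelfAdjoint, star_add, star_star, add_comm], by
        rw [mul_add, add_mul, hy1, hy2, add_zero]⟩
      have m2 : Complex.I • (y - star y) ∈ V := ⟨by
        rw [IsSelfAdjoint, star_smul, star_sub, star_star, Complex.star_def, Complex.conj_I,
          neg_smul, ← smul_neg, neg_sub], by
        rw [mul_smul_comm, smul_mul_assoc, mul_sub, sub_mul, hy1, hy2, sub_zero, smul_zero]⟩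
      have c1 := hcV _ m1
      have c2 := hcV _ m2
      rw [mul_smul_comm, smul_mul_assoc] at c2
      have c3 : a * (y - star y) = (y - star y) * a :=
        smul_right_injective A Complex.I_ne_zero c2
      have c4 : (2 : ℂ) • (a * y) = (2 : ℂ) • (y * a) := by
        rw [two_smul, two_smul]
        calc a * y + a * y = a * (y + star y) + a * (y - star y) := by noncomm_ring
          _ = (y + star y) * a + (y - star y) * a := by rw [c1, c3]
          _ = y * a + y * a := by noncomm_ring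
      exact smul_right_injective A two_ne_zero c4
    have hpq : (1 - p) * p = 0 := by rw [sub_mul, one_mul, hpp, sub_self]
    have hqp : p * (1 - p) = 0 := by rw [mul_sub, mul_one, hpp, sub_self]
    refine irr_scalar τ hτ hfac p hp hp0 hp1 a (haM.2 p hpS') (fun w => hy _ ?_ ?_)
      (fun w => hy _ ?_ ?_)
    · rw [mul_assoc, mul_assoc, hpq, mul_zero, mul_zero]
    · rw [star_mul, star_sub, star_one, hps, ← mul_assoc, hqp, zero_mul, zero_mul]
    · rw [← mul_assoc, ← mul_assoc, hqp, zero_mul, zero_mul, zero_mul]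
    · rw [star_mul, star_mul, star_sub, star_one, hps]
      simp only [mul_assoc, hpq, mul_zero]
  intro T hT
  have hTh : T * h = h * T := hT h (by simp)
  have hTv : T * v = v * T := hT v (by simp)
  have hTh' : star T * h = h * star T := by
    have := congrArg star hTh
    rw [star_mul, star_mul, hhM.1.star_eq] at this
    exact this.symm
  have hTv' : star T * v = v * star T := by
    have := congrArg star hTv
    rw [star_mul, star_mul, hvV.1.star_eq] at this
    exact this.symm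
  obtain ⟨c₁, hc₁⟩ := hsa (T + star T) (by rw [IsSelfAdjoint, star_add, star_star, add_comm])
    (by rw [mul_add, add_mul, hTh, hTh']) (by rw [mul_add, add_mul, hTv, hTv'])
  obtain ⟨c₂, hc₂⟩ := hsa (Complex.I • (T - star T)) (by
      rw [IsSelfAdjoint, star_smul, star_sub, star_star, Complex.star_def, Complex.conj_I,
        neg_smul, ← smul_neg, neg_sub])
    (by rw [mul_smul_comm, smul_mul_assoc, mul_sub, sub_mul, hTh, hTh'])
    (by rw [mul_smul_comm, smul_mul_assoc, mul_sub, sub_mul, hTv, hTv'])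
  refine ⟨2⁻¹ * (c₁ - Complex.I * c₂), ?_⟩
  have e : T = (2⁻¹ : ℂ) • ((T + star T) - Complex.I • (Complex.I • (T - star T))) := by
    rw [smul_smul, Complex.I_mul_I]
    module
  rw [e, hc₁, hc₂, smul_smul, ← sub_smul, smul_smul]

end Crest.Agent.R095
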