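import Crest.Agent.R095.Free
import Crest.Agent.R095.Cayley

/-! Row 95: the main estimate in a C⋆-probability space with enough free Haar unitaries. -/

set_option autoImplicit false

open Filter Topology
open scoped ComplexOrder InnerProductSpace ComplexConjugate

namespace Crest.Agent.R095

open Complex (I)

variable {A : Type*} [CStarAlgebra A]

/-- Ordered partial products. -/
def pp (G : ℕ → A) : ℕ → A
  | 0 => 1
  | n + 1 => pp G n * G n

lemma pp_mem {S : Type*} [SetLike S A] [SubmonoidClass S A] {B : S} {G : ℕ → A} {n : ℕ}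
    (h : ∀ j < n, G j ∈ B) : pp G n ∈ B := by
  induction n with
  | zero => exact one_mem B
  | succ n ih =>
    exact mul_mem (ih fun j hj => h j (hj.trans n.lt_succ_self)) (h n n.lt_succ_self)

lemma telescope (τ : Tr A) (G : ℕ → A) (X : A) (c : ℕ → ℂ) (ρ : ℝ) (m : ℕ)
    (hstep : ∀ i < m, ‖τ (pp G i * (G i - 1) * X) - c i‖ ≤ ρ) :
    ∀ i ≤ m, ‖τ (pp G i * X) - τ X - ∑ j ∈ Finset.range i, c j‖ ≤ i * ρ := by
  intro i hi
  induction i with
  | zero => simp [pp]
  | succ i ih =>
    have h1 := ih (Nat.le_of_succ_le hi)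
    have h2 := hstep i hi
    have e : τ (pp G (i + 1) * X) - τ X - ∑ j ∈ Finset.range (i + 1), c j
        = (τ (pp G i * X) - τ X - ∑ j ∈ Finset.range i, c j)
          + (τ (pp G i * (G i - 1) * X) - c i) := by
      rw [Finset.sum_range_succ, pp, mul_sub, sub_mul, mul_one, τ.map_sub]; ring
    rw [e]
    refine (norm_add_le _ _).trans ?_
    push_cast; linarith

lemma n2_unitary_sub_one_sq (τ : Tr A) {u : A} (hu : u ∈ unitary A) :
    τ.n2 (u - 1) ^ 2 = 2 - 2 * (τ u).re := by
  rw [τ.n2_sq, star_sub, star_one, sub_mul, mul_sub, mul_sub, Unitary.star_mul_self_of_mem hu]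
  simp [τ.map_star]; ring

theorem core_estimate (τ : Tr A) (b : ℕ → A) (m : ℕ) (hm : 0 < m) (W : A) (K : ℝ) (hK : 1 ≤ K)
    (hWK : ‖W‖ ≤ K) (hW2 : τ.n2 W = 1) (hW0 : τ W = 0) (hWW : τ (W * W) = 0)
    (hfree : ∀ i < m, ∃ S : StarSubalgebra ℂ A, Free τ (S : Set A) (b i) ∧ W ∈ S ∧
      ∀ j < m, j ≠ i → b j ∈ S) :
    ∃ h : A, IsSelfAdjoint h ∧ τ.n2 h ^ 2 ≤ 2 / m ∧
      cK K ≤ (τ (pp (fun j => b j * cay h * star (b j)) m * W)).re := by
  have := τ.nontrivial
  have hK0 : 0 < K := by linarith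
  have hmR : (0 : ℝ) < m := by exact_mod_cast hm
  have hbu : ∀ i < m, b i ∈ unitary A := fun i hi => (hfree i hi).choose_spec.1.1
  set s : ℝ := 1 / (100 * K ^ 2) with hs
  have hs0 : 0 < s := by positivity
  have hsK : s * K ≤ 1 / 100 := by
    rw [hs, div_mul_eq_mul_div, div_le_div_iff₀ (by positivity) (by positivity)]; nlinarith
  have hs1 : s ≤ 1 / 100 := by nlinarith
  set η : ℝ := s / m with hη
  have hη0 : 0 < η := by positivity
  set y : A := I • (W - star W) with hy
  have hysa : IsSelfAdjoint y := by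
    rw [IsSelfAdjoint, hy, star_smul, star_sub, star_star, Complex.star_def, Complex.conj_I,
      neg_smul, ← smul_neg, neg_sub]
  have hWsW : τ (star W * W) = 1 := by rw [← τ.n2_sq_complex, hW2]; simp
  have hWWs : τ (W * star W) = 1 := by rw [τ.comm, hWsW]
  have hWsWs : τ (star W * star W) = 0 := by rw [← star_mul, τ.map_star, hWW, map_zero]
  have hy0 : τ y = 0 := by simp [hy, τ.map_star, hW0]
  have hyy : τ (y * y) = 2 := by
    rw [hy, smul_mul_smul_comm, Complex.I_mul_I, τ.map_smul, sub_mul, mul_sub, mul_sub]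
    simp only [τ.map_sub, hWsW, hWWs, hWsWs, hWW]; norm_num
  have hyW : I * τ (y * W) = 1 := by
    rw [hy, smul_mul_assoc, τ.map_smul, ← mul_assoc, Complex.I_mul_I, sub_mul, τ.map_sub, hWW,
      hWsW]; norm_num
  have hyn : ‖y‖ ≤ 2 * K := by
    rw [hy, norm_smul, Complex.norm_I, one_mul]
    refine (norm_sub_le _ _).trans ?_
    rw [norm_star]; linarith
  have hy2 : τ.n2 y ≤ 3 / 2 := by
    have : τ.n2 y ^ 2 = 2 := by rw [τ.n2_sq, hysa.star_eq, hyy]; norm_num
    nlinarith [τ.n2_nonneg y]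
  set Y : ℕ → A := fun k => star (b k) * y * b k with hY
  have hYsa : ∀ k, IsSelfAdjoint (Y k) := fun k => hysa.conjugate' (b k)
  have hY0 : ∀ k < m, τ (Y k) = 0 := fun k hk => by
    simp only [hY]; rw [τ.conj_unitary' (hbu k hk), hy0]
  have hyS : ∀ S : StarSubalgebra ℂ A, W ∈ S → y ∈ S := fun S hW =>
    S.smul_mem (sub_mem hW (star_mem hW)) _
  have hYS : ∀ (S : StarSubalgebra ℂ A) (k : ℕ), W ∈ S → b k ∈ S → Y k ∈ S := fun S k hW hb =>
    mul_mem (mul_mem (star_mem hb) (hyS S hW)) hb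
  have hYY : ∀ k < m, ∀ l < m, τ (Y k * Y l) = if l = k then 2 else 0 := by
    intro k hk l hl
    split_ifs with hlk
    · subst hlk
      have : Y l * Y l = star (b l) * (y * y) * b l := by
        simp only [hY, mul_assoc]
        rw [← mul_assoc (b l), Unitary.mul_star_self_of_mem (hbu l hl), one_mul]
      rw [this, τ.conj_unitary' (hbu l hl), hyy]
    · obtain ⟨S, hS, hWS, hbS⟩ := hfree k hk
      have := hS.2 _ _ (Red.cons false true y _ (hyS S hWS) (fun _ => hy0)
        (Red.last true (Y l) (hYS S l hWS (hbS l hl hlk))))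
      simpa only [hY, mul_assoc, lt_true, lt_false] using this
  set h : A := (η : ℂ) • ∑ k ∈ Finset.range m, Y k with hh
  have hhsa : IsSelfAdjoint h := by
    rw [IsSelfAdjoint, hh, star_smul, star_sum]
    simp only [(hYsa _).star_eq, Complex.star_def, Complex.conj_ofReal]
  have hh2 : τ.n2 h ^ 2 = 2 * s ^ 2 / m := by
    have : τ (h * h) = ((2 * s ^ 2 / m : ℝ) : ℂ) := by
      rw [hh, smul_mul_smul_comm, τ.map_smul, Finset.sum_mul_sum, τ.map_sum]
      have : ∀ k ∈ Finset.range m, τ (∑ l ∈ Finset.range m, Y k * Y l) = 2 := by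
        intro k hk
        rw [τ.map_sum, Finset.sum_congr rfl fun l hl =>
          hYY k (Finset.mem_range.1 hk) l (Finset.mem_range.1 hl)]
        simp [Finset.mem_range.1 hk]
      rw [Finset.sum_congr rfl this]
      have hm' : (m : ℂ) ≠ 0 := by exact_mod_cast hm.ne'
      simp only [Finset.sum_const, Finset.card_range, nsmul_eq_mul, hη]
      push_cast
      field_simp
    rw [τ.n2_sq, hhsa.star_eq, this, Complex.ofReal_re]
  refine ⟨h, hhsa, ?_, ?_⟩
  · rw [hh2]
    gcongr
    nlinarith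
  set G : ℕ → A := fun j => b j * cay h * star (b j) with hG
  have hGu : ∀ j < m, G j ∈ unitary A := fun j hj =>
    mul_mem (mul_mem (hbu j hj) (cay_mem_unitary hhsa)) (Unitary.star_mem (hbu j hj))
  have hPu : ∀ i ≤ m, pp G i ∈ unitary A := fun i hi =>
    pp_mem fun j hj => hGu j (hj.trans_le hi)
  have hstep : ∀ X : A, (X = W ∨ X = 1) → ∀ i < m,
      ‖τ (pp G i * (G i - 1) * X) - I * η * τ (pp G i * y * X)‖ ≤ s ^ 2 / m * ‖X‖ := by
    intro X hX i hi
    obtain ⟨S, hS, hWS, hbS⟩ := hfree i hi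
    have hXS : X ∈ S := by rcases hX with rfl | rfl; exacts [hWS, one_mem S]
    have hbb : b i * star (b i) = 1 := Unitary.mul_star_self_of_mem (hbu i hi)
    set Z : A := (η : ℂ) • ∑ k ∈ (Finset.range m).erase i, Y k with hZ
    have hZS : Z ∈ S := S.smul_mem (sum_mem fun k hk => hYS S k hWS
      (hbS k (Finset.mem_range.1 (Finset.mem_of_mem_erase hk)) (Finset.ne_of_mem_erase hk))) _
    have hZ0 : τ Z = 0 := by
      rw [hZ, τ.map_smul, τ.map_sum, Finset.sum_eq_zero, mul_zero]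
      exact fun k hk => hY0 k (Finset.mem_range.1 (Finset.mem_of_mem_erase hk))
    have hhZ : h = (η : ℂ) • Y i + Z := by
      rw [hh, hZ, ← smul_add, Finset.add_sum_erase _ _ (Finset.mem_range.2 hi)]
    set T := (StarAlgebra.adjoin ℂ
      ((S : Set A) ∪ (fun y => star (b i) * y * b i) '' (S : Set A))).topologicalClosure with hT
    have hST : ∀ x ∈ S, x ∈ T := fun x hx =>
      StarSubalgebra.le_topologicalClosure _ (StarAlgebra.subset_adjoin ℂ _ (Or.inl hx))
    have hYT : Y i ∈ T := StarSubalgebra.le_topologicalClosure _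
      (StarAlgebra.subset_adjoin ℂ _ (Or.inr ⟨y, hyS S hWS, rfl⟩))
    have hhT : h ∈ T := by rw [hhZ]; exact add_mem (T.smul_mem hYT _) (hST Z hZS)
    have hcT : cay h ∈ T := cay_mem (StarSubalgebra.isClosed_topologicalClosure _) hhT
    have hPT : pp G i ∈ T := pp_mem fun j hj => by
      have := hST _ (hbS j (hj.trans hi) hj.ne)
      exact mul_mem (mul_mem this hcT) (star_mem this)
    have h0 : τ (b i * Z * star (b i) * (X * pp G i)) = 0 :=
      hS.conj_orth hZS hZ0 (mul_mem (hST X hXS) hPT)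
    have e1 : G i - 1 = b i * (cay h - 1 - I • h) * star (b i) + (I * η) • y
        + I • (b i * Z * star (b i)) := by
      have e2 : b i * h * star (b i) = (η : ℂ) • y + b i * Z * star (b i) := by
        rw [hhZ, mul_add, add_mul, mul_smul_comm, smul_mul_assoc]
        congr 2
        simp only [hY, mul_assoc]
        rw [← mul_assoc (b i), hbb, one_mul, mul_one]
      rw [add_assoc, ← smul_smul, ← smul_add, ← e2]
      simp only [hG, mul_sub, sub_mul, mul_one, hbb, mul_smul_comm, smul_mul_assoc]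
      abel
    have e3 : τ (pp G i * (G i - 1) * X) - I * η * τ (pp G i * y * X)
        = τ ((cay h - 1 - I • h) * (star (b i) * (X * pp G i) * b i)) := by
      have e4 : τ (pp G i * (b i * Z * star (b i)) * X) = 0 := by
        rw [← h0, mul_assoc, τ.comm, mul_assoc]
      have e5 : τ (pp G i * (b i * (cay h - 1 - I • h) * star (b i)) * X)
          = τ ((cay h - 1 - I • h) * (star (b i) * (X * pp G i) * b i)) := by
        rw [← mul_assoc, ← mul_assoc, mul_assoc (pp G i * b i), mul_assoc (pp G i * b i), τ.comm]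
        simp only [mul_assoc]
      rw [e1, mul_add, mul_add, add_mul, add_mul, τ.map_add, τ.map_add, e5]
      simp only [mul_smul_comm, smul_mul_assoc, τ.map_smul, e4]
      ring
    rw [e3]
    refine (norm_tr_cay_rem_le hhsa τ _).trans (le_of_eq ?_)
    rw [hh2, CStarRing.norm_mul_mem_unitary _ (hbu i hi),
      CStarRing.norm_mem_unitary_mul _ (Unitary.star_mem (hbu i hi)),
      CStarRing.norm_mul_mem_unitary _ (hPu i hi.le)]
    ring
  have hP1 : ∀ i ≤ m, τ.n2 (pp G i - 1) ≤ 1 / (5 * K) := by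
    intro i hi
    have hiR : (i : ℝ) ≤ m := by exact_mod_cast hi
    have h1 := telescope τ G 1 _ _ m (hstep 1 (Or.inr rfl)) i hi
    simp only [mul_one, norm_one, τ.map_one] at h1
    have h2 : ‖∑ j ∈ Finset.range i, I * η * τ (pp G j * y)‖ ≤ i * (η * (3 / 2)) := by
      refine (norm_sum_le _ _).trans ?_
      refine (Finset.sum_le_card_nsmul _ _ (η * (3 / 2)) fun j hj => ?_).trans (by simp)
      have := τ.norm_mul_le_n2 (pp G j) y
      rw [τ.n2_of_unitary (hPu j ((Finset.mem_range.1 hj).le.trans hi)), one_mul] at this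
      rw [norm_mul, norm_mul, Complex.norm_I, one_mul, Complex.norm_real, Real.norm_of_nonneg hη0.le]
      exact mul_le_mul_of_nonneg_left (this.trans hy2) hη0.le
    have h3 : (i : ℝ) * (s ^ 2 / m) ≤ s ^ 2 := by
      rw [mul_div_assoc', div_le_iff₀ hmR]; nlinarith [sq_nonneg s]
    have h4 : (i : ℝ) * (η * (3 / 2)) ≤ s * (3 / 2) := by
      have : (i : ℝ) * η ≤ s := by
        rw [hη, mul_div_assoc', div_le_iff₀ hmR]; nlinarith
      linarith
    have h5 : ‖τ (pp G i) - 1‖ ≤ 2 * s := by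
      have := norm_add_le (τ (pp G i) - 1 - ∑ j ∈ Finset.range i, I * η * τ (pp G j * y))
        (∑ j ∈ Finset.range i, I * η * τ (pp G j * y))
      rw [sub_add_cancel] at this
      nlinarith
    have h6 : τ.n2 (pp G i - 1) ^ 2 ≤ (1 / (5 * K)) ^ 2 := by
      rw [n2_unitary_sub_one_sq τ (hPu i hi)]
      have h7 := (Complex.abs_re_le_norm _).trans h5
      rw [Complex.sub_re, Complex.one_re, abs_le] at h7
      have : (1 / (5 * K)) ^ 2 = 4 * s := by rw [hs]; field_simp; norm_num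
      rw [this]; linarith
    exact (pow_le_pow_iff_left₀ (τ.n2_nonneg _) (by positivity) two_ne_zero).mp h6
  have h1 := telescope τ G W _ _ m (hstep W (Or.inl rfl)) m le_rfl
  rw [hW0, sub_zero] at h1
  have h2 : ∀ j ∈ Finset.range m, η * (3 / 5) ≤ (I * η * τ (pp G j * y * W)).re := by
    intro j hj
    have e : I * η * τ (pp G j * y * W) = η * (1 + I * τ ((pp G j - 1) * (y * W))) := by
      rw [sub_mul, one_mul, τ.map_sub, mul_sub, hyW, mul_assoc (pp G j)]; ring
    have h3 : ‖I * τ ((pp G j - 1) * (y * W))‖ ≤ 2 / 5 := by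
      rw [norm_mul, Complex.norm_I, one_mul]
      refine (τ.norm_mul_le_n2 _ _).trans ?_
      have h4 : τ.n2 (y * W) ≤ 2 * K := by
        refine (τ.n2_mul_le _ _).trans ?_
        rw [hW2, mul_one]; exact hyn
      calc _ ≤ 1 / (5 * K) * (2 * K) :=
            mul_le_mul (hP1 j (Finset.mem_range.1 hj).le) h4 (τ.n2_nonneg _) (by positivity)
        _ = 2 / 5 := by field_simp
    have h5 := (Complex.abs_re_le_norm _).trans h3
    rw [abs_le] at h5
    rw [e, Complex.re_ofReal_mul, Complex.add_re, Complex.one_re]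
    exact mul_le_mul_of_nonneg_left (by linarith) hη0.le
  have h3 : s * (3 / 5) ≤ (∑ j ∈ Finset.range m, I * η * τ (pp G j * y * W)).re := by
    rw [Complex.re_sum]
    refine le_trans (le_of_eq ?_) (Finset.card_nsmul_le_sum _ _ _ h2)
    rw [Finset.card_range, nsmul_eq_mul, hη]; field_simp
  have h4 := (Complex.abs_re_le_norm _).trans h1
  rw [Complex.sub_re, abs_le] at h4
  have h5 : (m : ℝ) * (s ^ 2 / m * ‖W‖) ≤ s * (1 / 100) := by
    have : (m : ℝ) * (s ^ 2 / m * ‖W‖) = s * (s * ‖W‖) := by field_simp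
    rw [this]
    exact mul_le_mul_of_nonneg_left ((mul_le_mul_of_nonneg_left hWK hs0.le).trans hsK) hs0.le
  have h6 : cK K = s / 2 := by rw [cK, hs]; field_simp; norm_num
  rw [h6]; linarith

/-- A chain `b₀ = a₀`, `bⱼ₊₁ = bⱼ u₀ aⱼ₊₁` with each `aⱼ ∈ Q` free from the past. -/
lemma exists_chain (τ : Tr A) (Q : Set A)
    (hext : ∀ S : Set A, S.Finite → ∃ a ∈ Q, Free τ (StarAlgebra.adjoin ℂ S : Set A) a)
    (u₀ : A) (hu₀ : u₀ ∈ unitary A) (z : A) :
    ∃ a b : ℕ → A, (∀ n, a n ∈ Q ∩ unitary A) ∧ b 0 = a 0 ∧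
      (∀ n, b (n + 1) = b n * u₀ * a (n + 1)) ∧
      ∀ n, Free τ (StarAlgebra.adjoin ℂ ({u₀, z} ∪ b '' {j | j < n}) : Set A) (b n) := by
  have hfin : ∀ l : List A, (({u₀, z} : Set A) ∪ {x | x ∈ l}).Finite := fun l =>
    (Set.toFinite _).union (List.finite_toSet l)
  choose f hfQ hf using fun l : List A => hext _ (hfin l)
  let d : List A → A := fun l => l.casesOn 1 fun x _ => x * u₀
  let hist : ℕ → List A := fun n => Nat.rec [] (fun _ l => (d l * f l) :: l) n
  let b : ℕ → A := fun n => d (hist n) * f (hist n)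
  have hsucc : ∀ n, hist (n + 1) = b n :: hist n := fun n => rfl
  have hmem : ∀ n, {x | x ∈ hist n} = b '' {j | j < n} := by
    intro n
    induction n with
    | zero => ext x; simp [hist]
    | succ n ih =>
      ext x
      have := Set.ext_iff.1 ih x
      simp only [Set.mem_ofPred_eq, Set.mem_image] at this
      simp only [hsucc, List.mem_cons, Set.mem_ofPred_eq, Set.mem_image, this]
      constructor
      · rintro (rfl | ⟨j, hj, rfl⟩)
        exacts [⟨n, n.lt_succ_self, rfl⟩, ⟨j, hj.trans n.lt_succ_self, rfl⟩]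
      · rintro ⟨j, hj, rfl⟩
        rcases Nat.lt_succ_iff_lt_or_eq.1 hj with hj | rfl
        exacts [Or.inr ⟨j, hj, rfl⟩, Or.inl rfl]
  have hb0 : b 0 = f (hist 0) := one_mul _
  have hbs : ∀ n, b (n + 1) = b n * u₀ * f (hist (n + 1)) := fun n => rfl
  have hbu : ∀ n, b n ∈ unitary A := by
    intro n
    induction n with
    | zero => rw [hb0]; exact (hf _).1
    | succ n ih => rw [hbs]; exact mul_mem (mul_mem ih hu₀) (hf _).1
  refine ⟨fun n => f (hist n), b, fun n => ⟨hfQ _, (hf _).1⟩, hb0, hbs, fun n => ?_⟩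
  have h1 := hf (hist n)
  rw [hmem] at h1
  cases n with
  | zero => rw [hb0]; exact h1
  | succ n =>
    rw [hbs]
    refine h1.unitary_mul (mul_mem ?_ ?_) (mul_mem (hbu n) hu₀)
    · exact StarAlgebra.subset_adjoin ℂ _ (Or.inr ⟨n, n.lt_succ_self, rfl⟩)
    · exact StarAlgebra.subset_adjoin ℂ _ (Or.inl (by simp))

lemma free_of_chain (τ : Tr A) (T : Set A) (b : ℕ → A)
    (hb : ∀ n, Free τ (StarAlgebra.adjoin ℂ (T ∪ b '' {j | j < n}) : Set A) (b n))
    (i l : ℕ) (hil : i ≤ l) :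
    Free τ (StarAlgebra.adjoin ℂ (T ∪ b '' {j | j ≤ l ∧ j ≠ i}) : Set A) (b i) := by
  induction l, hil using Nat.le_induction with
  | base =>
    refine (hb i).mono (StarAlgebra.adjoin_mono (Set.union_subset_union_right _
      (Set.image_mono fun j hj => lt_of_le_of_ne hj.1 hj.2)))
  | succ l hil ih =>
    refine (ih.swap ((hb (l + 1)).mono ?_)).mono ?_
    · refine StarAlgebra.adjoin_le (Set.union_subset ?_ ?_)
      · exact StarAlgebra.adjoin_mono (Set.union_subset_union_right _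
          (Set.image_mono fun j hj => Nat.lt_succ_of_le hj.1))
      · rintro _ rfl
        exact StarAlgebra.subset_adjoin ℂ _ (Or.inr ⟨i, Nat.lt_succ_of_le hil, rfl⟩)
    · refine StarAlgebra.adjoin_le ?_
      rintro x (hx | ⟨j, ⟨hj, hji⟩, rfl⟩)
      · exact StarAlgebra.subset_adjoin ℂ _ (Or.inl (StarAlgebra.subset_adjoin ℂ _ (Or.inl hx)))
      · rcases Nat.le_succ_iff.1 hj with hj | rfl
        · exact StarAlgebra.subset_adjoin ℂ _
            (Or.inl (StarAlgebra.subset_adjoin ℂ _ (Or.inr ⟨j, ⟨hj, hji⟩, rfl⟩)))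
        · exact StarAlgebra.subset_adjoin ℂ _ (Or.inr rfl)

theorem main_estimate (τ : Tr A) (Q : Set A)
    (hext : ∀ S : Set A, S.Finite → ∃ a ∈ Q, Free τ (StarAlgebra.adjoin ℂ S : Set A) a)
    (u₀ : A) (hu₀ : u₀ ∈ unitary A) (z : A) (K : ℝ) (hK : 1 ≤ K) (hz : ‖z‖ ≤ K)
    (hz2 : τ.n2 z = 1) (δ : ℝ) (hδ : 0 < δ) :
    ∃ u ∈ unitary A, τ.n2 (u - u₀) ≤ δ ∧
      ∃ w ∈ Submonoid.closure ((Q ∩ unitary A) ∪ {u}), cK K ≤ (τ (w * star z)).re := by
  obtain ⟨a, b, ha, hb0, hbs, hb⟩ := exists_chain τ Q hext u₀ hu₀ z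
  obtain ⟨m, hm⟩ := exists_nat_gt (2 / δ ^ 2)
  have hmR : (0 : ℝ) < m := lt_trans (by positivity) hm
  have hm0 : 0 < m := by exact_mod_cast hmR
  have hzS : ∀ T : Set A, star z ∈ StarAlgebra.adjoin ℂ ({u₀, z} ∪ T) := fun T =>
    star_mem (StarAlgebra.subset_adjoin ℂ _ (Or.inl (by simp)))
  obtain ⟨h, hh, hh2, hest⟩ := core_estimate τ b m hm0 (b m * star z) K hK
    (by rw [CStarRing.norm_mem_unitary_mul _ (hb m).1, norm_star]; exact hz)
    (by rw [τ.n2_unitary_mul (hb m).1, τ.n2_star]; exact hz2)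
    ((hb m).2 _ _ (Red.last true _ (hzS _)))
    ((hb m).2 _ _ (Red.cons true true _ _ (hzS _) (fun h => absurd rfl h)
      (Red.last true _ (hzS _))))
    (fun i hi => ⟨_, free_of_chain τ _ b hb i m hi.le,
      mul_mem (StarAlgebra.subset_adjoin ℂ _ (Or.inr ⟨m, ⟨le_rfl, hi.ne'⟩, rfl⟩)) (hzS _),
      fun j hj hji => StarAlgebra.subset_adjoin ℂ _ (Or.inr ⟨j, ⟨hj.le, hji⟩, rfl⟩)⟩)
  refine ⟨cay h * u₀, mul_mem (cay_mem_unitary hh) hu₀, ?_,
    pp (fun j => b j * cay h * star (b j)) m * b m, ?_, by rwa [mul_assoc]⟩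
  · have e : cay h * u₀ - u₀ = (cay h - 1) * u₀ := by rw [sub_mul, one_mul]
    rw [e, τ.n2_mul_unitary hu₀]
    refine (n2_cay_sub_one_le hh τ).trans ?_
    refine (pow_le_pow_iff_left₀ (τ.n2_nonneg _) hδ.le two_ne_zero).mp (hh2.trans ?_)
    rw [div_lt_iff₀ (by positivity)] at hm
    rw [div_le_iff₀ hmR]; linarith
  · generalize m = n
    induction n with
    | zero =>
      rw [pp, one_mul, hb0]
      exact Submonoid.subset_closure (Or.inl (ha 0))
    | succ n ih =>
      have e : pp (fun j => b j * cay h * star (b j)) (n + 1) * b (n + 1)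
          = pp (fun j => b j * cay h * star (b j)) n * b n * (cay h * u₀) * a (n + 1) := by
        rw [pp, hbs]
        simp only [mul_assoc]
        rw [← mul_assoc (star (b n)), Unitary.star_mul_self_of_mem (hb n).1, one_mul]
      rw [e]
      exact mul_mem (mul_mem ih (Submonoid.subset_closure (Or.inr rfl)))
        (Submonoid.subset_closure (Or.inl (ha _)))

end Crest.Agent.R095
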