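import Crest.Agent.R095.Concrete

/-! Row 95: range projections, the gap lemma, and packing generators into one element. -/

set_option autoImplicit false

open Filter Topology
open scoped ComplexOrder InnerProductSpace ComplexConjugate

namespace Crest.Agent.R095

variable {H : Type*} [NormedAddCommGroup H] [InnerProductSpace ℂ H] [CompleteSpace H]

/-- Membership in a von Neumann algebra through its commutant. -/
lemma pack_mem_of_comm (N : VonNeumannAlgebra H) (y : H →L[ℂ] H)
    (h : ∀ T ∈ N.commutant, T * y = y * T) : y ∈ N := by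
  rw [← N.commutant_commutant, VonNeumannAlgebra.mem_commutant_iff]
  exact h

lemma pack_comm_of_mem (N : VonNeumannAlgebra H) {y T : H →L[ℂ] H} (hy : y ∈ N)
    (hT : T ∈ N.commutant) : T * y = y * T :=
  (VonNeumannAlgebra.mem_commutant_iff.mp hT y hy).symm

/-- The range projection. -/
lemma pack_rangeProj (y : H →L[ℂ] H) : ∃ q : H →L[ℂ] H, IsStarProjection q ∧ q * y = y ∧
    (∀ w : H →L[ℂ] H, w * y = 0 → w * q = 0) ∧
    ∀ T : H →L[ℂ] H, T * y = y * T → star T * y = y * star T → T * q = q * T := by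
  let K : Submodule ℂ H := (LinearMap.range (y : H →ₗ[ℂ] H)).topologicalClosure
  have hq : IsStarProjection K.starProjection := isStarProjection_starProjection
  have h1 : K.starProjection * y = y := by
    ext x
    rw [mul_apply_eq_comp, Submodule.starProjection_eq_self_iff]
    exact Submodule.le_topologicalClosure _ ⟨x, rfl⟩
  have h2 : ∀ w : H →L[ℂ] H, w * y = 0 → w * K.starProjection = 0 := by
    intro w hw
    have hle : K ≤ LinearMap.ker (w : H →ₗ[ℂ] H) := by
      refine Submodule.topologicalClosure_minimal _ ?_ (ContinuousLinearMap.isClosed_ker w)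
      rintro _ ⟨x, rfl⟩
      exact congrArg (fun f : H →L[ℂ] H => f x) hw
    ext x
    exact hle (K.starProjection_apply_mem x)
  refine ⟨K.starProjection, hq, h1, h2, fun T hT hT' => ?_⟩
  set q := K.starProjection
  have e1 : (1 - q) * T * q = 0 := by
    apply h2
    rw [mul_assoc, hT, ← mul_assoc, sub_mul, one_mul, h1, sub_self, zero_mul]
  have e2 : (1 - q) * star T * q = 0 := by
    apply h2
    rw [mul_assoc, hT', ← mul_assoc, sub_mul, one_mul, h1, sub_self, zero_mul]
  have e3 : q * T * (1 - q) = 0 := by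
    have := congrArg star e2
    rwa [star_mul, star_mul, star_star, star_sub, star_one, hq.isSelfAdjoint.star_eq, star_zero,
      ← mul_assoc] at this
  have e4 : T * q = q * T * q := by
    rw [sub_mul, sub_mul, one_mul, sub_eq_zero] at e1; exact e1
  have e5 : q * T = q * T * q := by
    rw [mul_sub, mul_one, sub_eq_zero] at e3; exact e3
  rw [e4, ← e5]

/-- The gap lemma. -/
lemma pack_gap {B : Type*} [NormedRing B] [NormedAlgebra ℝ B] (a q T : B) (c : ℝ)
    (hq : q * q = q) (hqa : q * a = a * q) (hc : 2 * ‖a‖ < c)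
    (hT : T * (a + c • q) = (a + c • q) * T) : T * q = q * T := by
  have hc0 : 0 < c := lt_of_le_of_lt (by positivity) hc
  have key : ∀ X : B, c • X = X * a - a * X → X = 0 := by
    intro X hX
    have h1 : c * ‖X‖ ≤ 2 * ‖a‖ * ‖X‖ := by
      calc c * ‖X‖ = ‖c • X‖ := by rw [norm_smul, Real.norm_eq_abs, abs_of_pos hc0]
        _ = ‖X * a - a * X‖ := by rw [hX]
        _ ≤ ‖X * a‖ + ‖a * X‖ := norm_sub_le _ _
        _ ≤ ‖X‖ * ‖a‖ + ‖a‖ * ‖X‖ := add_le_add (norm_mul_le _ _) (norm_mul_le _ _)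
        _ = _ := by ring
    by_contra hne
    have : 0 < ‖X‖ := norm_pos_iff.mpr hne
    nlinarith
  have key' : ∀ X : B, c • X = a * X - X * a → X = 0 := by
    intro X hX
    have h1 : c * ‖X‖ ≤ 2 * ‖a‖ * ‖X‖ := by
      calc c * ‖X‖ = ‖c • X‖ := by rw [norm_smul, Real.norm_eq_abs, abs_of_pos hc0]
        _ = ‖a * X - X * a‖ := by rw [hX]
        _ ≤ ‖a * X‖ + ‖X * a‖ := norm_sub_le _ _
        _ ≤ ‖a‖ * ‖X‖ + ‖X‖ * ‖a‖ := add_le_add (norm_mul_le _ _) (norm_mul_le _ _)
        _ = _ := by ring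
    by_contra hne
    have : 0 < ‖X‖ := norm_pos_iff.mpr hne
    nlinarith
  have hT' : T * a + c • (T * q) = a * T + c • (q * T) := by
    simpa only [mul_add, add_mul, mul_smul_comm, smul_mul_assoc] using hT
  have hqq : ∀ z : B, q * (q * z) = q * z := fun z => by rw [← mul_assoc, hq]
  have haq : ∀ z : B, q * (a * z) = a * (q * z) := fun z => by rw [← mul_assoc, hqa, mul_assoc]
  have e1 : q * T * (1 - q) = 0 := by
    apply key
    have h := congrArg (fun z => q * z * (1 - q)) hT'
    simp only [mul_add, add_mul, mul_smul_comm, smul_mul_assoc, mul_sub, sub_mul, mul_one,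
      mul_assoc, hq, hqq, haq, hqa, smul_sub] at h ⊢
    linear_combination (norm := abel1) -h
  have e2 : (1 - q) * T * q = 0 := by
    apply key'
    have h := congrArg (fun z => (1 - q) * z * q) hT'
    simp only [mul_add, add_mul, mul_smul_comm, smul_mul_assoc, mul_sub, sub_mul, one_mul,
      mul_assoc, hq, hqq, haq, hqa, smul_sub] at h ⊢
    linear_combination (norm := abel1) h
  have e4 : T * q = q * T * q := by
    rw [sub_mul, sub_mul, one_mul, sub_eq_zero] at e2; exact e2
  have e5 : q * T = q * T * q := by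
    rw [mul_sub, mul_one, sub_eq_zero] at e1; exact e1
  rw [e4, ← e5]

/-- A self-adjoint operator that is not a scalar splits. -/
lemma pack_split (x : H →L[ℂ] H) (hx : IsSelfAdjoint x) (hns : ∀ c : ℝ, x ≠ algebraMap ℝ _ c) :
    ∃ t : ℝ, (x - algebraMap ℝ _ t)⁺ ≠ 0 ∧ (x - algebraMap ℝ _ t)⁻ ≠ 0 := by
  have hne : ¬ (spectrum ℝ x).Subsingleton := by
    intro hs
    rcases hs.eq_empty_or_singleton with h0 | ⟨c, hc⟩
    · exact hns 0 (CFC.eq_algebraMap_of_spectrum_subset_singleton x 0 (by rw [h0]; simp) hx)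
    · exact hns c (CFC.eq_algebraMap_of_spectrum_subset_singleton x c hc.subset hx)
  obtain ⟨l, hl, m, hm, hlm⟩ : ∃ l ∈ spectrum ℝ x, ∃ m ∈ spectrum ℝ x, l < m := by
    rw [Set.not_subsingleton_iff] at hne
    obtain ⟨l, hl, m, hm, hlm⟩ := hne
    rcases lt_or_gt_of_ne hlm with h | h
    · exact ⟨l, hl, m, hm, h⟩
    · exact ⟨m, hm, l, hl, h⟩
  have hs : IsSelfAdjoint (x - algebraMap ℝ (H →L[ℂ] H) ((l + m) / 2)) :=
    hx.sub (IsSelfAdjoint.algebraMap _ (.all _))
  refine ⟨(l + m) / 2, fun h => ?_, fun h => ?_⟩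
  · rw [CFC.posPart_eq_zero_iff _ hs, sub_nonpos, le_algebraMap_iff_spectrum_le hx] at h
    have := h m hm
    linarith
  · rw [CFC.negPart_eq_zero_iff _ hs, sub_nonneg, algebraMap_le_iff_le_spectrum hx] at h
    have := h l hl
    linarith

lemma pack_comm_posPart {b T : H →L[ℂ] H} (h : T * b = b * T) : T * b⁺ = b⁺ * T := by
  rw [CFC.posPart_def]
  exact (Commute.cfcₙ_real (a := b) (b := T) h.symm _).symm

/-- An infinite-dimensional von Neumann algebra has a nontrivial projection. -/
theorem exists_nontrivial_proj (M : VonNeumannAlgebra H)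
    (hinf : ¬ FiniteDimensional ℂ M.toStarSubalgebra) :
    ∃ p ∈ M, IsStarProjection p ∧ p ≠ 0 ∧ p ≠ 1 := by
  obtain ⟨x, hxM, hx, hns⟩ : ∃ x ∈ M, IsSelfAdjoint x ∧ ∀ c : ℝ, x ≠ algebraMap ℝ _ c := by
    by_contra hcon
    push Not at hcon
    apply hinf
    have hle : M.toStarSubalgebra.toSubalgebra.toSubmodule ≤ ℂ ∙ (1 : H →L[ℂ] H) := by
      intro z hz
      have hz' : z ∈ M.toStarSubalgebra := hz
      have h1 : (realPart z : H →L[ℂ] H) ∈ M := by
        rw [realPart_apply_coe, ← Complex.coe_smul]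
        exact M.toStarSubalgebra.smul_mem (add_mem hz' (star_mem hz')) _
      have h2 : (imaginaryPart z : H →L[ℂ] H) ∈ M := by
        rw [imaginaryPart_apply_coe, ← Complex.coe_smul]
        exact M.toStarSubalgebra.smul_mem
          (M.toStarSubalgebra.smul_mem (sub_mem hz' (star_mem hz')) _) _
      obtain ⟨c, hc⟩ := hcon _ h1 (realPart z).prop
      obtain ⟨d, hd⟩ := hcon _ h2 (imaginaryPart z).prop
      rw [← realPart_add_I_smul_imaginaryPart z, hc, hd, Algebra.algebraMap_eq_smul_one,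
        Algebra.algebraMap_eq_smul_one, ← Complex.coe_smul, ← Complex.coe_smul]
      exact add_mem (Submodule.smul_mem _ _ (Submodule.mem_span_singleton_self _))
        (Submodule.smul_mem _ _ (Submodule.smul_mem _ _ (Submodule.mem_span_singleton_self _)))
    exact Submodule.finiteDimensional_of_le hle
  obtain ⟨t, h1, h2⟩ := pack_split x hx hns
  set b := x - algebraMap ℝ (H →L[ℂ] H) t with hb
  obtain ⟨q, hq, hq1, hq2, hq3⟩ := pack_rangeProj b⁺
  have hbT : ∀ T ∈ M.commutant, T * b⁺ = b⁺ * T := by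
    intro T hT
    apply pack_comm_posPart
    rw [hb, mul_sub, sub_mul, pack_comm_of_mem M hxM hT, Algebra.commutes]
  refine ⟨q, pack_mem_of_comm M q fun T hT => hq3 T (hbT T hT) (hbT _ (star_mem hT)), hq, ?_, ?_⟩
  · rintro rfl
    exact h1 (by rw [← hq1, zero_mul])
  · rintro rfl
    exact h2 (by simpa using hq2 _ (CFC.negPart_mul_posPart b))

/-- Real and imaginary parts of `x = s + i t` commute with the commutant. -/
lemma pack_parts {s t T : H →L[ℂ] H} (hs : IsSelfAdjoint s) (ht : IsSelfAdjoint t)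
    (h1 : T * (s + Complex.I • t) = (s + Complex.I • t) * T)
    (h2 : T * star (s + Complex.I • t) = star (s + Complex.I • t) * T) :
    T * s = s * T ∧ T * t = t * T := by
  rw [star_add, star_smul, hs.star_eq, ht.star_eq, Complex.star_def, Complex.conj_I] at h2
  simp only [mul_add, add_mul, mul_smul_comm, smul_mul_assoc, neg_smul, mul_neg, neg_mul] at h1 h2
  have e1 : T * s = s * T := by
    have : (2 : ℂ) • (T * s) = (2 : ℂ) • (s * T) := by
      rw [two_smul, two_smul]
      linear_combination (norm := abel1) h1 + h2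
    exact smul_right_injective _ two_ne_zero this
  refine ⟨e1, ?_⟩
  rw [e1, add_right_inj] at h1
  exact smul_right_injective _ Complex.I_ne_zero h1

/-- Packing: `h` diagonal, `v` off-diagonal, `u` a unitary of the corner `p M p`; one element of
`M` generates all four. -/
theorem exists_pack (M : VonNeumannAlgebra H) (h p v u : H →L[ℂ] H) (hh : h ∈ M) (hpM : p ∈ M)
    (hv : v ∈ M) (hu : u ∈ M) (hp : IsStarProjection p) (hhs : IsSelfAdjoint h)
    (hvs : IsSelfAdjoint v) (hhp : h * p = p * h) (hv1 : p * v * p = 0)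
    (hu0 : p * u * p = u) (hu1 : star u * u = p) (hu2 : u * star u = p) :
    ∃ x ∈ M, ∀ N : VonNeumannAlgebra H, x ∈ N → h ∈ N ∧ p ∈ N ∧ v ∈ N ∧ u ∈ N := by
  have hpp : p * p = p := hp.isIdempotentElem
  have hps : star p = p := hp.isSelfAdjoint.star_eq
  have hpu : p * u = u := by rw [← hu0, ← mul_assoc, ← mul_assoc, hpp]
  have hup : u * p = u := by rw [← hu0, mul_assoc, hpp]
  have hpu' : p * star u = star u := by rw [← hps, ← star_mul, hup]
  have hup' : star u * p = star u := by rw [← hps, ← star_mul, hpu]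
  -- real and imaginary parts
  obtain ⟨a, ha⟩ : ∃ a : H →L[ℂ] H, a = (2⁻¹ : ℂ) • (u + star u) := ⟨_, rfl⟩
  obtain ⟨b, hb⟩ : ∃ b : H →L[ℂ] H, b = (-Complex.I * 2⁻¹ : ℂ) • (u - star u) := ⟨_, rfl⟩
  have has : IsSelfAdjoint a := by
    rw [IsSelfAdjoint, ha, star_smul, star_add, star_star, add_comm]; simp
  have hbs : IsSelfAdjoint b := by
    rw [IsSelfAdjoint, hb, star_smul, star_sub, star_star, ← neg_sub u, smul_neg, ← neg_smul]; simp
  have huab : u = a + Complex.I • b := by
    rw [ha, hb, smul_smul, ← mul_assoc, mul_neg, Complex.I_mul_I, neg_neg, one_mul, ← smul_add,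
      show u + star u + (u - star u) = (2 : ℂ) • u by rw [two_smul]; abel, smul_smul]
    simp
  have hab : a * b = b * a := by
    rw [ha, hb]
    simp only [smul_mul_assoc, mul_smul_comm, mul_add, add_mul, mul_sub, sub_mul, hu1, hu2]
    module
  have hsq : b * b = p - a * a := by
    rw [ha, hb]
    rw [smul_mul_assoc, mul_smul_comm, smul_smul,
      show -Complex.I * 2⁻¹ * (-Complex.I * 2⁻¹) = -(4⁻¹ : ℂ) by
        linear_combination (4⁻¹ : ℂ) * Complex.I_mul_I]
    simp only [smul_mul_assoc, mul_smul_comm, mul_add, add_mul, mul_sub, sub_mul, hu1, hu2]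
    module
  have hpa : p * a = a := by rw [ha, mul_smul_comm, mul_add, hpu, hpu']
  have hap : a * p = a := by rw [ha, smul_mul_assoc, add_mul, hup, hup']
  have hpb : p * b = b := by rw [hb, mul_smul_comm, mul_sub, hpu, hpu']
  have haM : a ∈ M := by
    rw [ha]; exact M.toStarSubalgebra.smul_mem (add_mem hu (star_mem hu)) _
  have hbM : b ∈ M := by
    rw [hb]; exact M.toStarSubalgebra.smul_mem (sub_mem hu (star_mem hu)) _
  -- positive and negative parts
  have hpos : IsSelfAdjoint b⁺ := IsSelfAdjoint.of_nonneg (CFC.posPart_nonneg b)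
  have hneg : IsSelfAdjoint b⁻ := IsSelfAdjoint.of_nonneg (CFC.negPart_nonneg b)
  have hpn : b⁺ - b⁻ = b := CFC.posPart_sub_negPart b hbs
  have hpn1 : b⁺ * b⁻ = 0 := CFC.posPart_mul_negPart b
  have hpn2 : b⁻ * b⁺ = 0 := CFC.negPart_mul_posPart b
  obtain ⟨q, hq, hq1, hq2, hq3⟩ := pack_rangeProj b⁺
  have hqs : star q = q := hq.isSelfAdjoint.star_eq
  have hqM : q ∈ M := pack_mem_of_comm M q fun T hT =>
    hq3 T (pack_comm_posPart (pack_comm_of_mem M hbM hT))
      (pack_comm_posPart (pack_comm_of_mem M hbM (star_mem hT)))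
  have hqa : q * a = a * q := by
    refine (hq3 a (pack_comm_posPart hab) ?_).symm
    rw [has.star_eq]; exact pack_comm_posPart hab
  have hqneg : q * b⁻ = 0 := by
    have := congrArg star (hq2 _ hpn2)
    rwa [star_mul, hqs, hneg.star_eq, star_zero] at this
  have hpq : p * q = q := by
    -- `(1 - p) b⁺ b⁺ = (1 - p) b b⁺ = 0`
    have e1 : (1 - p) * b⁺ * b⁺ = 0 := by
      have : b⁺ * b⁺ = b * b⁺ := by
        calc b⁺ * b⁺ = (b⁺ - b⁻) * b⁺ := by rw [sub_mul, hpn2, sub_zero]
          _ = _ := by rw [hpn]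
      rw [mul_assoc, this, ← mul_assoc, sub_mul, one_mul, hpb, sub_self, zero_mul]
    have e2 : (1 - p) * b⁺ * q = 0 := hq2 _ e1
    have e3 : b⁺ * q = b⁺ := by
      have := congrArg star hq1
      rwa [star_mul, hqs, hpos.star_eq] at this
    rw [mul_assoc, e3] at e2
    have e4 := hq2 _ e2
    rw [sub_mul, one_mul, sub_eq_zero] at e4
    exact e4.symm
  have hqp : q * p = q := by rw [← hqs, ← hps, ← star_mul, hpq]
  have habs : CFC.sqrt (p - a * a) = b⁺ + b⁻ := by
    apply CFC.sqrt_unique _ (add_nonneg (CFC.posPart_nonneg b) (CFC.negPart_nonneg b))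
    rw [← hsq]
    calc (b⁺ + b⁻) * (b⁺ + b⁻) = (b⁺ - b⁻) * (b⁺ - b⁻) := by
          simp only [mul_add, add_mul, mul_sub, sub_mul, hpn1, hpn2]; abel
      _ = b * b := by rw [hpn]
  have hbq : b = (2 : ℝ) • (q * (b⁺ + b⁻)) - (b⁺ + b⁻) := by
    rw [mul_add, hq1, hqneg, add_zero, two_smul]
    calc b = b⁺ - b⁻ := hpn.symm
      _ = _ := by abel
  -- the element
  obtain ⟨d, hd⟩ : ∃ d : ℝ, d = 2 * ‖a‖ + 1 := ⟨_, rfl⟩
  obtain ⟨c, hc⟩ : ∃ c : ℝ, c = 2 * ‖h‖ + 1 := ⟨_, rfl⟩
  obtain ⟨k, hk⟩ : ∃ k : H →L[ℂ] H, k = a + d • q := ⟨_, rfl⟩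
  have hks : IsSelfAdjoint k := by
    rw [hk]; exact has.add ((IsSelfAdjoint.all d).smul hq.isSelfAdjoint)
  have hkM : k ∈ M := by
    rw [hk, ← Complex.coe_smul]; exact add_mem haM (M.toStarSubalgebra.smul_mem hqM _)
  have hpkp : p * (v + k) * p = k := by
    rw [mul_add, add_mul, hv1, zero_add, hk, mul_add, add_mul, hpa, hap, mul_smul_comm,
      smul_mul_assoc, hpq, hqp]
  have hs1 : IsSelfAdjoint (h + c • p) := hhs.add ((IsSelfAdjoint.all c).smul hp.isSelfAdjoint)
  have hs2 : IsSelfAdjoint (v + k) := hvs.add hks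
  refine ⟨(h + c • p) + Complex.I • (v + k), ?_, fun N hN => ?_⟩
  · rw [← Complex.coe_smul]
    exact add_mem (add_mem hh (M.toStarSubalgebra.smul_mem hpM _))
      (M.toStarSubalgebra.smul_mem (add_mem hv hkM) _)
  have key : ∀ T ∈ N.commutant,
      T * h = h * T ∧ T * p = p * T ∧ T * v = v * T ∧ T * u = u * T := by
    intro T hT
    obtain ⟨e1, e2⟩ := pack_parts hs1 hs2 (pack_comm_of_mem N hN hT)
      (pack_comm_of_mem N (star_mem hN) hT)
    have eP : T * p = p * T := pack_gap h p T c hpp hhp.symm (by rw [hc]; linarith) e1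
    have eH : T * h = h * T := by
      rw [mul_add, add_mul, mul_smul_comm, smul_mul_assoc, eP, add_left_inj] at e1; exact e1
    have eK : T * k = k * T := by
      rw [← hpkp]
      exact (Commute.mul_right (Commute.mul_right eP e2) eP)
    have eV : T * v = v * T := by
      rw [mul_add, add_mul, eK, add_left_inj] at e2; exact e2
    have eQ : T * q = q * T :=
      pack_gap a q T d hq.isIdempotentElem hqa (by rw [hd]; linarith) (by rw [← hk]; exact eK)
    have eA : T * a = a * T := by
      rw [hk, mul_add, add_mul, mul_smul_comm, smul_mul_assoc, eQ, add_left_inj] at eK; exact eK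
    have eS : Commute T (b⁺ + b⁻) := by
      rw [← habs]
      have : Commute (p - a * a) T :=
        (Commute.sub_right (a := T) eP (Commute.mul_right (a := T) eA eA)).symm
      exact (this.cfcₙ_nnreal NNReal.sqrt).symm
    have eB : T * b = b * T := by
      rw [hbq]
      exact Commute.sub_right (a := T) (Commute.smul_right (Commute.mul_right (a := T) eQ eS) _) eS
    refine ⟨eH, eP, eV, ?_⟩
    rw [huab]
    exact Commute.add_right (a := T) eA (Commute.smul_right (a := T) eB _)
  exact ⟨pack_mem_of_comm N h fun T hT => (key T hT).1,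
    pack_mem_of_comm N p fun T hT => (key T hT).2.1,
    pack_mem_of_comm N v fun T hT => (key T hT).2.2.1,
    pack_mem_of_comm N u fun T hT => (key T hT).2.2.2⟩

end Crest.Agent.R095
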